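import Mathlib
import Vale.Agent.P098.Cone.Calculus

/-!
# P100: superharmonic functions with a puncture, and their weighted means

A function that is continuous on all of space and superharmonic away from the origin is weakly
superharmonic; so the means `R ^ (-n-4) ∫ f (R ^ 2 - |x - a| ^ 2)_+ ^ 2` decrease in `R`, and a
positive such function is bounded below by the limit of these means at any centre.
-/

namespace Vale.Agent.P100

open MeasureTheory Set Filter Topology Finset Function
open Vale.Agent.P098.Cone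
open scoped ContDiff

noncomputable section

variable {n : ℕ}

/-- The squared euclidean length. -/
def sqr (x : Fin n → ℝ) : ℝ := ∑ i, x i ^ 2

/-- The Laplacian. -/
def lap (f : (Fin n → ℝ) → ℝ) (x : Fin n → ℝ) : ℝ := ∑ i, pd (pd f i) i x

theorem continuous_sqr : Continuous (sqr (n := n)) := by
  unfold sqr; fun_prop

theorem contDiff_sqr : ContDiff ℝ ∞ (sqr (n := n)) := by
  unfold sqr; fun_prop

theorem sqr_nonneg (x : Fin n → ℝ) : 0 ≤ sqr x := sum_nonneg fun _ _ => sq_nonneg _

theorem sq_le_sqr (x : Fin n → ℝ) (i : Fin n) : x i ^ 2 ≤ sqr x :=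
  single_le_sum (f := fun j => x j ^ 2) (fun _ _ => sq_nonneg _) (mem_univ i)

theorem sqr_pos {x : Fin n → ℝ} (hx : x ≠ 0) : 0 < sqr x :=
  (sqr_nonneg x).lt_of_ne fun h => hx (funext fun i => by
    have := (sum_eq_zero_iff_of_nonneg fun j _ => sq_nonneg (x j)).1 h.symm i (mem_univ i)
    exact pow_eq_zero_iff two_ne_zero |>.1 this)

theorem sqr_zero : sqr (0 : Fin n → ℝ) = 0 := by simp [sqr]

theorem sqr_smul (r : ℝ) (x : Fin n → ℝ) : sqr (r • x) = r ^ 2 * sqr x := by
  simp only [sqr, Pi.smul_apply, smul_eq_mul, mul_pow, mul_sum]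

theorem mem_box {x a : Fin n → ℝ} {R : ℝ} (hR : 0 ≤ R) (h : sqr (x - a) ≤ R ^ 2) :
    x ∈ Icc (fun i => a i - R) (fun i => a i + R) := by
  have : ∀ i, -R ≤ x i - a i ∧ x i - a i ≤ R := fun i =>
    abs_le_of_sq_le_sq' ((sq_le_sqr (x - a) i).trans h) hR
  exact ⟨fun i => by linarith [(this i).1], fun i => by linarith [(this i).2]⟩

theorem contDiffOn_pd_two {f : (Fin n → ℝ) → ℝ} {O : Set (Fin n → ℝ)} (hf : ContDiffOn ℝ 2 f O)
    (hO : IsOpen O) (i : Fin n) : ContDiffOn ℝ 1 (pd f i) O :=
  (hf.fderiv_of_isOpen hO (by norm_num)).clm_apply contDiffOn_const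

theorem contDiff_pd_two {f : (Fin n → ℝ) → ℝ} (hf : ContDiff ℝ 2 f) (i : Fin n) :
    ContDiff ℝ 1 (pd f i) :=
  (hf.fderiv_right (by norm_num)).clm_apply contDiff_const

theorem continuous_pd_one {f : (Fin n → ℝ) → ℝ} (hf : ContDiff ℝ 1 f) (i : Fin n) :
    Continuous (pd f i) :=
  (hf.continuous_fderiv one_ne_zero).clm_apply continuous_const

theorem continuous_lap {f : (Fin n → ℝ) → ℝ} (hf : ContDiff ℝ 2 f) : Continuous (lap f) :=
  continuous_finsetSum _ fun i _ => continuous_pd_one (contDiff_pd_two hf i) i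

theorem lap_congr {f g : (Fin n → ℝ) → ℝ} {x : Fin n → ℝ} (h : f =ᶠ[𝓝 x] g) : lap f x = lap g x :=
  sum_congr rfl fun i _ => pd_congr ((h.eventuallyEq_nhds).mono fun _ hy => pd_congr hy i) i

theorem lap_eq_zero_of_notMem {f : (Fin n → ℝ) → ℝ} {x : Fin n → ℝ} (hx : x ∉ tsupport f) :
    lap f x = 0 :=
  sum_eq_zero fun i _ => image_eq_zero_of_notMem_tsupport fun h =>
    hx ((tsupport_pd _ _).trans (tsupport_pd _ _) h)

theorem hasCompactSupport_lap {f : (Fin n → ℝ) → ℝ} (hf : HasCompactSupport f) :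
    HasCompactSupport (lap f) :=
  HasCompactSupport.intro hf fun _ hx => lap_eq_zero_of_notMem hx

/-- The product rule. -/
theorem lap_mul {f g : (Fin n → ℝ) → ℝ} (hf : ContDiff ℝ 2 f) (hg : ContDiff ℝ 2 g)
    (x : Fin n → ℝ) :
    lap (fun y => f y * g y) x = f x * lap g x + g x * lap f x + 2 * ∑ i, pd f i x * pd g i x := by
  have df : ∀ y, DifferentiableAt ℝ f y := fun y => hf.differentiable (by norm_num) y
  have dg : ∀ y, DifferentiableAt ℝ g y := fun y => hg.differentiable (by norm_num) y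
  simp only [lap, mul_sum, ← sum_add_distrib]
  refine sum_congr rfl fun i _ => ?_
  have dpf := (contDiff_pd_two hf i).differentiable one_ne_zero x
  have dpg := (contDiff_pd_two hg i).differentiable one_ne_zero x
  rw [show pd (fun y => f y * g y) i = fun y => f y * pd g i y + g y * pd f i y from
      funext fun y => pd_mul (df y) (dg y) i,
    pd_add ((df x).fun_mul dpg) ((dg x).fun_mul dpf), pd_mul (df x) dpg, pd_mul (dg x) dpf]
  ring

/-- Green's identity for a compactly supported second factor. -/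
theorem integral_mul_lap {F ψ : (Fin n → ℝ) → ℝ} (hF : ContDiff ℝ 2 F) (hψ : ContDiff ℝ 2 ψ)
    (hc : HasCompactSupport ψ) : ∫ x, F x * lap ψ x = ∫ x, ψ x * lap F x := by
  have hint : ∀ i, Integrable fun x => F x * pd (pd ψ i) i x - ψ x * pd (pd F i) i x := fun i =>
    ((hF.continuous.mul (continuous_pd_one (contDiff_pd_two hψ i) i)).integrable_of_hasCompactSupport
      (HasCompactSupport.mul_left (hasCompactSupport_pd (hasCompactSupport_pd hc i) i))).sub
      ((hψ.continuous.mul (continuous_pd_one (contDiff_pd_two hF i) i)).integrable_of_hasCompactSupport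
        hc.mul_right)
  have hz : ∀ i, ∫ x, F x * pd (pd ψ i) i x - ψ x * pd (pd F i) i x = 0 := fun i => by
    have hG : ContDiff ℝ 1 fun x => F x * pd ψ i x - ψ x * pd F i x :=
      ((hF.of_le (by norm_num)).mul (contDiff_pd_two hψ i)).sub
        ((hψ.of_le (by norm_num)).mul (contDiff_pd_two hF i))
    refine Eq.trans ?_ (integral_pd_zero hG
      (HasCompactSupport.sub (hasCompactSupport_pd hc i).mul_left hc.mul_right) i)
    refine integral_congr_ae (.of_forall fun x => ?_)
    show _ = pd (fun x => F x * pd ψ i x - ψ x * pd F i x) i x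
    have dF := hF.differentiable (by norm_num) x
    have dψ := hψ.differentiable (by norm_num) x
    have dpF := (contDiff_pd_two hF i).differentiable one_ne_zero x
    have dpψ := (contDiff_pd_two hψ i).differentiable one_ne_zero x
    rw [pd_sub (dF.fun_mul dpψ) (dψ.fun_mul dpF), pd_mul dF dpψ, pd_mul dψ dpF]
    ring
  have e : ∫ x, (F x * lap ψ x - ψ x * lap F x) = 0 := by
    simp only [lap, mul_sum, ← sum_sub_distrib]
    rw [integral_finsetSum _ fun i _ => hint i]
    exact sum_eq_zero fun i _ => hz i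
  have i1 : Integrable fun x => F x * lap ψ x :=
    (hF.continuous.mul (continuous_lap hψ)).integrable_of_hasCompactSupport
      (hasCompactSupport_lap hc).mul_left
  have i2 : Integrable fun x => ψ x * lap F x :=
    (hψ.continuous.mul (continuous_lap hF)).integrable_of_hasCompactSupport hc.mul_right
  rw [integral_sub i1 i2] at e
  exact sub_eq_zero.1 e

/-- Continuous, twice differentiable away from the origin, with Laplacian at most `-g` there. -/
structure PunctSuper (f g : (Fin n → ℝ) → ℝ) : Prop where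
  cont : Continuous f
  smooth : ContDiffOn ℝ 2 f {x | x ≠ 0}
  gcont : Continuous g
  le : ∀ x, x ≠ 0 → lap f x ≤ -g x

variable {f g φ : (Fin n → ℝ) → ℝ}

theorem PunctSuper.weak_off (h : PunctSuper f g) {ψ : (Fin n → ℝ) → ℝ} (hψ : ContDiff ℝ 2 ψ)
    (hc : HasCompactSupport ψ) (h0 : (0 : Fin n → ℝ) ∉ tsupport ψ) (hnn : ∀ x, 0 ≤ ψ x) :
    ∫ x, f x * lap ψ x ≤ -∫ x, g x * ψ x := by
  have hO : IsOpen {x : Fin n → ℝ | x ≠ 0} := isOpen_ne
  have hsub : tsupport ψ ⊆ {x : Fin n → ℝ | x ≠ 0} := fun x hx e => h0 (e ▸ hx)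
  obtain ⟨χ, hχ, -, hχs, -, hχ1⟩ := exists_cutoff hc hO hsub
  set F : (Fin n → ℝ) → ℝ := fun x => χ x * f x
  have hF : ContDiff ℝ 2 F :=
    contDiff_mul_of_tsupport (hχ.of_le (WithTop.coe_le_coe.2 le_top)) hO hχs h.smooth
  have heq : ∀ x ∈ tsupport ψ, F =ᶠ[𝓝 x] f := fun x hx => by
    filter_upwards [hχ1.filter_mono (nhds_le_nhdsSet hx)] with y hy
    simp [F, hy]
  calc ∫ x, f x * lap ψ x = ∫ x, F x * lap ψ x := by
        refine integral_congr_ae (.of_forall fun x => ?_)
        by_cases hx : x ∈ tsupport ψ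
        · exact congrArg (· * _) (heq x hx).self_of_nhds.symm
        · simp [lap_eq_zero_of_notMem hx]
    _ = ∫ x, ψ x * lap F x := integral_mul_lap hF hψ hc
    _ ≤ ∫ x, -(g x * ψ x) := by
        refine integral_mono ((hψ.continuous.mul (continuous_lap hF)).integrable_of_hasCompactSupport
          hc.mul_right) ((h.gcont.mul hψ.continuous).integrable_of_hasCompactSupport hc.mul_left).neg
          fun x => ?_
        by_cases hx : x ∈ tsupport ψ
        · have := mul_le_mul_of_nonneg_left (h.le x (hsub hx)) (hnn x)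
          simp only [Pi.neg_apply]
          rw [lap_congr (heq x hx)]
          linarith
        · simp [image_eq_zero_of_notMem_tsupport hx]
    _ = _ := integral_neg _

/-- The cut-off around the origin. -/
def hole (ε : ℝ) (x : Fin n → ℝ) : ℝ := Real.smoothTransition (sqr x / ε ^ 2 - 1)

theorem contDiff_hole (ε : ℝ) : ContDiff ℝ ∞ (hole (n := n) ε) :=
  Real.smoothTransition.contDiff.comp ((contDiff_sqr.div_const _).sub contDiff_const)

theorem hole_mem (ε : ℝ) (x : Fin n → ℝ) : hole ε x ∈ Icc (0 : ℝ) 1 :=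
  ⟨Real.smoothTransition.nonneg _, Real.smoothTransition.le_one _⟩

theorem pd_sqr (x : Fin n → ℝ) (i : Fin n) : pd sqr i x = 2 * x i := by
  rw [show sqr (n := n) = fun y => ∑ j, y j * y j from funext fun y => by simp [sqr, sq],
    pd_sum _ (F := fun j y => y j * y j) fun j _ =>
      (differentiableAt_apply j x).mul (differentiableAt_apply j x)]
  simp [pd_mul (differentiableAt_apply _ x) (differentiableAt_apply _ x), pd_coord,
    sum_add_distrib]
  ring

/-- The gradient and the Laplacian of a function of the squared length. -/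
theorem radial {θ θ' θ'' : ℝ → ℝ} (h1 : ∀ t, HasDerivAt θ (θ' t) t)
    (h2 : ∀ t, HasDerivAt θ' (θ'' t) t) (x : Fin n → ℝ) :
    (∀ i, pd (fun y => θ (sqr y)) i x = 2 * x i * θ' (sqr x)) ∧
      lap (fun y => θ (sqr y)) x = 4 * sqr x * θ'' (sqr x) + 2 * n * θ' (sqr x) := by
  have ds : ∀ y, DifferentiableAt ℝ (sqr (n := n)) y := fun y =>
    contDiff_sqr.differentiable (by simp) y
  have e : ∀ i y, pd (fun y => θ (sqr y)) i y = 2 * y i * θ' (sqr y) := fun i y => by
    rw [pd_comp (h1 _) (ds y), pd_sqr]; ring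
  refine ⟨fun i => e i x, ?_⟩
  have e2 : ∀ i, pd (pd (fun y => θ (sqr y)) i) i x
      = 4 * x i ^ 2 * θ'' (sqr x) + 2 * θ' (sqr x) := fun i => by
    rw [show pd (fun y => θ (sqr y)) i = fun y => 2 * y i * θ' (sqr y) from funext (e i),
      pd_mul (g := fun y => θ' (sqr y)) ((differentiableAt_apply i x).const_mul 2)
        ((h2 _).differentiableAt.comp x (ds x)),
      pd_comp (h2 _) (ds x), pd_sqr, pd_mul (differentiableAt_const _) (differentiableAt_apply i x),
      pd_coord, pd_const, if_pos rfl]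
    ring
  simp only [lap, e2, sum_add_distrib, ← sum_mul, ← mul_sum, sum_const, card_univ, Fintype.card_fin,
    nsmul_eq_mul]
  simp only [sqr]
  ring

/-- Scale invariant bounds on the derivatives of the cut-off. -/
theorem hole_bound (n : ℕ) : ∃ C, 0 ≤ C ∧ ∀ ε, 0 < ε → ∀ x : Fin n → ℝ, |lap (hole ε) x| ≤ C / ε ^ 2 ∧
    (∀ i, |pd (hole ε) i x| ≤ C / ε) ∧ (sqr x < ε ^ 2 → hole ε x = 0) ∧
    (2 * ε ^ 2 < sqr x → hole ε x = 1 ∧ lap (hole ε) x = 0 ∧ ∀ i, pd (hole ε) i x = 0) := by
  have hd1 : Continuous (deriv Real.smoothTransition) :=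
    Real.smoothTransition.contDiff.continuous_deriv (n := (1 : ℕ∞)) le_rfl
  have hc2 : ContDiff ℝ ∞ (deriv Real.smoothTransition) :=
    (contDiff_infty_iff_deriv.1 Real.smoothTransition.contDiff).2
  have hd2 : Continuous (deriv (deriv Real.smoothTransition)) :=
    hc2.continuous_deriv (by simp)
  have z1 : ∀ t, 1 < t → deriv Real.smoothTransition t = 0 := fun t ht =>
    HasDerivAt.deriv ((hasDerivAt_const t (1 : ℝ)).congr_of_eventuallyEq (by
      filter_upwards [lt_mem_nhds ht] with s hs using Real.smoothTransition.one_of_one_le hs.le))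
  have z0 : ∀ t, t < 0 → deriv Real.smoothTransition t = 0 := fun t ht =>
    HasDerivAt.deriv ((hasDerivAt_const t (0 : ℝ)).congr_of_eventuallyEq (by
      filter_upwards [gt_mem_nhds ht] with s hs using Real.smoothTransition.zero_of_nonpos hs.le))
  have z1' : ∀ t, 1 < t → deriv (deriv Real.smoothTransition) t = 0 := fun t ht =>
    HasDerivAt.deriv ((hasDerivAt_const t (0 : ℝ)).congr_of_eventuallyEq (by
      filter_upwards [lt_mem_nhds ht] with s hs using z1 s hs))
  have z0' : ∀ t, t < 0 → deriv (deriv Real.smoothTransition) t = 0 := fun t ht =>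
    HasDerivAt.deriv ((hasDerivAt_const t (0 : ℝ)).congr_of_eventuallyEq (by
      filter_upwards [gt_mem_nhds ht] with s hs using z0 s hs))
  obtain ⟨A, hA⟩ := isCompact_Icc.exists_bound_of_continuousOn (s := Icc (0 : ℝ) 1) hd1.continuousOn
  obtain ⟨B, hB⟩ := isCompact_Icc.exists_bound_of_continuousOn (s := Icc (0 : ℝ) 1) hd2.continuousOn
  have hA0 : 0 ≤ A := (norm_nonneg _).trans (hA 0 (by simp))
  have hB0 : 0 ≤ B := (norm_nonneg _).trans (hB 0 (by simp))
  refine ⟨8 * B + (2 * n + 4) * A, by positivity, fun ε hε x => ?_⟩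
  set t := sqr x / ε ^ 2 - 1
  have hθ : ∀ s, HasDerivAt (fun s => Real.smoothTransition (s / ε ^ 2 - 1))
      (deriv Real.smoothTransition (s / ε ^ 2 - 1) / ε ^ 2) s := fun s => by
    refine (((Real.smoothTransition.contDiff (n := (1 : ℕ∞))).differentiable one_ne_zero _).hasDerivAt.comp s
      (((hasDerivAt_id' s).div_const _).sub_const 1)).congr_deriv ?_
    ring
  have hθ' : ∀ s, HasDerivAt (fun s => deriv Real.smoothTransition (s / ε ^ 2 - 1) / ε ^ 2)
      (deriv (deriv Real.smoothTransition) (s / ε ^ 2 - 1) / ε ^ 2 / ε ^ 2) s := fun s => by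
    refine ((((hc2.differentiable (by simp)) _).hasDerivAt.comp s
      (((hasDerivAt_id' s).div_const _).sub_const 1)).div_const _).congr_deriv ?_
    ring
  obtain ⟨hg, hl⟩ := radial hθ hθ' x
  have hl' : lap (hole ε) x = 4 * sqr x * (deriv (deriv Real.smoothTransition) t / ε ^ 2 / ε ^ 2)
      + 2 * n * (deriv Real.smoothTransition t / ε ^ 2) := hl
  have hg' : ∀ i, pd (hole ε) i x = 2 * x i * (deriv Real.smoothTransition t / ε ^ 2) := hg
  refine ⟨?_, fun i => ?_, fun hx => Real.smoothTransition.zero_of_nonpos ?_, fun hx => ?_⟩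
  · rcases le_or_gt (sqr x) (2 * ε ^ 2) with hx | hx
    · rcases le_or_gt 0 t with ht | ht
      · have ht1 : t ≤ 1 := by
          simp only [t]; rw [sub_le_iff_le_add, div_le_iff₀ (pow_pos hε 2)]; linarith
        have a1 := hA t ⟨ht, ht1⟩
        have b1 := hB t ⟨ht, ht1⟩
        rw [Real.norm_eq_abs] at a1 b1
        rw [hl', le_div_iff₀ (pow_pos hε 2)]
        have e : (4 * sqr x * (deriv (deriv Real.smoothTransition) t / ε ^ 2 / ε ^ 2)
            + 2 * n * (deriv Real.smoothTransition t / ε ^ 2)) * ε ^ 2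
            = 4 * (sqr x / ε ^ 2) * deriv (deriv Real.smoothTransition) t
              + 2 * n * deriv Real.smoothTransition t := by field_simp
        rw [← abs_of_pos (pow_pos hε 2), ← abs_mul, abs_of_pos (pow_pos hε 2), e]
        refine (abs_add_le _ _).trans ?_
        rw [abs_mul, abs_mul, abs_mul, abs_of_nonneg (div_nonneg (sqr_nonneg x) (sq_nonneg ε))]
        have h2 : sqr x / ε ^ 2 ≤ 2 := by rw [div_le_iff₀ (pow_pos hε 2)]; exact hx
        have p1 := mul_le_mul (mul_le_mul_of_nonneg_left h2 (abs_nonneg (4 : ℝ))) b1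
          (abs_nonneg _) (by positivity)
        have p2 := mul_le_mul_of_nonneg_left a1 (abs_nonneg (2 * (n : ℝ)))
        rw [abs_of_pos (show (0 : ℝ) < 4 by norm_num)] at p1 ⊢
        rw [abs_of_nonneg (show (0 : ℝ) ≤ 2 * n by positivity), ] at p2
        rw [abs_of_nonneg (show (0 : ℝ) ≤ 2 * n by positivity)]
        linarith
      · rw [hl', z0 t ht, z0' t ht]; simp; positivity
    · have ht : 1 < t := by
        simp only [t]; rw [lt_sub_iff_add_lt, lt_div_iff₀ (pow_pos hε 2)]; linarith
      rw [hl', z1 t ht, z1' t ht]; simp; positivity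
  · rcases lt_or_ge t 0 with ht | ht
    · rw [hg', z0 t ht]; simp; positivity
    rcases lt_or_ge 1 t with ht1 | ht1
    · rw [hg', z1 t ht1]; simp; positivity
    have a1 := hA t ⟨ht, ht1⟩
    rw [Real.norm_eq_abs] at a1
    have hx2 : x i ^ 2 ≤ (2 * ε) ^ 2 := by
      have : sqr x ≤ 2 * ε ^ 2 := by
        simp only [t] at ht1
        rw [sub_le_iff_le_add, div_le_iff₀ (pow_pos hε 2)] at ht1
        linarith
      linarith [sq_le_sqr x i, sq_nonneg ε]
    have hxi : |x i| ≤ 2 * ε := abs_le_of_sq_le_sq hx2 (by positivity)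
    rw [hg', le_div_iff₀ hε]
    calc |2 * x i * (deriv Real.smoothTransition t / ε ^ 2)| * ε
        = 2 * |deriv Real.smoothTransition t| * (|x i| / ε) := by
          rw [abs_mul, abs_mul, abs_div, abs_of_pos (pow_pos hε 2), abs_two]
          field_simp
      _ ≤ 2 * A * 2 := by
          refine mul_le_mul (by linarith) ?_ (by positivity) (by positivity)
          rw [div_le_iff₀ hε]; exact hxi
      _ ≤ _ := by nlinarith
  · rw [sub_nonpos, div_le_one (pow_pos hε 2)]; exact hx.le
  · have ht : 1 < t := by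
      simp only [t]; rw [lt_sub_iff_add_lt, lt_div_iff₀ (pow_pos hε 2)]; linarith
    refine ⟨Real.smoothTransition.one_of_one_le ht.le, ?_, fun i => ?_⟩
    · rw [hl', z1 t ht, z1' t ht]; simp
    · rw [hg', z1 t ht]; simp

/-- The origin is negligible. -/
theorem PunctSuper.weak (h : PunctSuper f g) (hn : 3 ≤ n) (hφ : ContDiff ℝ 2 φ)
    (hc : HasCompactSupport φ) (hnn : ∀ x, 0 ≤ φ x) :
    ∫ x, f x * lap φ x ≤ -∫ x, g x * φ x := by
  have : Nontrivial (Fin n → ℝ) := by
    have : Nonempty (Fin n) := ⟨⟨0, by omega⟩⟩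
    infer_instance
  obtain ⟨C, hC0, hC⟩ := hole_bound n
  set J := Icc (fun _ : Fin n => -(2 : ℝ)) (fun _ => 2)
  obtain ⟨Mf, hMf⟩ := (isCompact_Icc (a := fun _ : Fin n => -(2 : ℝ)) (b := fun _ => 2)).exists_bound_of_continuousOn
    h.cont.continuousOn
  obtain ⟨Mp, hMp⟩ := (isCompact_Icc (a := fun _ : Fin n => -(2 : ℝ)) (b := fun _ => 2)).exists_bound_of_continuousOn
    hφ.continuous.continuousOn
  have hgrad : Continuous fun x => ∑ i, |pd φ i x| :=
    continuous_finsetSum _ fun i _ => (continuous_pd_one (hφ.of_le (by norm_num)) i).abs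
  obtain ⟨Md, hMd⟩ := (isCompact_Icc (a := fun _ : Fin n => -(2 : ℝ)) (b := fun _ => 2)).exists_bound_of_continuousOn
    hgrad.continuousOn
  have hMf0 : 0 ≤ Mf := (norm_nonneg _).trans (hMf 0 (by constructor <;> intro i <;> norm_num))
  have hMp0 : 0 ≤ Mp := (norm_nonneg _).trans (hMp 0 (by constructor <;> intro i <;> norm_num))
  have hMd0 : 0 ≤ Md := (norm_nonneg _).trans (hMd 0 (by constructor <;> intro i <;> norm_num))
  set ε : ℕ → ℝ := fun k => (1 / 2) ^ (k + 1)
  have hε : ∀ k, 0 < ε k ∧ ε k ≤ 1 := fun k =>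
    ⟨by simp only [ε]; positivity, pow_le_one₀ (by norm_num) (by norm_num)⟩
  have hε0 : Tendsto ε atTop (𝓝 0) :=
    (tendsto_pow_atTop_nhds_zero_of_lt_one (by norm_num) (by norm_num)).comp (tendsto_add_atTop_nat 1)
  have hη : ∀ k, ContDiff ℝ 2 (hole (n := n) (ε k)) := fun k =>
    (contDiff_hole _).of_le (WithTop.coe_le_coe.2 le_top)
  -- the error of the cut-off
  set E : ℕ → (Fin n → ℝ) → ℝ := fun k x =>
    f x * (φ x * lap (hole (ε k)) x + 2 * ∑ i, pd φ i x * pd (hole (ε k)) i x)
  have hEc : ∀ k, Continuous (E k) := fun k => h.cont.mul ((hφ.continuous.mul (continuous_lap (hη k))).add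
    (continuous_const.mul (continuous_finsetSum _ fun i _ =>
      (continuous_pd_one (hφ.of_le (by norm_num)) i).mul (continuous_pd_one ((hη k).of_le (by norm_num)) i))))
  have hEb : ∀ k, |∫ x, E k x| ≤ Mf * (Mp + 2 * Md) * C * 4 ^ n * ε k := by
    intro k
    obtain ⟨h1, h2⟩ := hε k
    set S := Icc (fun _ : Fin n => -(2 * ε k)) (fun _ => 2 * ε k)
    have hout : ∀ x, x ∉ S → E k x = 0 := fun x hx => by
      have hbig : 2 * ε k ^ 2 < sqr x := by
        by_contra hle
        refine hx ?_
        have := mem_box (x := x) (a := 0) (R := 2 * ε k) (by positivity) (by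
          rw [sub_zero]; linarith [not_lt.1 hle, sq_nonneg (ε k)])
        simpa [S] using this
      obtain ⟨-, e2, e3⟩ := (hC _ h1 x).2.2.2 hbig
      simp [E, e2, e3]
    have hvol : volume.real S = (4 * ε k) ^ n := by
      rw [measureReal_def, Real.volume_Icc_pi_toReal (fun i => by linarith)]
      simp
      ring
    rw [← setIntegral_eq_integral_of_forall_compl_eq_zero (s := S) hout, ← Real.norm_eq_abs]
    refine (norm_setIntegral_le_of_norm_le_const (C := Mf * ((Mp + 2 * Md) * (C / ε k ^ 2)))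
      isCompact_Icc.measure_lt_top fun x hx => ?_).trans ?_
    · have hxJ : x ∈ J := ⟨fun i => by linarith [hx.1 i], fun i => by linarith [hx.2 i]⟩
      obtain ⟨c1, c2, -, -⟩ := hC _ h1 x
      have hpow : C / ε k ≤ C / ε k ^ 2 :=
        div_le_div_of_nonneg_left hC0 (by positivity) (by rw [sq]; exact mul_le_of_le_one_right h1.le h2)
      rw [Real.norm_eq_abs, abs_mul]
      refine mul_le_mul (by simpa using hMf x hxJ) ((abs_add_le _ _).trans ?_) (abs_nonneg _) hMf0
      rw [abs_mul, abs_mul, abs_two, add_mul]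
      refine add_le_add (mul_le_mul (by simpa using hMp x hxJ) c1 (abs_nonneg _) hMp0) ?_
      rw [mul_assoc]
      refine mul_le_mul_of_nonneg_left ((abs_sum_le_sum_abs _ _).trans ?_) two_pos.le
      have hd := hMd x hxJ
      rw [Real.norm_eq_abs, abs_of_nonneg (sum_nonneg fun i _ => abs_nonneg _)] at hd
      calc ∑ i, |pd φ i x * pd (hole (ε k)) i x| ≤ ∑ i, |pd φ i x| * (C / ε k ^ 2) :=
            sum_le_sum fun i _ => by
              rw [abs_mul]; exact mul_le_mul_of_nonneg_left ((c2 i).trans hpow) (abs_nonneg _)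
        _ = (∑ i, |pd φ i x|) * (C / ε k ^ 2) := (sum_mul _ _ _).symm
        _ ≤ _ := mul_le_mul_of_nonneg_right hd (by positivity)
    · rw [hvol]
      obtain ⟨m, rfl⟩ : ∃ m, n = m + 3 := ⟨n - 3, by omega⟩
      have : ε k ^ m ≤ 1 := pow_le_one₀ h1.le h2
      calc Mf * ((Mp + 2 * Md) * (C / ε k ^ 2)) * (4 * ε k) ^ (m + 3)
          = Mf * (Mp + 2 * Md) * C * 4 ^ (m + 3) * (ε k * ε k ^ m) := by
            rw [mul_pow, pow_add (ε k)]; field_simp
        _ ≤ _ := mul_le_mul_of_nonneg_left (mul_le_of_le_one_right h1.le this) (by positivity)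
  have hE0 : Tendsto (fun k => ∫ x, E k x) atTop (𝓝 0) :=
    squeeze_zero_norm hEb (by simpa using hε0.const_mul (Mf * (Mp + 2 * Md) * C * 4 ^ n))
  have hlim : ∀ {G : (Fin n → ℝ) → ℝ}, Continuous G → HasCompactSupport G →
      Tendsto (fun k => ∫ x, G x * hole (ε k) x) atTop (𝓝 (∫ x, G x)) := fun {G} hG hGc => by
    refine tendsto_integral_of_dominated_convergence (fun x => |G x|)
      (fun k => (hG.mul (contDiff_hole _).continuous).aestronglyMeasurable)
      (hG.integrable_of_hasCompactSupport hGc).abs (fun k => .of_forall fun x => ?_) ?_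
    · rw [Real.norm_eq_abs, abs_mul]
      refine mul_le_of_le_one_right (abs_nonneg _) ?_
      rw [abs_of_nonneg (hole_mem _ x).1]; exact (hole_mem _ x).2
    · filter_upwards [compl_mem_ae_iff.2 (measure_singleton (0 : Fin n → ℝ))] with x hx
      refine Tendsto.congr' (f₁ := fun _ => G x) ?_ tendsto_const_nhds
      have hx0 := sqr_pos (show x ≠ 0 from hx)
      have hev : ∀ᶠ k in atTop, 2 * ε k ^ 2 < sqr x :=
        ((by simpa using (hε0.pow 2).const_mul 2 : Tendsto (fun k => 2 * ε k ^ 2) atTop (𝓝 0))).eventually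
          (gt_mem_nhds hx0)
      filter_upwards [hev] with k hk
      rw [((hC _ (hε k).1 x).2.2.2 hk).1, mul_one]
  have hL := hlim (h.cont.mul (continuous_lap hφ)) (hasCompactSupport_lap hc).mul_left
  have hR := hlim (h.gcont.mul hφ.continuous) hc.mul_left
  refine le_of_tendsto_of_tendsto (f := fun k => (∫ x, f x * lap φ x * hole (ε k) x) + ∫ x, E k x)
    (g := fun k => -∫ x, g x * φ x * hole (ε k) x) (by simpa using hL.add hE0) hR.neg
    (.of_forall fun k => ?_)
  have hψ := hφ.mul (hη k)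
  have hw := h.weak_off hψ (hc.mul_right) (fun h0 => ?_) fun x => mul_nonneg (hnn x) (hole_mem _ x).1
  · have hEi : Integrable (E k) := (hEc k).integrable_of_hasCompactSupport
      (HasCompactSupport.intro hc fun x hx => by
        simp [E, image_eq_zero_of_notMem_tsupport hx,
          fun i => image_eq_zero_of_notMem_tsupport (f := pd φ i) fun h' => hx (tsupport_pd _ _ h')])
    have hi : Integrable fun x => f x * lap φ x * hole (ε k) x :=
      (((h.cont.mul (continuous_lap hφ)).mul (contDiff_hole _).continuous)).integrable_of_hasCompactSupport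
        ((hasCompactSupport_lap hc).mul_left.mul_right)
    show (∫ x, f x * lap φ x * hole (ε k) x) + ∫ x, E k x ≤ -∫ x, g x * φ x * hole (ε k) x
    rw [← integral_add hi hEi]
    convert hw using 1
    · refine integral_congr_ae (.of_forall fun x => ?_)
      simp only [E]
      rw [lap_mul hφ (hη k)]
      ring
    · refine congrArg Neg.neg (integral_congr_ae (.of_forall fun x => ?_))
      ring
  · have : (fun y => φ y * hole (ε k) y) =ᶠ[𝓝 (0 : Fin n → ℝ)] 0 := by
      filter_upwards [continuous_sqr.continuousAt.eventually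
        (gt_mem_nhds (show sqr (0 : Fin n → ℝ) < ε k ^ 2 by rw [sqr_zero]; exact pow_pos (hε k).1 2))]
        with y hy
      simp [(hC _ (hε k).1 y).2.2.1 hy]
    exact notMem_tsupport_iff_eventuallyEq.2 this h0

end

end Vale.Agent.P100
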