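import Mathlib
import Vale.Agent.P100.Super

/-!
# P100: the means `R ^ (-n-4) ∫ f (R ^ 2 - |x - a| ^ 2)_+ ^ 2`
-/

namespace Vale.Agent.P100

open MeasureTheory Set Filter Topology Finset Function
open Vale.Agent.P098.Cone
open scoped ContDiff

noncomputable section

variable {n : ℕ}

/-- The positive part, to a power. -/
def posPow (k : ℕ) (t : ℝ) : ℝ := max t 0 ^ k

theorem posPow_nonneg (k : ℕ) (t : ℝ) : 0 ≤ posPow k t := pow_nonneg (le_max_right _ _) k

theorem continuous_posPow (k : ℕ) : Continuous (posPow k) := by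
  unfold posPow; fun_prop

theorem hasDerivAt_posPow (k : ℕ) (hk : 1 ≤ k) (t : ℝ) :
    HasDerivAt (posPow (k + 1)) ((k + 1) * posPow k t) t := by
  rcases lt_trichotomy t 0 with ht | rfl | ht
  · have : posPow (k + 1) =ᶠ[𝓝 t] fun _ => 0 := by
      filter_upwards [gt_mem_nhds ht] with s hs
      simp [posPow, max_eq_right hs.le]
    refine ((hasDerivAt_const t (0 : ℝ)).congr_of_eventuallyEq this).congr_deriv ?_
    simp [posPow, max_eq_right ht.le, zero_pow (by omega : k ≠ 0)]
  · have h0 : HasDerivAt (fun s : ℝ => s ^ (k + 1)) 0 0 :=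
      (hasDerivAt_pow (k + 1) (0 : ℝ)).congr_deriv (by simp [zero_pow (by omega : k ≠ 0)])
    have h1 : posPow (k + 1) 0 = 0 := by simp [posPow]
    refine HasDerivAt.congr_deriv (f' := 0) ?_ (by simp [posPow, zero_pow (by omega : k ≠ 0)])
    rw [hasDerivAt_iff_isLittleO] at h0 ⊢
    refine (Asymptotics.isBigO_of_le _ fun s => ?_).trans_isLittleO h0
    simp only [posPow, smul_zero, sub_zero, max_self, zero_pow (Nat.succ_ne_zero k), norm_pow,
      Real.norm_eq_abs]
    show |max s 0| ^ (k + 1) ≤ |s| ^ (k + 1)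
    refine pow_le_pow_left₀ (abs_nonneg (max s 0)) ?_ _
    rcases le_total s 0 with hs | hs
    · simp [max_eq_right hs]
    · simp [max_eq_left hs]
  · have : posPow (k + 1) =ᶠ[𝓝 t] fun s => s ^ (k + 1) := by
      filter_upwards [lt_mem_nhds ht] with s hs
      simp [posPow, max_eq_left hs.le]
    refine ((hasDerivAt_pow (k + 1) t).congr_of_eventuallyEq this).congr_deriv ?_
    simp [posPow, max_eq_left ht.le]

theorem mul_posPow_one (t : ℝ) : t * posPow 1 t = posPow 2 t := by
  rcases le_total t 0 with ht | ht <;> simp [posPow, ht, sq]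

theorem pd_translate (f : (Fin n → ℝ) → ℝ) (a x : Fin n → ℝ) (i : Fin n) :
    pd (fun y => f (y - a)) i x = pd f i (x - a) := by
  simp [pd, fderiv_comp_sub]

theorem lap_translate (f : (Fin n → ℝ) → ℝ) (a x : Fin n → ℝ) :
    lap (fun y => f (y - a)) x = lap f (x - a) := by
  refine sum_congr rfl fun i _ => ?_
  rw [show pd (fun y => f (y - a)) i = fun y => pd f i (y - a) from
    funext fun y => pd_translate f a y i, pd_translate]

/-- The test function `(R ^ 2 - |x - a| ^ 2)_+ ^ 3`. -/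
def bump (a : Fin n → ℝ) (R : ℝ) (x : Fin n → ℝ) : ℝ := posPow 3 (R ^ 2 - sqr (x - a))

theorem bump_nonneg (a : Fin n → ℝ) (R : ℝ) (x : Fin n → ℝ) : 0 ≤ bump a R x := posPow_nonneg _ _

theorem contDiff_bump (a : Fin n → ℝ) (R : ℝ) : ContDiff ℝ 2 (bump a R) := by
  have h2 : ContDiff ℝ 1 (posPow 2) := contDiff_one_iff_deriv.2
    ⟨fun t => (hasDerivAt_posPow 1 le_rfl t).differentiableAt, by
      rw [show deriv (posPow 2) = fun t => ((1 : ℕ) + 1 : ℝ) * posPow 1 t from
        funext fun t => (hasDerivAt_posPow 1 le_rfl t).deriv]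
      exact continuous_const.mul (continuous_posPow 1)⟩
  have h3 : ContDiff ℝ 2 (posPow 3) := by
    rw [show (2 : WithTop ℕ∞) = 1 + 1 from rfl, contDiff_succ_iff_deriv]
    refine ⟨fun t => (hasDerivAt_posPow 2 (by norm_num) t).differentiableAt, by simp, ?_⟩
    rw [show deriv (posPow 3) = fun t => ((2 : ℕ) + 1 : ℝ) * posPow 2 t from
      funext fun t => (hasDerivAt_posPow 2 (by norm_num) t).deriv]
    exact contDiff_const.mul h2
  exact h3.comp (contDiff_const.sub
    ((contDiff_sqr.of_le (WithTop.coe_le_coe.2 le_top)).comp (contDiff_id.sub contDiff_const)))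

theorem posPow_eq_zero_of_notMem {a x : Fin n → ℝ} {R : ℝ} (hR : 0 ≤ R) (k : ℕ) (hk : 1 ≤ k)
    (hx : x ∉ Icc (fun i => a i - R) (fun i => a i + R)) : posPow k (R ^ 2 - sqr (x - a)) = 0 := by
  have : R ^ 2 < sqr (x - a) := by
    by_contra h
    exact hx (mem_box hR (not_lt.1 h))
  simp [posPow, max_eq_right (by linarith : R ^ 2 - sqr (x - a) ≤ 0), zero_pow (by omega : k ≠ 0)]

theorem hasCompactSupport_posPow (a : Fin n → ℝ) {R : ℝ} (hR : 0 ≤ R) (k : ℕ) (hk : 1 ≤ k) :
    HasCompactSupport fun x => posPow k (R ^ 2 - sqr (x - a)) :=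
  HasCompactSupport.intro isCompact_Icc fun _ hx => posPow_eq_zero_of_notMem hR k hk hx

theorem lap_bump (a : Fin n → ℝ) (R : ℝ) (x : Fin n → ℝ) :
    lap (bump a R) x = 24 * sqr (x - a) * posPow 1 (R ^ 2 - sqr (x - a))
      - 6 * n * posPow 2 (R ^ 2 - sqr (x - a)) := by
  have h1 : ∀ s, HasDerivAt (fun s => posPow 3 (R ^ 2 - s)) (-3 * posPow 2 (R ^ 2 - s)) s := fun s => by
    refine ((hasDerivAt_posPow 2 (by norm_num) _).comp s ((hasDerivAt_id' s).const_sub _)).congr_deriv ?_
    push_cast; ring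
  have h2 : ∀ s, HasDerivAt (fun s => -3 * posPow 2 (R ^ 2 - s)) (6 * posPow 1 (R ^ 2 - s)) s :=
    fun s => by
    refine (((hasDerivAt_posPow 1 le_rfl _).comp s ((hasDerivAt_id' s).const_sub _)).const_mul
      (-3)).congr_deriv ?_
    push_cast; ring
  have e : lap (bump a R) x = lap (fun z => posPow 3 (R ^ 2 - sqr z)) (x - a) :=
    lap_translate (fun z => posPow 3 (R ^ 2 - sqr z)) a x
  rw [e, (radial h1 h2 (x - a)).2]
  ring

/-- The weighted mean. -/
def mean (f : (Fin n → ℝ) → ℝ) (a : Fin n → ℝ) (R : ℝ) : ℝ :=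
  ∫ y, f (a + R • y) * posPow 2 (1 - sqr y)

/-- The mean of the constant one. -/
def mass (n k : ℕ) : ℝ := ∫ y : Fin n → ℝ, posPow k (1 - sqr y)

theorem mass_pos (n k : ℕ) (hk : 1 ≤ k) : 0 < mass n k := by
  refine (continuous_posPow k).comp (continuous_const.sub continuous_sqr)
    |>.integral_pos_of_hasCompactSupport_nonneg_nonzero (x := 0) ?_ (fun y => posPow_nonneg _ _) ?_
  · simpa using hasCompactSupport_posPow (0 : Fin n → ℝ) zero_le_one k hk
  · simp [posPow, sqr_zero]

theorem mean_zero (f : (Fin n → ℝ) → ℝ) (a : Fin n → ℝ) : mean f a 0 = f a * mass n 2 := by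
  simp [mean, mass, integral_const_mul]

theorem continuous_mean {f : (Fin n → ℝ) → ℝ} (hf : Continuous f) (a : Fin n → ℝ) :
    Continuous (mean f a) := by
  have e : mean f a = fun R => ∫ y in Icc (fun _ : Fin n => -(1 : ℝ)) (fun _ => 1),
      f (a + R • y) * posPow 2 (1 - sqr y) := funext fun R => by
    refine (setIntegral_eq_integral_of_forall_compl_eq_zero fun y hy => ?_).symm
    have := posPow_eq_zero_of_notMem (a := (0 : Fin n → ℝ)) zero_le_one 2 one_le_two (by simpa using hy)
    simp only [one_pow, sub_zero] at this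
    rw [this, mul_zero]
  rw [e]
  exact continuous_parametric_integral_of_continuous
    (f := fun R y => f (a + R • y) * posPow 2 (1 - sqr y))
    ((hf.comp (continuous_const.add (continuous_fst.smul continuous_snd))).mul
      ((continuous_posPow 2).comp (continuous_const.sub (continuous_sqr.comp continuous_snd))))
    isCompact_Icc

theorem integral_scaled (G : (Fin n → ℝ) → ℝ) (a : Fin n → ℝ) {R : ℝ} (hR : 0 < R) :
    ∫ y, G (a + R • y) = (R ^ n)⁻¹ * ∫ x, G x := by
  rw [Measure.integral_comp_smul (μ := (volume : Measure (Fin n → ℝ))) (fun y => G (a + y)) R,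
    integral_add_left_eq_self]
  simp [abs_of_pos (pow_pos hR n)]

theorem mean_eq (f : (Fin n → ℝ) → ℝ) (a : Fin n → ℝ) {R : ℝ} (hR : 0 < R) :
    mean f a R = (R ^ (n + 4))⁻¹ * ∫ x, f x * posPow 2 (R ^ 2 - sqr (x - a)) := by
  rw [mean, ← integral_const_mul]
  have := integral_scaled (fun x => f x * posPow 2 (1 - sqr (R⁻¹ • (x - a)))) a hR
  simp only [add_sub_cancel_left, smul_smul, inv_mul_cancel₀ hR.ne', one_smul] at this
  rw [this, ← integral_const_mul]
  refine integral_congr_ae (.of_forall fun x => ?_)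
  simp only
  rw [sqr_smul, show 1 - R⁻¹ ^ 2 * sqr (x - a) = (R ^ 2 - sqr (x - a)) * R⁻¹ ^ 2 by
    field_simp, posPow, posPow]
  rw [show (0 : ℝ) = 0 * R⁻¹ ^ 2 from (zero_mul _).symm, ← max_mul_of_nonneg _ _ (sq_nonneg _),
    zero_mul, mul_pow, pow_add]
  field_simp

theorem mean_const (c : ℝ) (a : Fin n → ℝ) (R : ℝ) : mean (fun _ => c) a R = c * mass n 2 :=
  integral_const_mul _ _

theorem integrable_weight {f : (Fin n → ℝ) → ℝ} (hf : Continuous f) (a : Fin n → ℝ) {R : ℝ}
    (hR : 0 ≤ R) (k : ℕ) (hk : 1 ≤ k) :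
    Integrable fun x => f x * posPow k (R ^ 2 - sqr (x - a)) :=
  (hf.mul ((continuous_posPow k).comp (continuous_const.sub (continuous_sqr.comp
    (continuous_id.sub continuous_const))))).integrable_of_hasCompactSupport
    (hasCompactSupport_posPow a hR k hk).mul_left

theorem hasDerivAt_mean {f : (Fin n → ℝ) → ℝ} (hf : Continuous f) (a : Fin n → ℝ) {R : ℝ}
    (hR : 0 < R) :
    HasDerivAt (mean f a) ((R ^ (n + 5))⁻¹ / 6 * ∫ x, f x * lap (bump a R) x) R := by
  have hd : ∀ x r, HasDerivAt (fun r => f x * posPow 2 (r ^ 2 - sqr (x - a)))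
      (f x * (4 * r * posPow 1 (r ^ 2 - sqr (x - a)))) r := fun x r => by
    refine (((hasDerivAt_posPow 1 le_rfl _).comp r ((hasDerivAt_pow 2 r).sub_const _)).const_mul
      (f x)).congr_deriv ?_
    push_cast; ring
  have hc1 : ∀ r, Continuous fun x => posPow 1 (r ^ 2 - sqr (x - a)) := fun r =>
    (continuous_posPow 1).comp (continuous_const.sub (continuous_sqr.comp
      (continuous_id.sub continuous_const)))
  set J := Icc (fun i => a i - (R + 1)) (fun i => a i + (R + 1))
  obtain ⟨Mf, hMf⟩ := (isCompact_Icc (a := fun i => a i - (R + 1)) (b := fun i => a i + (R + 1))).exists_bound_of_continuousOn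
    hf.continuousOn
  have hbox : ∀ r ∈ Ioo 0 (R + 1), ∀ x, x ∉ J → posPow 1 (r ^ 2 - sqr (x - a)) = 0 :=
    fun r hr x hx => posPow_eq_zero_of_notMem hr.1.le 1 le_rfl fun h => hx
      ⟨fun i => by linarith [h.1 i, hr.2], fun i => by linarith [h.2 i, hr.2]⟩
  obtain ⟨-, h⟩ := hasDerivAt_integral_of_dominated_loc_of_deriv_le (μ := (volume : Measure (Fin n → ℝ)))
    (F := fun r x => f x * posPow 2 (r ^ 2 - sqr (x - a)))
    (F' := fun r x => f x * (4 * r * posPow 1 (r ^ 2 - sqr (x - a))))
    (bound := J.indicator fun _ => Mf * (4 * (R + 1) * (R + 1) ^ 2))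
    (Ioo_mem_nhds hR (lt_add_one R))
    (.of_forall fun r => Continuous.aestronglyMeasurable (f := fun x => f x * posPow 2 (r ^ 2 - sqr (x - a)))
      (hf.mul ((continuous_posPow 2).comp (continuous_const.sub (continuous_sqr.comp
        (continuous_id.sub continuous_const))))))
    (integrable_weight hf a hR.le 2 one_le_two)
    (hf.mul (continuous_const.mul (hc1 R))).aestronglyMeasurable
    (.of_forall fun x r hr => by
      by_cases hx : x ∈ J
      · rw [indicator_of_mem hx, Real.norm_eq_abs, abs_mul]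
        refine mul_le_mul (by simpa using hMf x hx) ?_ (abs_nonneg _)
          ((norm_nonneg _).trans (hMf x hx))
        rw [abs_of_nonneg (mul_nonneg (by linarith [hr.1]) (posPow_nonneg _ _))]
        refine mul_le_mul (by linarith [hr.2]) ?_ (posPow_nonneg _ _) (by linarith)
        simp only [posPow, pow_one]
        refine max_le ?_ (sq_nonneg _)
        have := pow_le_pow_left₀ hr.1.le hr.2.le 2
        linarith [sqr_nonneg (x - a)]
      · rw [indicator_of_notMem hx, hbox r hr x hx]; simp)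
    ((integrable_indicator_iff measurableSet_Icc).2 (integrableOn_const isCompact_Icc.measure_lt_top.ne))
    (.of_forall fun x r _ => hd x r)
  have hev : mean f a =ᶠ[𝓝 R]
      fun r => (r ^ (n + 4))⁻¹ * ∫ x, f x * posPow 2 (r ^ 2 - sqr (x - a)) := by
    filter_upwards [lt_mem_nhds hR] with r hr using mean_eq f a hr
  refine ((((hasDerivAt_pow (n + 4) R).fun_inv (pow_ne_zero _ hR.ne')).mul h).congr_of_eventuallyEq
    hev).congr_deriv ?_
  have e : ∀ x, f x * lap (bump a R) x
      = 6 * R * (f x * (4 * R * posPow 1 (R ^ 2 - sqr (x - a))))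
        - 6 * (n + 4) * (f x * posPow 2 (R ^ 2 - sqr (x - a))) := fun x => by
    rw [lap_bump]
    linear_combination -24 * f x * mul_posPow_one (R ^ 2 - sqr (x - a))
  simp only [e]
  rw [integral_sub, integral_const_mul, integral_const_mul]
  · push_cast
    rw [pow_add R n 5, pow_add R n 4, pow_add R n 3]
    field_simp
    ring
  · refine (integrable_weight hf a hR.le 1 le_rfl).const_mul (6 * R * (4 * R)) |>.congr
      (.of_forall fun x => ?_)
    simp only; ring
  · exact (integrable_weight hf a hR.le 2 one_le_two).const_mul _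

variable {f g : (Fin n → ℝ) → ℝ}

theorem PunctSuper.deriv_mean_le (h : PunctSuper f g) (hn : 3 ≤ n) (a : Fin n → ℝ) {R : ℝ}
    (hR : 0 < R) : deriv (mean f a) R ≤ -((R ^ (n + 5))⁻¹ / 6 * ∫ x, g x * bump a R x) := by
  rw [(hasDerivAt_mean h.cont a hR).deriv, ← mul_neg]
  exact mul_le_mul_of_nonneg_left
    (h.weak hn (contDiff_bump a R) (hasCompactSupport_posPow a hR.le 3 (by norm_num)) (bump_nonneg a R))
    (by positivity)

theorem PunctSuper.mean_antitone (h : PunctSuper f g) (hn : 3 ≤ n) (hg : ∀ x, 0 ≤ g x)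
    (a : Fin n → ℝ) : AntitoneOn (mean f a) (Ici 0) := by
  refine antitoneOn_of_deriv_nonpos (convex_Ici _) (continuous_mean h.cont a).continuousOn ?_ ?_
  · rw [interior_Ici]
    exact fun R hR => (hasDerivAt_mean h.cont a hR).differentiableAt.differentiableWithinAt
  · rw [interior_Ici]
    intro R (hR : 0 < R)
    refine (h.deriv_mean_le hn a hR).trans (neg_nonpos.2 (mul_nonneg (by positivity) ?_))
    exact integral_nonneg fun x => mul_nonneg (hg x) (bump_nonneg a R x)

theorem PunctSuper.mean_le (h : PunctSuper f g) (hn : 3 ≤ n) (hg : ∀ x, 0 ≤ g x)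
    (a : Fin n → ℝ) {R : ℝ} (hR : 0 ≤ R) : mean f a R ≤ f a * mass n 2 := by
  simpa [mean_zero] using h.mean_antitone hn hg a (Set.self_mem_Ici) hR hR

theorem mean_nonneg (hf : ∀ x, 0 ≤ f x) (a : Fin n → ℝ) (R : ℝ) : 0 ≤ mean f a R :=
  integral_nonneg fun _ => mul_nonneg (hf _) (posPow_nonneg _ _)

/-- The euclidean distance. -/
def dist2 (a b : Fin n → ℝ) : ℝ := √(sqr (a - b))

theorem dist2_comm (a b : Fin n → ℝ) : dist2 a b = dist2 b a := by
  simp only [dist2, sqr, Pi.sub_apply]
  exact congrArg _ (sum_congr rfl fun i _ => by ring)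

/-- Means at different centres. -/
theorem mean_transfer (hf : Continuous f) (hf0 : ∀ x, 0 ≤ f x) (a b : Fin n → ℝ) {R : ℝ}
    (hR : 0 < R) :
    (R / (R + dist2 a b)) ^ (n + 4) * mean f b R ≤ mean f a (R + dist2 a b) := by
  set d := dist2 a b
  have hd : 0 ≤ d := Real.sqrt_nonneg _
  have hS : 0 < R + d := by linarith
  rw [mean_eq f b hR, mean_eq f a hS, ← mul_assoc]
  rw [show (R / (R + d)) ^ (n + 4) * (R ^ (n + 4))⁻¹ = ((R + d) ^ (n + 4))⁻¹ by
    rw [div_pow]; field_simp]
  refine mul_le_mul_of_nonneg_left ?_ (by positivity)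
  refine integral_mono (integrable_weight hf b hR.le 2 one_le_two)
    (integrable_weight hf a hS.le 2 one_le_two) fun x => mul_le_mul_of_nonneg_left ?_ (hf0 x)
  simp only [posPow]
  rcases le_or_gt (R ^ 2) (sqr (x - b)) with hx | hx
  · rw [max_eq_right (by linarith : R ^ 2 - sqr (x - b) ≤ 0)]
    simpa using sq_nonneg (max ((R + d) ^ 2 - sqr (x - a)) 0)
  refine pow_le_pow_left₀ (le_max_right _ _) (max_le_max ?_ le_rfl) _
  set s := √(sqr (x - b))
  have hs : s * s = sqr (x - b) := Real.mul_self_sqrt (sqr_nonneg _)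
  have hd2 : d * d = sqr (a - b) := Real.mul_self_sqrt (sqr_nonneg _)
  have hsR : s ≤ R := by
    rw [← Real.sqrt_sq hR.le]; exact Real.sqrt_le_sqrt hx.le
  have hcs : ∑ i, (x i - b i) * (b i - a i) ≤ s * d := by
    refine (Real.sum_mul_le_sqrt_mul_sqrt _ _ _).trans (le_of_eq ?_)
    rw [show d = dist2 b a from dist2_comm a b]
    rfl
  have e : sqr (x - a) = sqr (x - b) + 2 * (∑ i, (x i - b i) * (b i - a i)) + sqr (b - a) := by
    simp only [sqr, Pi.sub_apply, mul_sum, ← sum_add_distrib]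
    exact sum_congr rfl fun i _ => by ring
  have e2 : sqr (b - a) = d * d := by
    rw [hd2]; simp only [sqr, Pi.sub_apply]; exact sum_congr rfl fun i _ => by ring
  have := mul_le_mul_of_nonneg_right hsR hd
  linarith

/-- A lower bound of the central means is a lower bound everywhere. -/
theorem PunctSuper.ge_of_mean_ge (h : PunctSuper f g) (hn : 3 ≤ n) (hg : ∀ x, 0 ≤ g x)
    (hf0 : ∀ x, 0 ≤ f x) {c : ℝ} (hc : ∀ R, 0 < R → c ≤ mean f 0 R) (x : Fin n → ℝ) :
    c ≤ f x * mass n 2 := by
  set d := dist2 x 0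
  have hd : 0 ≤ d := Real.sqrt_nonneg _
  have ht : Tendsto (fun R : ℝ => (R / (R + d)) ^ (n + 4) * c) atTop (𝓝 (1 * c)) := by
    refine Tendsto.mul_const c ?_
    have : Tendsto (fun R : ℝ => R / (R + d)) atTop (𝓝 1) := by
      have h0 : Tendsto (fun R : ℝ => d / (R + d)) atTop (𝓝 0) :=
        tendsto_const_nhds.div_atTop (tendsto_atTop_add_const_right _ d tendsto_id)
      refine ((tendsto_const_nhds (x := (1 : ℝ))).sub h0).congr' ?_ |>.trans (by rw [sub_zero])
      filter_upwards [eventually_gt_atTop 0] with R hR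
      have : R + d ≠ 0 := by linarith
      field_simp
      ring
    simpa using this.pow (n + 4)
  rw [one_mul] at ht
  refine le_of_tendsto ht ?_
  filter_upwards [eventually_gt_atTop 0] with R hR
  exact ((mul_le_mul_of_nonneg_left (hc R hR) (by positivity)).trans
    (mean_transfer h.cont hf0 x 0 hR)).trans (h.mean_le hn hg x (by linarith))

end

end Vale.Agent.P100
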