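import Mathlib
import Vale.Agent.P100.Super
import Vale.Agent.P100.Means

/-!
# P100: the comparison of the two components, with no growth assumption

For `q ≤ p` the excess `w = v - l u ^ σ` is subharmonic where it is positive, so a convex function of
it is subharmonic away from the origin; it lies below `v`, whose means tend to zero.
-/

namespace Vale.Agent.P100

open MeasureTheory Set Filter Topology Finset Function
open Vale.Agent.P098.Cone
open scoped ContDiff

noncomputable section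

variable {n : ℕ} {p q : ℝ} {u v : (Fin n → ℝ) → ℝ}

/-- A positive entire solution of the Lane-Emden system. -/
structure Sol (p q : ℝ) (u v : (Fin n → ℝ) → ℝ) : Prop where
  cont_u : Continuous u
  cont_v : Continuous v
  smooth_u : ContDiffOn ℝ 2 u {x | x ≠ 0}
  smooth_v : ContDiffOn ℝ 2 v {x | x ≠ 0}
  pos_u : ∀ x, 0 < u x
  pos_v : ∀ x, 0 < v x
  eq_u : ∀ x, x ≠ 0 → lap u x = -(v x ^ p)
  eq_v : ∀ x, x ≠ 0 → lap v x = -(u x ^ q)

theorem Sol.symm (h : Sol p q u v) : Sol q p v u :=
  ⟨h.cont_v, h.cont_u, h.smooth_v, h.smooth_u, h.pos_v, h.pos_u, h.eq_v, h.eq_u⟩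

theorem Sol.super_u (h : Sol p q u v) (hp : 0 ≤ p) : PunctSuper u fun x => v x ^ p :=
  ⟨h.cont_u, h.smooth_u, h.cont_v.rpow_const fun _ => Or.inr hp, fun x hx => (h.eq_u x hx).le⟩

theorem Sol.super_v (h : Sol p q u v) (hq : 0 ≤ q) : PunctSuper v fun x => u x ^ q :=
  ⟨h.cont_v, h.smooth_v, h.cont_u.rpow_const fun _ => Or.inr hq, fun x hx => (h.eq_v x hx).le⟩

theorem PunctSuper.mono {f g g' : (Fin n → ℝ) → ℝ} (h : PunctSuper f g) (hc : Continuous g')
    (hle : ∀ x, g' x ≤ g x) : PunctSuper f g' :=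
  ⟨h.cont, h.smooth, hc, fun x hx => (h.le x hx).trans (neg_le_neg (hle x))⟩

/-- The integral of the test function. -/
theorem integral_bump (n : ℕ) {R : ℝ} (hR : 0 < R) :
    ∫ x, bump (0 : Fin n → ℝ) R x = R ^ (n + 6) * mass n 3 := by
  have h := integral_scaled (bump (0 : Fin n → ℝ) R) 0 hR
  have e : ∀ y : Fin n → ℝ, bump (0 : Fin n → ℝ) R (0 + R • y) = R ^ 6 * posPow 3 (1 - sqr y) := by
    intro y
    simp only [bump, zero_add, sub_zero, sqr_smul, posPow]
    rw [show R ^ 2 - R ^ 2 * sqr y = R ^ 2 * (1 - sqr y) by ring,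
      show (0 : ℝ) = R ^ 2 * 0 by ring, ← mul_max_of_nonneg _ _ (sq_nonneg R), mul_pow, mul_zero]
    ring
  simp only [e, integral_const_mul] at h
  have h1 : ∫ x, bump (0 : Fin n → ℝ) R x = R ^ n * (R ^ 6 * mass n 3) := by
    simp only [mass]
    rw [h, mul_inv_cancel_left₀ (pow_ne_zero _ hR.ne')]
  rw [h1, pow_add]
  ring

/-- The means of a positive superharmonic function fall at least quadratically under a constant
source. -/
theorem PunctSuper.mean_add_sq_antitone {f : (Fin n → ℝ) → ℝ} {c : ℝ}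
    (h : PunctSuper f fun _ => c) (hn : 3 ≤ n) :
    AntitoneOn (fun R => mean f 0 R + c * mass n 3 / 12 * R ^ 2) (Ici 0) := by
  have hd : ∀ R : ℝ, 0 < R →
      HasDerivAt (fun R => mean f 0 R + c * mass n 3 / 12 * R ^ 2)
        (deriv (mean f 0) R + c * mass n 3 / 12 * (2 * R)) R := fun R hR =>
    ((hasDerivAt_mean h.cont 0 hR).differentiableAt.hasDerivAt.add
      ((hasDerivAt_pow 2 R).const_mul (c * mass n 3 / 12))).congr_deriv (by ring)
  refine antitoneOn_of_deriv_nonpos (convex_Ici _)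
    ((continuous_mean h.cont 0).add (continuous_const.mul (continuous_pow 2))).continuousOn ?_ ?_
  · rw [interior_Ici]
    exact fun R hR => (hd R hR).differentiableAt.differentiableWithinAt
  · rw [interior_Ici]
    intro R (hR : 0 < R)
    rw [(hd R hR).deriv]
    have h1 := h.deriv_mean_le hn 0 hR
    have e : (R ^ (n + 5))⁻¹ / 6 * ∫ x, c * bump (0 : Fin n → ℝ) R x = c * mass n 3 / 12 * (2 * R) := by
      rw [integral_const_mul, integral_bump n hR, show n + 6 = n + 5 + 1 by omega, pow_succ]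
      field_simp
      ring
    linarith

/-- The means of `v` tend to zero. -/
theorem Sol.exists_mean_lt (h : Sol p q u v) (hp : 0 < p) (hq : 0 < q) (hn : 3 ≤ n) {e : ℝ}
    (he : 0 < e) : ∃ R, 0 < R ∧ mean v 0 R < e := by
  by_contra hcon
  push Not at hcon
  have hm := mass_pos n 2 one_le_two
  have hge : ∀ x, e / mass n 2 ≤ v x := fun x => by
    rw [div_le_iff₀ hm]
    exact (h.super_v hq.le).ge_of_mean_ge hn (fun y => Real.rpow_nonneg (h.pos_u y).le q)
      (fun y => (h.pos_v y).le) hcon x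
  set c := (e / mass n 2) ^ p
  have hc : 0 < c := Real.rpow_pos_of_pos (div_pos he hm) p
  have hu : PunctSuper u fun _ => c := (h.super_u hp.le).mono continuous_const fun x =>
    Real.rpow_le_rpow (div_pos he hm).le (hge x) hp.le
  have hanti := hu.mean_add_sq_antitone hn
  have hK : 0 < c * mass n 3 / 12 := div_pos (mul_pos hc (mass_pos n 3 (by norm_num))) (by norm_num)
  obtain ⟨R, hR⟩ := ((tendsto_pow_atTop two_ne_zero).const_mul_atTop hK).eventually_gt_atTop
    (u 0 * mass n 2) |>.and (eventually_gt_atTop 0) |>.exists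
  have h1 := hanti Set.self_mem_Ici hR.2.le hR.2.le
  simp only [mean_zero] at h1
  have h2 := mean_nonneg (fun y => (h.pos_u y).le) (0 : Fin n → ℝ) R
  have h3 := hR.1
  nlinarith

/-- The means of `v` around every centre become small. -/
theorem Sol.exists_mean_lt' (h : Sol p q u v) (hp : 0 < p) (hq : 0 < q) (hn : 3 ≤ n)
    (a : Fin n → ℝ) {e : ℝ} (he : 0 < e) : ∃ R, 0 < R ∧ mean v a R < e := by
  obtain ⟨R₁, hR₁, h1⟩ := h.exists_mean_lt hp hq hn (e := e / 2 ^ (n + 4)) (div_pos he (by positivity))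
  set d := dist2 0 a
  have hd : 0 ≤ d := Real.sqrt_nonneg _
  have hR : 0 < R₁ + d := by linarith
  refine ⟨R₁ + d, hR, ?_⟩
  have h2 := mean_transfer h.cont_v (fun x => (h.pos_v x).le) 0 a hR
  have h3 : mean v 0 (R₁ + d + d) ≤ mean v 0 R₁ :=
    (h.super_v hq.le).mean_antitone hn (fun y => Real.rpow_nonneg (h.pos_u y).le q) 0 hR₁.le
      (show 0 ≤ R₁ + d + d by linarith) (by linarith)
  have h4 : ((1 : ℝ) / 2) ^ (n + 4) ≤ ((R₁ + d) / (R₁ + d + d)) ^ (n + 4) := by
    refine pow_le_pow_left₀ (by norm_num) ?_ _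
    rw [div_le_div_iff₀ two_pos (by linarith)]
    linarith
  have h5 := (mul_le_mul_of_nonneg_right h4 (mean_nonneg (fun x => (h.pos_v x).le) a (R₁ + d))).trans
    (h2.trans h3)
  rw [div_pow, one_pow, one_div_mul_eq_div, div_le_iff₀ (by positivity)] at h5
  have := mul_lt_mul_of_pos_right h1 (show (0 : ℝ) < 2 ^ (n + 4) by positivity)
  rw [div_mul_cancel₀ e (by positivity)] at this
  linarith

/-- The chain rule for the Laplacian. -/
theorem lap_comp {θ θ' : ℝ → ℝ} {t₂ : ℝ} {f : (Fin n → ℝ) → ℝ} {O : Set (Fin n → ℝ)} {x : Fin n → ℝ}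
    (hO : IsOpen O) (hf : ContDiffOn ℝ 2 f O) (hx : x ∈ O)
    (h1 : ∀ᶠ t in 𝓝 (f x), HasDerivAt θ (θ' t) t) (h2 : HasDerivAt θ' t₂ (f x)) :
    lap (fun y => θ (f y)) x = θ' (f x) * lap f x + t₂ * ∑ i, pd f i x ^ 2 := by
  simp only [lap, mul_sum, ← sum_add_distrib]
  refine sum_congr rfl fun i _ => ?_
  have df : ∀ y ∈ O, DifferentiableAt ℝ f y := fun y hy =>
    (hf.differentiableOn (by norm_num)).differentiableAt (hO.mem_nhds hy)
  have dpf := ((contDiffOn_pd_two hf hO i).differentiableOn one_ne_zero).differentiableAt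
    (hO.mem_nhds hx)
  have hev : pd (fun y => θ (f y)) i =ᶠ[𝓝 x] fun y => θ' (f y) * pd f i y := by
    filter_upwards [hO.mem_nhds hx, (df x hx).continuousAt.tendsto.eventually h1] with y hy hy'
    exact pd_comp hy' (df y hy) i
  rw [pd_congr hev, pd_mul (f := fun y => θ' (f y)) (h2.differentiableAt.comp x (df x hx)) dpf, pd_comp h2 (df x hx)]
  ring

theorem lap_sub {f g : (Fin n → ℝ) → ℝ} {O : Set (Fin n → ℝ)} {x : Fin n → ℝ} (hO : IsOpen O)
    (hf : ContDiffOn ℝ 2 f O) (hg : ContDiffOn ℝ 2 g O) (hx : x ∈ O) :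
    lap (fun y => f y - g y) x = lap f x - lap g x := by
  simp only [lap, ← sum_sub_distrib]
  refine sum_congr rfl fun i _ => ?_
  have hev : pd (fun y => f y - g y) i =ᶠ[𝓝 x] fun y => pd f i y - pd g i y := by
    filter_upwards [hO.mem_nhds hx] with y hy
    exact pd_sub ((hf.differentiableOn (by norm_num)).differentiableAt (hO.mem_nhds hy))
      ((hg.differentiableOn (by norm_num)).differentiableAt (hO.mem_nhds hy)) i
  rw [pd_congr hev, pd_sub
    (((contDiffOn_pd_two hf hO i).differentiableOn one_ne_zero).differentiableAt (hO.mem_nhds hx))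
    (((contDiffOn_pd_two hg hO i).differentiableOn one_ne_zero).differentiableAt (hO.mem_nhds hx))]

/-- `s exp (-1 / s)` for positive `s`, zero otherwise. -/
def flat (s : ℝ) : ℝ := s * expNegInvGlue s

theorem contDiff_flat : ContDiff ℝ 2 flat :=
  contDiff_id.mul (expNegInvGlue.contDiff (n := 2))

theorem hasDerivAt_flat (s : ℝ) : HasDerivAt flat ((1 + s⁻¹) * expNegInvGlue s) s := by
  have h := expNegInvGlue.hasDerivAt_polynomial_eval_inv_mul 1 s
  simp at h
  refine ((hasDerivAt_id' s).mul h).congr_deriv ?_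
  rcases eq_or_ne s 0 with rfl | hs
  · simp [expNegInvGlue.zero]
  · field_simp

theorem hasDerivAt_flat' (s : ℝ) :
    HasDerivAt (fun s => (1 + s⁻¹) * expNegInvGlue s) (s⁻¹ ^ 3 * expNegInvGlue s) s := by
  have h := expNegInvGlue.hasDerivAt_polynomial_eval_inv_mul (1 + Polynomial.X) s
  simp at h
  refine h.congr_deriv ?_
  ring

theorem flat_nonneg (s : ℝ) : 0 ≤ flat s := by
  rcases le_or_gt s 0 with hs | hs
  · simp [flat, expNegInvGlue.zero_of_nonpos hs]
  · exact mul_nonneg hs.le (expNegInvGlue.nonneg s)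

theorem flat_le {s b : ℝ} (hs : s ≤ b) (hb : 0 ≤ b) : flat s ≤ b := by
  rcases le_or_gt s 0 with h0 | h0
  · simpa [flat, expNegInvGlue.zero_of_nonpos h0] using hb
  · refine (mul_le_of_le_one_right h0.le ?_).trans hs
    simp only [expNegInvGlue, if_neg h0.not_ge]
    exact Real.exp_le_one_iff.2 (neg_nonpos.2 (inv_pos.2 h0).le)

/-- The exponent of the comparison. -/
def sig (p q : ℝ) : ℝ := (q + 1) / (p + 1)

/-- The constant of the comparison. -/
def ell (p q : ℝ) : ℝ := ((p + 1) / (q + 1)) ^ (1 / (p + 1))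

theorem sig_pos (hp : 0 < p) (hq : 0 < q) : 0 < sig p q := div_pos (by linarith) (by linarith)

theorem ell_pos (hp : 0 < p) (hq : 0 < q) : 0 < ell p q :=
  Real.rpow_pos_of_pos (div_pos (by linarith) (by linarith)) _

theorem sig_mul_ell (hp : 0 < p) (hq : 0 < q) : sig p q * ell p q ^ (p + 1) = 1 := by
  have h1 : 0 < p + 1 := by linarith
  have h2 : 0 < q + 1 := by linarith
  rw [ell, ← Real.rpow_mul (div_pos h1 h2).le, one_div_mul_cancel h1.ne', Real.rpow_one, sig]
  field_simp

/-- The key sign: where the excess is positive, it is subharmonic. -/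
theorem excess_sign (hp : 0 < p) (hq : 0 < q) {a b : ℝ} (ha : 0 < a)
    (hb : ell p q * a ^ sig p q ≤ b) :
    a ^ q ≤ ell p q * (sig p q * a ^ (sig p q - 1)) * b ^ p := by
  have hl := ell_pos hp hq
  have hs := sig_pos hp hq
  have h1 : (ell p q * a ^ sig p q) ^ p ≤ b ^ p :=
    Real.rpow_le_rpow (by positivity) hb hp.le
  refine le_trans (le_of_eq ?_) (mul_le_mul_of_nonneg_left h1 (by positivity))
  rw [Real.mul_rpow hl.le (by positivity), ← Real.rpow_mul ha.le]
  have e1 : ell p q * ell p q ^ p = ell p q ^ (p + 1) := by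
    rw [Real.rpow_add_one hl.ne', mul_comm]
  have e2 : a ^ (sig p q - 1) * a ^ (sig p q * p) = a ^ q := by
    rw [← Real.rpow_add ha]
    congr 1
    rw [sig]
    field_simp
    ring
  calc a ^ q = sig p q * ell p q ^ (p + 1) * (a ^ (sig p q - 1) * a ^ (sig p q * p)) := by
        rw [sig_mul_ell hp hq, one_mul, e2]
    _ = _ := by rw [← e1]; ring

/-- The comparison, for every positive solution. -/
theorem Sol.compare (h : Sol p q u v) (hn : 3 ≤ n) (hq : 0 < q) (hqp : q ≤ p) (x : Fin n → ℝ) :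
    v x ≤ ((p + 1) / (q + 1)) ^ (1 / (p + 1)) * u x ^ ((q + 1) / (p + 1)) := by
  have hp : 0 < p := hq.trans_le hqp
  show v x ≤ ell p q * u x ^ sig p q
  set σ := sig p q with hσdef
  set l := ell p q with hldef
  have hl : 0 < l := ell_pos hp hq
  have hσ : 0 < σ := sig_pos hp hq
  have hσ1 : σ ≤ 1 := by
    rw [hσdef, sig, div_le_one (by linarith)]; linarith
  have hO : IsOpen {y : Fin n → ℝ | y ≠ 0} := isOpen_ne
  set w : (Fin n → ℝ) → ℝ := fun y => v y - l * u y ^ σ with hwdef
  have hpw : ContDiffOn ℝ 2 (fun y => l * u y ^ σ) {y | y ≠ 0} :=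
    contDiffOn_const.mul (h.smooth_u.rpow_const_of_ne fun y _ => (h.pos_u y).ne')
  have hw : ContDiffOn ℝ 2 w {y | y ≠ 0} := h.smooth_v.sub hpw
  have hwc : Continuous w :=
    h.cont_v.sub (continuous_const.mul (h.cont_u.rpow_const fun _ => Or.inr hσ.le))
  have hlap : ∀ y, y ≠ 0 → 0 < w y → 0 ≤ lap w y := by
    intro y hy hwy
    have ha := h.pos_u y
    have h1 : ∀ᶠ t in 𝓝 (u y), HasDerivAt (fun t => l * t ^ σ) (l * (σ * t ^ (σ - 1))) t := by
      filter_upwards [lt_mem_nhds ha] with t ht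
      exact (Real.hasDerivAt_rpow_const (Or.inl ht.ne')).const_mul l
    have h2 : HasDerivAt (fun t => l * (σ * t ^ (σ - 1)))
        (l * (σ * ((σ - 1) * u y ^ (σ - 1 - 1)))) (u y) :=
      ((Real.hasDerivAt_rpow_const (Or.inl ha.ne')).const_mul σ).const_mul l
    rw [hwdef, lap_sub hO h.smooth_v hpw hy, lap_comp hO h.smooth_u hy h1 h2, h.eq_u y hy,
      h.eq_v y hy]
    have hb : ell p q * u y ^ sig p q ≤ v y := by
      simp only [w, sub_pos] at hwy
      exact hwy.le
    have h3 := excess_sign hp hq ha hb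
    have h4 : l * (σ * ((σ - 1) * u y ^ (σ - 1 - 1))) * ∑ i, pd u i y ^ 2 ≤ 0 := by
      refine mul_nonpos_of_nonpos_of_nonneg ?_ (sum_nonneg fun i _ => sq_nonneg _)
      exact mul_nonpos_of_nonneg_of_nonpos hl.le (mul_nonpos_of_nonneg_of_nonpos hσ.le
        (mul_nonpos_of_nonpos_of_nonneg (by linarith) (Real.rpow_nonneg ha.le _)))
    rw [← hσdef, ← hldef] at h3
    linarith
  have hsup : PunctSuper (fun y => -flat (w y)) fun _ => 0 := by
    refine ⟨(contDiff_flat.continuous.comp hwc).neg,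
      (contDiff_flat.comp_contDiffOn hw).neg, continuous_const, fun y hy => ?_⟩
    rw [lap_comp (θ := fun s => -flat s) hO hw hy
      (.of_forall fun t => (hasDerivAt_flat t).neg) (hasDerivAt_flat' (w y)).neg]
    rw [neg_zero]
    rcases le_or_gt (w y) 0 with hwy | hwy
    · simp [expNegInvGlue.zero_of_nonpos hwy]
    · have hg := expNegInvGlue.nonneg (w y)
      have := hlap y hy hwy
      have hinv : 0 < (w y)⁻¹ := inv_pos.2 hwy
      have a1 : 0 ≤ (1 + (w y)⁻¹) * expNegInvGlue (w y) * lap w y := by positivity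
      have a2 : 0 ≤ (w y)⁻¹ ^ 3 * expNegInvGlue (w y) * ∑ i, pd w i y ^ 2 :=
        mul_nonneg (by positivity) (sum_nonneg fun i _ => sq_nonneg _)
      linarith
  by_contra hcon
  push Not at hcon
  have hpos : 0 < flat (w x) := mul_pos (sub_pos.2 hcon) (expNegInvGlue.pos_of_pos (sub_pos.2 hcon))
  obtain ⟨R, hR, hlt⟩ := h.exists_mean_lt' hp hq hn x
    (mul_pos hpos (mass_pos n 2 one_le_two))
  have hle := hsup.mean_le hn (fun _ => le_rfl) x hR.le
  have hcm : mean (fun y => flat (w y)) x R ≤ mean v x R := by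
    refine integral_mono ?_ ?_ fun y => mul_le_mul_of_nonneg_right ?_ (posPow_nonneg _ _)
    · simpa using integrable_weight (f := fun y => flat (w (x + R • y)))
        ((contDiff_flat.continuous.comp hwc).comp (by fun_prop)) (0 : Fin n → ℝ) zero_le_one 2
        one_le_two
    · simpa using integrable_weight (f := fun y => v (x + R • y)) (h.cont_v.comp (by fun_prop))
        (0 : Fin n → ℝ) zero_le_one 2 one_le_two
    · exact flat_le (sub_le_self _ (mul_nonneg hl.le (Real.rpow_nonneg (h.pos_u _).le σ)))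
        (h.pos_v _).le
  simp only [mean, neg_mul, integral_neg] at hle
  simp only [mean] at hcm hlt
  linarith

end

end Vale.Agent.P100
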