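import Mathlib
import Vale.Agent.P100.Super

/-!
# P100: a positive divergence with a scaling bound is impossible

Let `div X = P > 0` in the weak sense away from the origin, with `|X| ≤ C P ^ (1 - 1/D)` everywhere,
`D > n`, and `|X| ≤ C' P ^ (3/4)` near the origin, `n ≥ 5`. Cutting off at radius `R` and at radius
`1 / R` gives `∫ P ≤ C (R ^ (n - D) + R ^ (4 - n))` on a fixed set, which is absurd.
-/

namespace Vale.Agent.P100

open MeasureTheory Set Filter Topology Finset Function
open Vale.Agent.P098.Cone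
open scoped ContDiff

noncomputable section

variable {n : ℕ} {O : Set (Fin n → ℝ)}

theorem continuous_mul_of_tsupport {η f : (Fin n → ℝ) → ℝ} (hη : Continuous η) (hO : IsOpen O)
    (hs : tsupport η ⊆ O) (hf : ContinuousOn f O) : Continuous fun y => η y * f y := by
  refine continuous_iff_continuousAt.2 fun y => ?_
  by_cases hy : y ∈ tsupport η
  · exact hη.continuousAt.mul (hf.continuousAt (hO.mem_nhds (hs hy)))
  · refine (continuousAt_const (y := (0 : ℝ))).congr ?_
    filter_upwards [(isClosed_tsupport η).isOpen_compl.mem_nhds hy] with z hz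
    simp [image_eq_zero_of_notMem_tsupport hz]

/-- Young's inequality in the form used here. -/
theorem young {a b D : ℝ} (ha : 0 ≤ a) (hb : 0 ≤ b) (hD : 1 ≤ D) :
    a ^ (1 - 1 / D) * b ≤ a / 4 + (4 : ℝ) ^ (D - 1) * b ^ D := by
  have hD0 : 0 < D := by linarith
  have hw1 : 0 ≤ 1 - 1 / D := by rw [sub_nonneg, div_le_one hD0]; exact hD
  have hw2 : 0 ≤ 1 / D := by positivity
  have h := Real.geom_mean_le_arith_mean2_weighted hw1 hw2 (p₁ := a / 4)
    (p₂ := (4 : ℝ) ^ (D - 1) * b ^ D) (by linarith) (by positivity) (sub_add_cancel 1 _)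
  have e : ((4 : ℝ) ^ (D - 1) * b ^ D) ^ (1 / D) = (4 : ℝ) ^ (1 - 1 / D) * b := by
    rw [Real.mul_rpow (by positivity) (by positivity), ← Real.rpow_mul (by norm_num),
      ← Real.rpow_mul hb, mul_one_div_cancel hD0.ne', Real.rpow_one]
    congr 2
    field_simp
  rw [e, Real.div_rpow ha (by norm_num)] at h
  have h4 : (4 : ℝ) ^ (1 - 1 / D) ≠ 0 := (Real.rpow_pos_of_pos (by norm_num) _).ne'
  have h' : a ^ (1 - 1 / D) * b
      = a ^ (1 - 1 / D) / (4 : ℝ) ^ (1 - 1 / D) * ((4 : ℝ) ^ (1 - 1 / D) * b) := by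
    field_simp
  rw [h']
  refine h.trans (add_le_add ?_ ?_)
  · exact mul_le_of_le_one_left (by linarith) (by linarith)
  · exact mul_le_of_le_one_left (by positivity) (by rw [div_le_one hD0]; exact hD)

/-- The cut-off at radii `R` and `1 / R`, to a power. -/
def window (k : ℕ) (R : ℝ) (x : Fin n → ℝ) : ℝ := ((1 - hole R x) * hole (1 / R) x) ^ k

theorem window_pow_le {a : ℝ} (h0 : 0 ≤ a) (h1 : a ≤ 1) {k : ℕ} {D : ℝ} (hD : 1 ≤ D) (hk : D ≤ k) :
    a ^ (k - 1) ≤ (a ^ k) ^ (1 - 1 / D) := by
  rcases h0.eq_or_lt' with rfl | hpos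
  · rcases Nat.lt_or_ge 1 k with hk1 | hk1
    · simp [zero_pow (by omega : k - 1 ≠ 0)]
      exact Real.rpow_nonneg (by positivity) _
    · have hk2 : k = 1 := by
        have : (1 : ℝ) ≤ k := hD.trans hk
        have : 1 ≤ k := by exact_mod_cast this
        omega
      subst hk2
      have : D = 1 := le_antisymm (by simpa using hk) hD
      simp [this]
  rw [← Real.rpow_natCast a k, ← Real.rpow_mul h0, ← Real.rpow_natCast]
  refine Real.rpow_le_rpow_of_exponent_ge hpos h1 ?_
  have hD0 : 0 < D := by linarith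
  have h1k : 1 ≤ k := by exact_mod_cast hD.trans hk
  rw [Nat.cast_sub h1k]
  have : 1 ≤ (k : ℝ) * (1 / D) := by rw [mul_one_div, one_le_div hD0]; exact hk
  push_cast
  linarith

/-- No positive divergence with a supercritical scaling bound. -/
theorem no_positive_divergence {X : Fin n → (Fin n → ℝ) → ℝ} {P : (Fin n → ℝ) → ℝ} {D : ℝ}
    (hn : 5 ≤ n) (hD : (n : ℝ) < D)
    (hX : ∀ i, ContinuousOn (X i) {x | x ≠ 0}) (hPc : ContinuousOn P {x | x ≠ 0})
    (hP : ∀ x, x ≠ 0 → 0 < P x)
    (hid : ∀ φ : (Fin n → ℝ) → ℝ, ContDiff ℝ 1 φ → HasCompactSupport φ →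
      tsupport φ ⊆ {x | x ≠ 0} → ∫ x, (φ x * P x + ∑ i, pd φ i x * X i x) = 0)
    (hfar : ∃ C, ∀ x, x ≠ 0 → ∀ i, |X i x| ≤ C * P x ^ (1 - 1 / D))
    (hnear : ∃ C, ∀ x, x ≠ 0 → sqr x ≤ 4 → ∀ i, |X i x| ≤ C * P x ^ (1 - 1 / (4 : ℝ))) :
    False := by
  have hn5 : (5 : ℝ) ≤ n := by exact_mod_cast hn
  have hD1 : 1 ≤ D := by linarith
  obtain ⟨C1, hC1⟩ := hfar
  obtain ⟨C2, hC2⟩ := hnear
  obtain ⟨C0, hC00, hC0⟩ := hole_bound n
  obtain ⟨k, hk⟩ := exists_nat_ge (max D 4)
  have hkD : D ≤ k := (le_max_left _ _).trans hk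
  have hk4 : (4 : ℝ) ≤ k := (le_max_right _ _).trans hk
  have hk0 : 1 ≤ k := by exact_mod_cast (show (1 : ℝ) ≤ k by linarith)
  have hO : IsOpen {x : Fin n → ℝ | x ≠ 0} := isOpen_ne
  set A1 := (k : ℝ) * n * (|C1| * C0)
  set A2 := (k : ℝ) * n * (|C2| * C0)
  set E : ℕ → ℝ := fun N => (4 : ℝ) ^ (D - 1) * 4 ^ n * A1 ^ D * (N : ℝ) ^ ((n : ℝ) - D)
      + (4 : ℝ) ^ ((4 : ℝ) - 1) * 4 ^ n * A2 ^ (4 : ℝ) * (N : ℝ) ^ ((4 : ℝ) - n)
  have hE : Tendsto E atTop (𝓝 0) := by
    have h : ∀ e : ℝ, e < 0 → Tendsto (fun N : ℕ => (N : ℝ) ^ e) atTop (𝓝 0) := fun e he => by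
      simpa [Function.comp_def] using
        (tendsto_rpow_neg_atTop (neg_pos.2 he)).comp tendsto_natCast_atTop_atTop
    simpa using ((h _ (show (n : ℝ) - D < 0 by linarith)).const_mul _).add
      ((h _ (show (4 : ℝ) - n < 0 by linarith)).const_mul _)
  -- a fixed place where the window is one
  set a : Fin n → ℝ := Pi.single ⟨0, by omega⟩ 1
  set K := Metric.closedBall a (1 / 2)
  have hKn : ∀ x ∈ K, x ≠ 0 ∧ 1 / 4 ≤ sqr x ∧ sqr x ≤ 3 * n := by
    intro x hx
    have hx' := fun i => (Real.dist_eq (x i) (a i)).symm.trans_le ((dist_le_pi_dist x a i).trans hx)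
    have h0 : 1 / 2 ≤ x ⟨0, by omega⟩ := by
      have := abs_le.1 (hx' ⟨0, by omega⟩)
      simp [a] at this; linarith
    refine ⟨fun e => by simp [e] at h0; linarith, ?_, ?_⟩
    · refine le_trans ?_ (sq_le_sqr x ⟨0, by omega⟩)
      nlinarith
    · calc sqr x ≤ ∑ _i : Fin n, (3 : ℝ) := sum_le_sum fun i _ => by
            have := abs_le.1 (hx' i)
            have ha : 0 ≤ a i ∧ a i ≤ 1 := by simp only [a, Pi.single_apply]; split_ifs <;> norm_num
            have : |x i| ≤ 3 / 2 := abs_le.2 ⟨by linarith, by linarith⟩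
            have := pow_le_pow_left₀ (abs_nonneg _) this 2
            rw [sq_abs] at this
            linarith
        _ = _ := by simp; ring
  have hKpos : 0 < ∫ x in K, P x := by
    have hPK : IntegrableOn P K :=
      (hPc.mono fun x hx => (hKn x hx).1).integrableOn_compact (isCompact_closedBall _ _)
    rw [setIntegral_pos_iff_support_of_nonneg_ae
      (ae_restrict_of_forall_mem Metric.isClosed_closedBall.measurableSet fun x hx => (hP x (hKn x hx).1).le)
      hPK]
    refine lt_of_lt_of_le (Metric.measure_closedBall_pos volume a (show (0 : ℝ) < 1 / 2 by norm_num)) (measure_mono ?_)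
    exact fun x hx => ⟨(hP x (hKn x hx).1).ne', hx⟩
  -- the estimate at scale `N`
  have key : ∀ N : ℕ, 3 * n < N → (∫ x in K, P x) ≤ 2 * E N := by
    intro N hN
    have hN0 : 0 < (N : ℝ) := Nat.cast_pos.2 (by omega)
    have hN2 : (2 : ℝ) ≤ N := by exact_mod_cast (show 2 ≤ N by omega)
    have hε : 0 < 1 / (N : ℝ) := by positivity
    have hε1 : 1 / (N : ℝ) ≤ 1 / 2 := one_div_le_one_div_of_le two_pos hN2
    set χ : (Fin n → ℝ) → ℝ := fun x => 1 - hole (N : ℝ) x
    set η : (Fin n → ℝ) → ℝ := hole (1 / (N : ℝ))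
    have hχ : ContDiff ℝ 1 χ :=
      (contDiff_const.sub (contDiff_hole _)).of_le (WithTop.coe_le_coe.2 le_top)
    have hη : ContDiff ℝ 1 η := (contDiff_hole _).of_le (WithTop.coe_le_coe.2 le_top)
    have hχ01 : ∀ x, 0 ≤ χ x ∧ χ x ≤ 1 := fun x => by
      obtain ⟨h1, h2⟩ := hole_mem (n := n) (N : ℝ) x
      simp only [χ]; constructor <;> linarith
    have hη01 : ∀ x, 0 ≤ η x ∧ η x ≤ 1 := fun x => hole_mem _ x
    set φ : (Fin n → ℝ) → ℝ := fun x => (χ x * η x) ^ k
    have hφ : ContDiff ℝ 1 φ := (hχ.mul hη).pow k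
    have hφ0 : ∀ x, 0 ≤ φ x := fun x => pow_nonneg (mul_nonneg (hχ01 x).1 (hη01 x).1) _
    set B := fun r : ℝ => Icc (fun _ : Fin n => -(2 * r)) (fun _ => 2 * r)
    have hBox : ∀ r : ℝ, 0 ≤ r → ∀ x, x ∉ B r → 2 * r ^ 2 < sqr x := fun r hr x hx => by
      by_contra hle
      refine hx ?_
      have := mem_box (x := x) (a := 0) (R := 2 * r) (by positivity) (by
        rw [sub_zero]; linarith [not_lt.1 hle, sq_nonneg r])
      simpa [B] using this
    have hχz : ∀ x, x ∉ B N → χ x = 0 := fun x hx => by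
      simp [χ, ((hC0 _ hN0 x).2.2.2 (hBox N hN0.le x hx)).1]
    have hcs : HasCompactSupport φ := HasCompactSupport.intro (K := B (N : ℝ)) isCompact_Icc fun x hx => by
      simp [φ, hχz x hx, zero_pow (by omega : k ≠ 0)]
    have hts : tsupport φ ⊆ {x | x ≠ 0} := fun x hx (e : x = 0) => by
      subst e
      refine notMem_tsupport_iff_eventuallyEq.2 ?_ hx
      filter_upwards [continuous_sqr.continuousAt.eventually (gt_mem_nhds
        (show sqr (0 : Fin n → ℝ) < (1 / (N : ℝ)) ^ 2 by rw [sqr_zero]; positivity))] with y hy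
      simp only [φ, η, (hC0 _ hε y).2.2.1 hy, mul_zero, zero_pow (by omega : k ≠ 0), Pi.zero_apply]
    set F : (Fin n → ℝ) → ℝ := fun x => φ x * P x
    have hFc : Continuous F := continuous_mul_of_tsupport hφ.continuous hO hts hPc
    have hFi : Integrable F := hFc.integrable_of_hasCompactSupport hcs.mul_right
    have hF0 : ∀ x, 0 ≤ F x := fun x => by
      by_cases hx : x = 0
      · subst hx
        simp [F, image_eq_zero_of_notMem_tsupport fun h => hts h rfl]
      · exact mul_nonneg (hφ0 x) (hP x hx).le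
    set G : (Fin n → ℝ) → ℝ := fun x => ∑ i, pd φ i x * X i x
    have hGc : Continuous G := continuous_finsetSum _ fun i _ =>
      continuous_mul_of_tsupport (continuous_pd_one hφ i) hO ((tsupport_pd _ _).trans hts) (hX i)
    have hGs : HasCompactSupport G := HasCompactSupport.intro hcs fun x hx =>
      sum_eq_zero fun i _ => by
        rw [image_eq_zero_of_notMem_tsupport fun h => hx (tsupport_pd _ _ h), zero_mul]
    have hGi : Integrable G := hGc.integrable_of_hasCompactSupport hGs
    have hI := hid φ hφ hcs hts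
    rw [integral_add hFi hGi] at hI
    set c1 := (4 : ℝ) ^ (D - 1) * (A1 / N) ^ D
    set c2 := (4 : ℝ) ^ ((4 : ℝ) - 1) * (A2 * N) ^ (4 : ℝ)
    have hA1 : 0 ≤ A1 := by positivity
    have hA2 : 0 ≤ A2 := by positivity
    have hptw : ∀ x, -G x ≤ F x / 2 + (B (N : ℝ)).indicator (fun _ => c1) x
        + (B (1 / (N : ℝ))).indicator (fun _ => c2) x := by
      intro x
      have hc1 : 0 ≤ (B (N : ℝ)).indicator (fun _ => c1) x :=
        indicator_nonneg (fun _ _ => by positivity) x
      have hc2 : 0 ≤ (B (1 / (N : ℝ))).indicator (fun _ => c2) x :=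
        indicator_nonneg (fun _ _ => by positivity) x
      by_cases hx : x ∈ tsupport φ
      swap
      · have : G x = 0 := sum_eq_zero fun i _ => by
          rw [image_eq_zero_of_notMem_tsupport fun h => hx (tsupport_pd _ _ h), zero_mul]
        linarith [hF0 x]
      have hx0 : x ≠ 0 := hts hx
      have hP0 := hP x hx0
      obtain ⟨-, hgχ, -, hχ'⟩ := hC0 _ hN0 x
      obtain ⟨-, hgη, -, hη'⟩ := hC0 _ hε x
      have hy0 := mul_nonneg (hχ01 x).1 (hη01 x).1
      have hy1 : χ x * η x ≤ 1 := mul_le_one₀ (hχ01 x).2 (hη01 x).1 (hη01 x).2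
      set y := χ x * η x with hy
      have epd : ∀ i, pd φ i x
          = k * y ^ (k - 1) * (χ x * pd η i x - η x * pd (hole (N : ℝ)) i x) := fun i => by
        have dχ := hχ.differentiable one_ne_zero x
        have dη := hη.differentiable one_ne_zero x
        rw [show φ = fun z => (fun t : ℝ => t ^ k) (χ z * η z) from rfl,
          pd_comp (hasDerivAt_pow k _) (dχ.fun_mul dη), pd_mul dχ dη]
        have : pd χ i x = -pd (hole (N : ℝ)) i x := by
          simp only [χ]
          rw [pd_sub (differentiableAt_const _)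
            ((contDiff_hole (n := n) (N : ℝ)).differentiable (by simp) x), pd_const, zero_sub]
        rw [this]; ring
      have hG : -G x ≤ ∑ i, k * y ^ (k - 1) * |pd η i x| * |X i x|
          + ∑ i, k * y ^ (k - 1) * |pd (hole (N : ℝ)) i x| * |X i x| := by
        rw [← sum_add_distrib, ← sum_neg_distrib]
        refine sum_le_sum fun i _ => ?_
        rw [epd i]
        refine (neg_le_abs _).trans ?_
        rw [abs_mul, abs_mul, abs_of_nonneg (by positivity : (0 : ℝ) ≤ k * y ^ (k - 1))]
        rw [← add_mul, ← mul_add]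
        refine mul_le_mul_of_nonneg_right (mul_le_mul_of_nonneg_left ?_ (by positivity)) (abs_nonneg _)
        refine (abs_sub _ _).trans (add_le_add ?_ ?_)
        · rw [abs_mul, abs_of_nonneg (hχ01 x).1]; exact mul_le_of_le_one_left (abs_nonneg _) (hχ01 x).2
        · rw [abs_mul, abs_of_nonneg (hη01 x).1]; exact mul_le_of_le_one_left (abs_nonneg _) (hη01 x).2
      have houter : ∑ i, k * y ^ (k - 1) * |pd (hole (N : ℝ)) i x| * |X i x|
          ≤ F x / 4 + (B (N : ℝ)).indicator (fun _ => c1) x := by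
        by_cases hm : x ∈ B (N : ℝ)
        swap
        · have hz := (hχ' (hBox N hN0.le x hm)).2.2
          simp only [hz, abs_zero, mul_zero, zero_mul, sum_const_zero]
          linarith [hF0 x]
        rw [indicator_of_mem hm]
        refine le_trans ?_ (young (hF0 x) (div_nonneg hA1 hN0.le) hD1)
        calc ∑ i, k * y ^ (k - 1) * |pd (hole (N : ℝ)) i x| * |X i x|
            ≤ ∑ _i : Fin n, (k * y ^ (k - 1)) * (C0 / N) * (|C1| * P x ^ (1 - 1 / D)) :=
              sum_le_sum fun i _ => mul_le_mul (mul_le_mul_of_nonneg_left (hgχ i) (by positivity))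
                ((hC1 x hx0 i).trans (mul_le_mul_of_nonneg_right (le_abs_self _)
                  (Real.rpow_nonneg hP0.le _))) (abs_nonneg _) (by positivity)
          _ = y ^ (k - 1) * P x ^ (1 - 1 / D) * (A1 / N) := by
              simp only [sum_const, card_univ, Fintype.card_fin, nsmul_eq_mul, A1]; ring
          _ ≤ _ := by
              refine mul_le_mul_of_nonneg_right ?_ (div_nonneg hA1 hN0.le)
              rw [Real.mul_rpow (hφ0 x) hP0.le]
              exact mul_le_mul_of_nonneg_right (window_pow_le hy0 hy1 hD1 hkD)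
                (Real.rpow_nonneg hP0.le _)
      have hinner : ∑ i, k * y ^ (k - 1) * |pd η i x| * |X i x|
          ≤ F x / 4 + (B (1 / (N : ℝ))).indicator (fun _ => c2) x := by
        by_cases hm : sqr x ≤ 2 * (1 / (N : ℝ)) ^ 2
        swap
        · have hz := (hη' (not_le.1 hm)).2.2
          simp only [η, hz, abs_zero, mul_zero, zero_mul, sum_const_zero]
          linarith [hF0 x]
        have hmB : x ∈ B (1 / (N : ℝ)) := by
          by_contra h
          linarith [hBox _ hε.le x h]
        rw [indicator_of_mem hmB]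
        have h4 : sqr x ≤ 4 := by
          have := pow_le_pow_left₀ hε.le hε1 2
          linarith
        refine le_trans ?_ (young (hF0 x) (mul_nonneg hA2 hN0.le) (by norm_num : (1 : ℝ) ≤ 4))
        calc ∑ i, k * y ^ (k - 1) * |pd η i x| * |X i x|
            ≤ ∑ _i : Fin n, (k * y ^ (k - 1)) * (C0 * N) * (|C2| * P x ^ (1 - 1 / (4 : ℝ))) :=
              sum_le_sum fun i _ => mul_le_mul (mul_le_mul_of_nonneg_left
                ((hgη i).trans_eq (by simp)) (by positivity))
                ((hC2 x hx0 h4 i).trans (mul_le_mul_of_nonneg_right (le_abs_self _)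
                  (Real.rpow_nonneg hP0.le _))) (abs_nonneg _) (by positivity)
          _ = y ^ (k - 1) * P x ^ (1 - 1 / (4 : ℝ)) * (A2 * N) := by
              simp only [sum_const, card_univ, Fintype.card_fin, nsmul_eq_mul, A2]; ring
          _ ≤ _ := by
              refine mul_le_mul_of_nonneg_right ?_ (mul_nonneg hA2 hN0.le)
              rw [Real.mul_rpow (hφ0 x) hP0.le]
              exact mul_le_mul_of_nonneg_right (window_pow_le hy0 hy1 (by norm_num) hk4)
                (Real.rpow_nonneg hP0.le _)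
      linarith
    have hBi : ∀ (r c : ℝ), Integrable ((B r).indicator fun _ => c) := fun r c =>
      (integrable_indicator_iff measurableSet_Icc).2 (integrableOn_const isCompact_Icc.measure_lt_top.ne)
    have hBv : ∀ (r c : ℝ), 0 ≤ r → ∫ x, (B r).indicator (fun _ => c) x = (4 * r) ^ n * c := fun r c hr => by
      rw [integral_indicator measurableSet_Icc, setIntegral_const, smul_eq_mul, measureReal_def,
        Real.volume_Icc_pi_toReal (fun i => by linarith)]
      simp
      ring_nf
      simp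
    have hle : ∫ x, -G x ≤ (∫ x, F x) / 2 + (4 * (N : ℝ)) ^ n * c1 + (4 * (1 / (N : ℝ))) ^ n * c2 := by
      refine (integral_mono hGi.neg ((((hFi.div_const 2).add (hBi _ c1))).add (hBi _ c2)) hptw).trans ?_
      simp only [Pi.add_apply]
      rw [integral_add (f := fun x => F x / 2 + (B (N : ℝ)).indicator (fun _ => c1) x)
        ((hFi.div_const 2).add (hBi _ _)) (hBi _ _), integral_add (hFi.div_const 2) (hBi _ _),
        integral_div, hBv _ _ hN0.le, hBv _ _ hε.le]
    rw [integral_neg] at hle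
    have hEe : (4 * (N : ℝ)) ^ n * c1 + (4 * (1 / (N : ℝ))) ^ n * c2 = E N := by
      simp only [c1, c2, E]
      rw [Real.div_rpow hA1 hN0.le, Real.mul_rpow hA2 hN0.le, Real.rpow_sub hN0, Real.rpow_sub hN0,
        Real.rpow_natCast, mul_pow, mul_pow, div_pow, one_pow]
      ring
    have hKF : ∫ x in K, P x ≤ ∫ x, F x := by
      refine le_trans (le_of_eq (setIntegral_congr_fun Metric.isClosed_closedBall.measurableSet
        fun x hx => ?_)) (setIntegral_le_integral hFi (.of_forall hF0))
      obtain ⟨-, h1, h2⟩ := hKn x hx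
      have hNn : (3 : ℝ) * n + 1 ≤ N := by exact_mod_cast (show 3 * n + 1 ≤ N by omega)
      have e1 : hole (1 / (N : ℝ)) x = 1 := by
        refine ((hC0 _ hε x).2.2.2 ?_).1
        rw [div_pow, one_pow]
        have hN3 : (9 : ℝ) ≤ (N : ℝ) ^ 2 := by nlinarith
        rw [mul_one_div, div_lt_iff₀ (by positivity)]
        nlinarith
      have e2 : hole (N : ℝ) x = 0 := (hC0 _ hN0 x).2.2.1 (by nlinarith)
      simp only [F, φ, χ, η, e1, e2, sub_zero, mul_one, one_pow, one_mul]
    linarith
  have hev : ∀ᶠ N : ℕ in atTop, (∫ x in K, P x) ≤ 2 * E N := by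
    filter_upwards [eventually_gt_atTop (3 * n)] with N hN using key N hN
  have := ge_of_tendsto (by simpa using hE.const_mul 2 : Tendsto (fun N => 2 * E N) atTop (𝓝 0)) hev
  linarith

end

end Vale.Agent.P100
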