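import Mathlib
import Vale.Agent.P100.Super

/-!
# P100: integration by parts without third derivatives
-/

namespace Vale.Agent.P100

open MeasureTheory Set Filter Topology Finset Function
open Vale.Agent.P098.Cone
open scoped ContDiff

noncomputable section

variable {n : ℕ}

/-- The difference quotient of a compactly supported function tends, in integral against a continuous
function, to the partial derivative. -/
theorem tendsto_slope_integral {g k : (Fin n → ℝ) → ℝ} (hg : ContDiff ℝ 1 g)
    (hgc : HasCompactSupport g) (hk : Continuous k) (hkc : HasCompactSupport k) (j : Fin n) :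
    Tendsto (fun h : ℝ => ∫ x, (g (x + h • Pi.single j 1) - g x) / h * k x) (𝓝[≠] 0)
      (𝓝 (∫ x, pd g j x * k x)) := by
  obtain ⟨L, hL⟩ : ∃ L, LipschitzWith L g :=
    ContDiff.lipschitzWith_of_hasCompactSupport hgc hg (by simp)
  refine tendsto_integral_filter_of_dominated_convergence (fun x => (L : ℝ) * ‖(Pi.single j 1 : Fin n → ℝ)‖ * |k x|)
    (.of_forall fun h => ((((hg.continuous.comp (continuous_id.add continuous_const)).sub
      hg.continuous).div_const h).mul hk).aestronglyMeasurable) ?_
    ((hk.integrable_of_hasCompactSupport hkc).abs.const_mul _) (.of_forall fun x => ?_)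
  · filter_upwards [self_mem_nhdsWithin] with h (hh : h ≠ 0)
    refine .of_forall fun x => ?_
    rw [Real.norm_eq_abs, abs_mul, abs_div]
    refine mul_le_mul_of_nonneg_right ?_ (abs_nonneg _)
    rw [div_le_iff₀ (abs_pos.2 hh), ← Real.norm_eq_abs]
    refine (hL.norm_sub_le _ _).trans (le_of_eq ?_)
    rw [add_sub_cancel_left, norm_smul, Real.norm_eq_abs]
    ring
  · have h1 : HasDerivAt (fun h : ℝ => g (x + h • Pi.single j 1)) (pd g j x) 0 := by
      have hg' : HasFDerivAt g (fderiv ℝ g x) (x + (0 : ℝ) • Pi.single j 1) := by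
        simpa using (hg.differentiable one_ne_zero x).hasFDerivAt
      have := hg'.comp_hasDerivAt (0 : ℝ)
        (((hasDerivAt_id' (0 : ℝ)).smul_const (Pi.single j (1 : ℝ) : Fin n → ℝ)).const_add x)
      simpa [pd, Function.comp_def] using this
    have h2 := hasDerivAt_iff_tendsto_slope_zero.1 h1
    refine Tendsto.mul_const (k x) (h2.congr fun h => ?_)
    simp [div_eq_inv_mul]

theorem integral_mul_pd {f g : (Fin n → ℝ) → ℝ} (hf : ContDiff ℝ 1 f) (hg : ContDiff ℝ 1 g)
    (hgc : HasCompactSupport g) (i : Fin n) :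
    ∫ x, f x * pd g i x = -∫ x, pd f i x * g x := by
  have h0 := integral_pd_zero (hf.mul hg) hgc.mul_left i
  have e : ∀ x, pd (fun y => f y * g y) i x = f x * pd g i x + pd f i x * g x := fun x => by
    rw [pd_mul (hf.differentiable one_ne_zero x) (hg.differentiable one_ne_zero x)]
    ring
  have i1 : Integrable fun x => f x * pd g i x :=
    (hf.continuous.mul (continuous_pd_one hg i)).integrable_of_hasCompactSupport
      (hasCompactSupport_pd hgc i).mul_left
  have i2 : Integrable fun x => pd f i x * g x :=
    ((continuous_pd_one hf i).mul hg.continuous).integrable_of_hasCompactSupport hgc.mul_left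
  rw [integral_congr_ae (.of_forall e), integral_add i1 i2] at h0
  linarith

/-- The exchange of two first derivatives. -/
theorem integral_pd_swap {g ψ : (Fin n → ℝ) → ℝ} (hg : ContDiff ℝ 1 g) (hgc : HasCompactSupport g)
    (hψ : ContDiff ℝ 1 ψ) (hψc : HasCompactSupport ψ) (i j : Fin n) :
    ∫ x, pd g j x * pd ψ i x = ∫ x, pd g i x * pd ψ j x := by
  have hc := continuous_pd_one hψ i
  have key : ∀ h : ℝ, ∫ x, (g (x + h • Pi.single j 1) - g x) / h * pd ψ i x
      = ∫ x, (ψ (x + (-h) • Pi.single j 1) - ψ x) / (-h) * pd g i x := by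
    intro h
    set e : Fin n → ℝ := Pi.single j 1
    have hψt : ContDiff ℝ 1 fun x => ψ (x + (-h) • e) := hψ.comp (contDiff_id.add contDiff_const)
    have hgt : ContDiff ℝ 1 fun x => g (x + h • e) := hg.comp (contDiff_id.add contDiff_const)
    have j1 : ∫ x, g (x + h • e) * pd ψ i x = ∫ x, g x * pd (fun y => ψ (y + (-h) • e)) i x := by
      rw [← integral_add_right_eq_self (fun x => g x * pd (fun y => ψ (y + (-h) • e)) i x) (h • e)]
      refine integral_congr_ae (.of_forall fun x => ?_)
      simp [pd, fderiv_comp_add_right, add_assoc, ← add_smul]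
    have hψtc : HasCompactSupport fun x => ψ (x + (-h) • e) :=
      hψc.comp_homeomorph (Homeomorph.addRight _)
    have i1 : Integrable fun x => g (x + h • e) * pd ψ i x :=
      (hgt.continuous.mul hc).integrable_of_hasCompactSupport (hasCompactSupport_pd hψc i).mul_left
    have i2 : Integrable fun x => g x * pd ψ i x :=
      (hg.continuous.mul hc).integrable_of_hasCompactSupport hgc.mul_right
    have i3 : Integrable fun x => pd g i x * ψ (x + (-h) • e) :=
      ((continuous_pd_one hg i).mul hψt.continuous).integrable_of_hasCompactSupport hψtc.mul_left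
    have i4 : Integrable fun x => pd g i x * ψ x :=
      ((continuous_pd_one hg i).mul hψ.continuous).integrable_of_hasCompactSupport hψc.mul_left
    calc ∫ x, (g (x + h • e) - g x) / h * pd ψ i x
        = ∫ x, h⁻¹ * (g (x + h • e) * pd ψ i x - g x * pd ψ i x) :=
          integral_congr_ae (.of_forall fun x => by ring)
      _ = h⁻¹ * (-(∫ x, pd g i x * ψ (x + (-h) • e)) + ∫ x, pd g i x * ψ x) := by
          rw [integral_const_mul, integral_sub i1 i2, j1, integral_mul_pd hg hψt hψtc,
            integral_mul_pd hg hψ hψc]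
          ring
      _ = ∫ x, -h⁻¹ * (pd g i x * ψ (x + (-h) • e) - pd g i x * ψ x) := by
          rw [integral_const_mul, integral_sub i3 i4]
          ring
      _ = _ := integral_congr_ae (.of_forall fun x => by simp only [div_eq_mul_inv, inv_neg]; ring)
  refine tendsto_nhds_unique (tendsto_slope_integral hg hgc hc (hasCompactSupport_pd hψc i) j) ?_
  have hneg : Tendsto (fun h : ℝ => -h) (𝓝[≠] 0) (𝓝[≠] 0) :=
    tendsto_nhdsWithin_of_tendsto_nhds_of_eventually_within _
      ((continuous_neg.tendsto' 0 0 neg_zero).mono_left nhdsWithin_le_nhds)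
      (by filter_upwards [self_mem_nhdsWithin] with h (hh : h ≠ 0) using neg_ne_zero.2 hh)
  have := (tendsto_slope_integral hψ hψc (continuous_pd_one hg i) (hasCompactSupport_pd hgc i) j).comp hneg
  refine (this.congr fun h => (key h).symm).trans (le_of_eq ?_)
  exact congrArg _ (integral_congr_ae (.of_forall fun x => mul_comm _ _))

variable {O : Set (Fin n → ℝ)}

/-- A flux through a cut-off has integral zero. -/
theorem integral_pd_cut {φ Y : (Fin n → ℝ) → ℝ} (hO : IsOpen O) (hY : ContDiffOn ℝ 1 Y O)
    (hφ : ContDiff ℝ 1 φ) (hc : HasCompactSupport φ) (hs : tsupport φ ⊆ O) (i : Fin n) :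
    ∫ x, (φ x * pd Y i x + pd φ i x * Y x) = 0 := by
  refine Eq.trans ?_ (integral_pd_zero (contDiff_mul_of_tsupport hφ hO hs hY) hc.mul_right i)
  refine integral_congr_ae (.of_forall fun x => ?_)
  show _ = pd (fun y => φ y * Y y) i x
  by_cases hx : x ∈ tsupport φ
  · rw [pd_mul (hφ.differentiable one_ne_zero x)
      ((hY.differentiableOn one_ne_zero).differentiableAt (hO.mem_nhds (hs hx)))]
    ring
  · have : (fun y => φ y * Y y) =ᶠ[𝓝 x] fun _ => 0 := by
      filter_upwards [notMem_tsupport_iff_eventuallyEq.1 hx] with y hy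
      simp [hy]
    simp only [pd_congr this, pd_const, image_eq_zero_of_notMem_tsupport hx,
      image_eq_zero_of_notMem_tsupport fun h => hx (tsupport_pd φ i h)]
    ring

/-- The Bochner identity in weak form: the field `φ (D²w h - Δw h)` has divergence free of third
derivatives, and integral zero. -/
theorem integral_bochner {w φ : (Fin n → ℝ) → ℝ} {h : Fin n → (Fin n → ℝ) → ℝ} (hO : IsOpen O)
    (hw : ContDiffOn ℝ 2 w O) (hh : ∀ j, ContDiffOn ℝ 1 (h j) O) (hφ : ContDiff ℝ 1 φ)
    (hc : HasCompactSupport φ) (hs : tsupport φ ⊆ O) :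
    ∫ x, ∑ i, ∑ j, (pd (pd w i) j x * (φ x * pd (h j) i x + pd φ i x * h j x)
      - pd (pd w i) i x * (φ x * pd (h j) j x + pd φ j x * h j x)) = 0 := by
  obtain ⟨χ, hχ, hχc, hχs, -, hχ1⟩ := exists_cutoff hc hO hs
  have hW : ContDiff ℝ 2 fun x => χ x * w x :=
    contDiff_mul_of_tsupport (hχ.of_le (WithTop.coe_le_coe.2 le_top)) hO hχs hw
  set W := fun x => χ x * w x
  set ψ := fun j x => φ x * h j x
  have hψ : ∀ j, ContDiff ℝ 1 (ψ j) := fun j => contDiff_mul_of_tsupport hφ hO hs (hh j)
  have hψc : ∀ j, HasCompactSupport (ψ j) := fun j => hc.mul_right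
  have hWc : HasCompactSupport W := hχc.mul_right
  have hpd : ∀ i j, ∫ x, (pd (pd W i) j x * pd (ψ j) i x - pd (pd W i) i x * pd (ψ j) j x) = 0 :=
    fun i j => by
    have hg := contDiff_pd_two hW i
    rw [integral_sub (f := fun x => pd (pd W i) j x * pd (ψ j) i x)
        (g := fun x => pd (pd W i) i x * pd (ψ j) j x)
      (((continuous_pd_one hg j).mul (continuous_pd_one (hψ j) i)).integrable_of_hasCompactSupport
        (hasCompactSupport_pd (hψc j) i).mul_left)
      (((continuous_pd_one hg i).mul (continuous_pd_one (hψ j) j)).integrable_of_hasCompactSupport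
        (hasCompactSupport_pd (hψc j) j).mul_left),
      integral_pd_swap hg (hasCompactSupport_pd hWc i) (hψ j) (hψc j) i j, sub_self]
  have hint : ∀ i j, Integrable fun x =>
      pd (pd W i) j x * pd (ψ j) i x - pd (pd W i) i x * pd (ψ j) j x := fun i j =>
    (((continuous_pd_one (contDiff_pd_two hW i) j).mul (continuous_pd_one (hψ j) i)).integrable_of_hasCompactSupport
      (hasCompactSupport_pd (hψc j) i).mul_left).sub
    (((continuous_pd_one (contDiff_pd_two hW i) i).mul (continuous_pd_one (hψ j) j)).integrable_of_hasCompactSupport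
      (hasCompactSupport_pd (hψc j) j).mul_left)
  refine Eq.trans ?_ (show ∫ x, ∑ i, ∑ j,
      (pd (pd W i) j x * pd (ψ j) i x - pd (pd W i) i x * pd (ψ j) j x) = 0 by
    rw [integral_finsetSum _ fun i _ => integrable_finsetSum _ fun j _ => hint i j]
    refine sum_eq_zero fun i _ => ?_
    rw [integral_finsetSum _ fun j _ => hint i j]
    exact sum_eq_zero fun j _ => hpd i j)
  refine integral_congr_ae (.of_forall fun x => sum_congr rfl fun i _ => sum_congr rfl fun j _ => ?_)
  by_cases hx : x ∈ tsupport φ
  · have hev : W =ᶠ[𝓝 x] w := by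
      filter_upwards [hχ1.filter_mono (nhds_le_nhdsSet hx)] with y hy
      simp [W, hy]
    have e : ∀ a b, pd (pd W a) b x = pd (pd w a) b x := fun a b =>
      pd_congr ((hev.eventuallyEq_nhds).mono fun _ hy => pd_congr hy a) b
    have e2 : ∀ a, pd (ψ j) a x = φ x * pd (h j) a x + pd φ a x * h j x := fun a => by
      rw [pd_mul (hφ.differentiable one_ne_zero x)
        (((hh j).differentiableOn one_ne_zero).differentiableAt (hO.mem_nhds (hs hx)))]
      ring
    simp only [e, e2]
  · have z : ∀ a, pd φ a x = 0 := fun a =>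
      image_eq_zero_of_notMem_tsupport fun h => hx (tsupport_pd _ _ h)
    have : ψ j =ᶠ[𝓝 x] fun _ => 0 := by
      filter_upwards [notMem_tsupport_iff_eventuallyEq.1 hx] with y hy
      simp [ψ, hy]
    simp [z, pd_congr this, pd_const, image_eq_zero_of_notMem_tsupport hx]

end

end Vale.Agent.P100
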