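import Mathlib
import Vale.Agent.P100.IBP
import Vale.Agent.P100.Cutoff
import Vale.Agent.P100.Compare

/-!
# P100: the generalised Gidas-Spruck identity, reduced to an inequality between jets

A field is a combination of `A w z (u,v) D²U_w ∇U_z`, `B a b c (u,v) (∇U_a ∇U_b) ∇U_c` and
`C c (u,v) ∇U_c` with `U = (u, v)`. Its divergence along a solution contains no third derivatives.
If it is positive on all jets, with the scaling bound, there is no solution.
-/

namespace Vale.Agent.P100

open MeasureTheory Set Filter Topology Finset Function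
open Vale.Agent.P098.Cone
open scoped ContDiff

noncomputable section

variable {n : ℕ}

/-- The coefficient functions of a field. -/
structure Coef where
  A : Fin 2 → Fin 2 → (Fin 2 → ℝ) → ℝ
  B : Fin 2 → Fin 2 → Fin 2 → (Fin 2 → ℝ) → ℝ
  C : Fin 2 → (Fin 2 → ℝ) → ℝ

/-- The open quadrant. -/
def quad2 : Set (Fin 2 → ℝ) := {y | ∀ c, 0 < y c}

/-- Once continuously differentiable on the quadrant. -/
structure Coef.Smooth (K : Coef) : Prop where
  A : ∀ w z, ContDiffOn ℝ 1 (K.A w z) quad2
  B : ∀ a b c, ContDiffOn ℝ 1 (K.B a b c) quad2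
  C : ∀ c, ContDiffOn ℝ 1 (K.C c) quad2

/-- The right-hand sides of the system. -/
def src (p q : ℝ) (c : Fin 2) (y : Fin 2 → ℝ) : ℝ := ![y 1 ^ p, y 0 ^ q] c

/-- Values, gradients and second derivatives of the two components at a point. -/
structure Jet (n : ℕ) where
  y : Fin 2 → ℝ
  G : Fin 2 → Fin n → ℝ
  H : Fin 2 → Fin n → Fin n → ℝ

/-- A jet of a solution, in the domain of the comparison. -/
structure Jet.Admissible (p q : ℝ) (J : Jet n) : Prop where
  pos : J.y ∈ quad2
  le : J.y 1 ≤ ((p + 1) / (q + 1)) ^ (1 / (p + 1)) * J.y 0 ^ ((q + 1) / (p + 1))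
  symm : ∀ c i j, J.H c i j = J.H c j i
  trace : ∀ c, ∑ i, J.H c i i = -src p q c J.y

/-- The inner product. -/
def inner2 (a b : Fin n → ℝ) : ℝ := ∑ i, a i * b i

/-- The derivative of a coefficient in the direction `i`. -/
def dCoef (F : (Fin 2 → ℝ) → ℝ) (J : Jet n) (i : Fin n) : ℝ := ∑ e, J.G e i * pd F e J.y

/-- The field. -/
def flux (K : Coef) (J : Jet n) (i : Fin n) : ℝ :=
  (∑ w, ∑ z, K.A w z J.y * ∑ j, J.H w i j * J.G z j)
    + (∑ a, ∑ b, ∑ c, K.B a b c J.y * inner2 (J.G a) (J.G b) * J.G c i)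
    + ∑ c, K.C c J.y * J.G c i

/-- Its divergence along a solution. -/
def divergence (p q : ℝ) (K : Coef) (J : Jet n) : ℝ :=
  (∑ w, ∑ z, ((∑ i, ∑ j, J.H w i j * (dCoef (K.A w z) J i * J.G z j + K.A w z J.y * J.H z j i))
      - K.A w z J.y * ∑ j, J.G z j * dCoef (src p q w) J j))
    + (∑ a, ∑ b, ∑ c, ∑ i, (dCoef (K.B a b c) J i * inner2 (J.G a) (J.G b) * J.G c i
        + K.B a b c J.y * (∑ j, (J.G a j * J.H b j i + J.G b j * J.H a j i)) * J.G c i
        + K.B a b c J.y * inner2 (J.G a) (J.G b) * J.H c i i))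
    + ∑ c, ∑ i, (dCoef (K.C c) J i * J.G c i + K.C c J.y * J.H c i i)

/-- The two components. -/
def comps (u v : (Fin n → ℝ) → ℝ) : Fin 2 → (Fin n → ℝ) → ℝ := ![u, v]

/-- The jet of a pair of functions. -/
def jetAt (u v : (Fin n → ℝ) → ℝ) (x : Fin n → ℝ) : Jet n where
  y := fun c => comps u v c x
  G := fun c i => pd (comps u v c) i x
  H := fun c i j => pd (pd (comps u v c) i) j x

variable {p q : ℝ} {u v : (Fin n → ℝ) → ℝ}

theorem Sol.smooth_comps (h : Sol p q u v) (c : Fin 2) :
    ContDiffOn ℝ 2 (comps u v c) {x | x ≠ 0} := by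
  fin_cases c
  · exact h.smooth_u
  · exact h.smooth_v

theorem Sol.pos_comps (h : Sol p q u v) (x : Fin n → ℝ) : (fun c => comps u v c x) ∈ quad2 := by
  intro c
  fin_cases c
  · exact h.pos_u x
  · exact h.pos_v x

theorem Sol.trace_comps (h : Sol p q u v) (c : Fin 2) {x : Fin n → ℝ} (hx : x ≠ 0) :
    ∑ i, pd (pd (comps u v c) i) i x = -src p q c (fun e => comps u v e x) := by
  fin_cases c
  · exact h.eq_u x hx
  · exact h.eq_v x hx

theorem isOpen_quad2 : IsOpen quad2 := by
  simp only [quad2, ofPred_forall]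
  exact isOpen_iInter_of_finite fun c => isOpen_lt continuous_const (continuous_apply c)

theorem contDiffOn_src (p q : ℝ) (c : Fin 2) : ContDiffOn ℝ 1 (src p q c) quad2 := by
  intro y hy
  fin_cases c
  · exact (((contDiff_apply ℝ ℝ (1 : Fin 2)).contDiffAt).rpow_const_of_ne (p := p)
      (hy 1).ne').contDiffWithinAt
  · exact (((contDiff_apply ℝ ℝ (0 : Fin 2)).contDiffAt).rpow_const_of_ne (p := q)
      (hy 0).ne').contDiffWithinAt

theorem contDiffOn_coef (h : Sol p q u v) {F : (Fin 2 → ℝ) → ℝ} (hF : ContDiffOn ℝ 1 F quad2) :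
    ContDiffOn ℝ 1 (fun x => F fun e => comps u v e x) {x | x ≠ 0} :=
  hF.comp (contDiffOn_pi.2 fun c => (h.smooth_comps c).of_le (by norm_num)) fun x _ => h.pos_comps x

theorem pd_coef (h : Sol p q u v) {F : (Fin 2 → ℝ) → ℝ} (hF : ContDiffOn ℝ 1 F quad2)
    {x : Fin n → ℝ} (hx : x ≠ 0) (i : Fin n) :
    pd (fun x => F fun e => comps u v e x) i x = dCoef F (jetAt u v x) i := by
  have hd : ∀ c, DifferentiableAt ℝ (comps u v c) x := fun c =>
    ((h.smooth_comps c).differentiableOn (by norm_num)).differentiableAt (isOpen_ne.mem_nhds hx)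
  have h1 : HasFDerivAt (fun x c => comps u v c x)
      (ContinuousLinearMap.pi fun c => fderiv ℝ (comps u v c) x) x :=
    hasFDerivAt_pi.2 fun c => (hd c).hasFDerivAt
  have h2 : DifferentiableAt ℝ F (fun e => comps u v e x) :=
    (hF.differentiableOn one_ne_zero).differentiableAt (isOpen_quad2.mem_nhds (h.pos_comps x))
  have h3 : HasFDerivAt (fun x => F fun e => comps u v e x)
      ((fderiv ℝ F fun e => comps u v e x).comp
        (ContinuousLinearMap.pi fun c => fderiv ℝ (comps u v c) x)) x :=
    h2.hasFDerivAt.comp x h1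
  rw [pd, h3.fderiv, ContinuousLinearMap.comp_apply, fderiv_eq_sum]
  rfl

theorem continuousOn_dCoef (h : Sol p q u v) {F : (Fin 2 → ℝ) → ℝ} (hF : ContDiffOn ℝ 1 F quad2)
    (i : Fin n) : ContinuousOn (fun x => dCoef F (jetAt u v x) i) {x | x ≠ 0} :=
  (((contDiffOn_coef h hF).continuousOn_fderiv_of_isOpen isOpen_ne le_rfl).clm_apply
    continuousOn_const).congr fun x hx => (pd_coef h hF hx i).symm

theorem hess_symm (h : Sol p q u v) (c : Fin 2) {x : Fin n → ℝ} (hx : x ≠ 0) (i j : Fin n) :
    pd (pd (comps u v c) i) j x = pd (pd (comps u v c) j) i x :=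
  hess_comm ((h.smooth_comps c).contDiffAt (isOpen_ne.mem_nhds hx)) i j

theorem admissible_jetAt (h : Sol p q u v)
    (hle : ∀ x, v x ≤ ((p + 1) / (q + 1)) ^ (1 / (p + 1)) * u x ^ ((q + 1) / (p + 1)))
    {x : Fin n → ℝ} (hx : x ≠ 0) : (jetAt u v x).Admissible p q :=
  ⟨h.pos_comps x, hle x, fun c i j => hess_symm h c hx i j, fun c => h.trace_comps c hx⟩

theorem continuousOn_pd {f : (Fin n → ℝ) → ℝ} {O : Set (Fin n → ℝ)} (hf : ContDiffOn ℝ 1 f O)
    (hO : IsOpen O) (i : Fin n) : ContinuousOn (pd f i) O :=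
  (hf.continuousOn_fderiv_of_isOpen hO le_rfl).clm_apply continuousOn_const

theorem continuousOn_flux (h : Sol p q u v) {K : Coef} (hK : K.Smooth) (i : Fin n) :
    ContinuousOn (fun x => flux K (jetAt u v x) i) {x | x ≠ 0} := by
  have hG : ∀ c j, ContinuousOn (fun x => pd (comps u v c) j x) {x | x ≠ 0} := fun c j =>
    (contDiffOn_pd_two (h.smooth_comps c) isOpen_ne j).continuousOn
  have hH : ∀ c j k, ContinuousOn (fun x => pd (pd (comps u v c) j) k x) {x | x ≠ 0} := fun c j k =>
    continuousOn_pd (contDiffOn_pd_two (h.smooth_comps c) isOpen_ne j) isOpen_ne k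
  unfold flux inner2
  exact ((continuousOn_finsetSum _ fun w _ => continuousOn_finsetSum _ fun z _ =>
      (contDiffOn_coef h (hK.A w z)).continuousOn.mul
        (continuousOn_finsetSum _ fun j _ => (hH w i j).mul (hG z j))).add
    (continuousOn_finsetSum _ fun a _ => continuousOn_finsetSum _ fun b _ =>
      continuousOn_finsetSum _ fun c _ => ((contDiffOn_coef h (hK.B a b c)).continuousOn.mul
        (continuousOn_finsetSum _ fun j _ => (hG a j).mul (hG b j))).mul (hG c i))).add
    (continuousOn_finsetSum _ fun c _ => (contDiffOn_coef h (hK.C c)).continuousOn.mul (hG c i))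

theorem continuousOn_divergence (h : Sol p q u v) {K : Coef} (hK : K.Smooth) :
    ContinuousOn (fun x => divergence p q K (jetAt u v x)) {x | x ≠ 0} := by
  have hG : ∀ c j, ContinuousOn (fun x => pd (comps u v c) j x) {x | x ≠ 0} := fun c j =>
    (contDiffOn_pd_two (h.smooth_comps c) isOpen_ne j).continuousOn
  have hH : ∀ c j k, ContinuousOn (fun x => pd (pd (comps u v c) j) k x) {x | x ≠ 0} := fun c j k =>
    continuousOn_pd (contDiffOn_pd_two (h.smooth_comps c) isOpen_ne j) isOpen_ne k
  unfold divergence inner2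
  exact ((continuousOn_finsetSum _ fun w _ => continuousOn_finsetSum _ fun z _ =>
      (continuousOn_finsetSum _ fun i _ => continuousOn_finsetSum _ fun j _ => (hH w i j).mul
        (((continuousOn_dCoef h (hK.A w z) i).mul (hG z j)).add
          ((contDiffOn_coef h (hK.A w z)).continuousOn.mul (hH z j i)))).sub
      ((contDiffOn_coef h (hK.A w z)).continuousOn.mul (continuousOn_finsetSum _ fun j _ =>
        (hG z j).mul (continuousOn_dCoef h (contDiffOn_src p q w) j)))).add
    (continuousOn_finsetSum _ fun a _ => continuousOn_finsetSum _ fun b _ =>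
      continuousOn_finsetSum _ fun c _ => continuousOn_finsetSum _ fun i _ =>
      ((((continuousOn_dCoef h (hK.B a b c) i).mul
        (continuousOn_finsetSum _ fun j _ => (hG a j).mul (hG b j))).mul (hG c i)).add
      (((contDiffOn_coef h (hK.B a b c)).continuousOn.mul (continuousOn_finsetSum _ fun j _ =>
        ((hG a j).mul (hH b j i)).add ((hG b j).mul (hH a j i)))).mul (hG c i))).add
      (((contDiffOn_coef h (hK.B a b c)).continuousOn.mul
        (continuousOn_finsetSum _ fun j _ => (hG a j).mul (hG b j))).mul (hH c i i)))).add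
    (continuousOn_finsetSum _ fun c _ => continuousOn_finsetSum _ fun i _ =>
      ((continuousOn_dCoef h (hK.C c) i).mul (hG c i)).add
        ((contDiffOn_coef h (hK.C c)).continuousOn.mul (hH c i i)))

/-- The weak form of the identity. -/
theorem Sol.identity (h : Sol p q u v) {K : Coef} (hK : K.Smooth) {φ : (Fin n → ℝ) → ℝ}
    (hφ : ContDiff ℝ 1 φ) (hc : HasCompactSupport φ) (hs : tsupport φ ⊆ {x | x ≠ 0}) :
    ∫ x, (φ x * divergence p q K (jetAt u v x)
      + ∑ i, pd φ i x * flux K (jetAt u v x) i) = 0 := by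
  have hO : IsOpen {x : Fin n → ℝ | x ≠ 0} := isOpen_ne
  set O := {x : Fin n → ℝ | x ≠ 0}
  have hG : ∀ c j, ContDiffOn ℝ 1 (pd (comps u v c) j) O := fun c j =>
    contDiffOn_pd_two (h.smooth_comps c) hO j
  have dG : ∀ c j {x}, x ∈ O → DifferentiableAt ℝ (pd (comps u v c) j) x := fun c j {x} hx =>
    ((hG c j).differentiableOn one_ne_zero).differentiableAt (hO.mem_nhds hx)
  set U : (Fin n → ℝ) → Fin 2 → ℝ := fun x e => comps u v e x
  have dF : ∀ {F}, ContDiffOn ℝ 1 F quad2 → ∀ {x}, x ∈ O → DifferentiableAt ℝ (fun x => F (U x)) x :=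
    fun {F} hF {x} hx => ((contDiffOn_coef h hF).differentiableOn one_ne_zero).differentiableAt
      (hO.mem_nhds hx)
  set hh : Fin 2 → Fin 2 → Fin n → (Fin n → ℝ) → ℝ :=
    fun w z j x => K.A w z (U x) * pd (comps u v z) j x
  have hhs : ∀ w z j, ContDiffOn ℝ 1 (hh w z j) O := fun w z j =>
    (contDiffOn_coef h (hK.A w z)).mul (hG z j)
  -- the three kinds of first-order fluxes
  set YA : Fin 2 → Fin 2 → Fin n → (Fin n → ℝ) → ℝ := fun w z j x => -(src p q w (U x)) * hh w z j x
  set YB : Fin 2 → Fin 2 → Fin 2 → Fin n → (Fin n → ℝ) → ℝ := fun a b c i x =>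
    K.B a b c (U x) * (∑ j, pd (comps u v a) j x * pd (comps u v b) j x) * pd (comps u v c) i x
  set YC : Fin 2 → Fin n → (Fin n → ℝ) → ℝ := fun c i x => K.C c (U x) * pd (comps u v c) i x
  set T : (Fin n → ℝ) → ℝ := fun x => (∑ w, ∑ z, ((∑ i, ∑ j, (pd (pd (comps u v w) i) j x
        * (φ x * pd (hh w z j) i x + pd φ i x * hh w z j x)
      - pd (pd (comps u v w) i) i x * (φ x * pd (hh w z j) j x + pd φ j x * hh w z j x)))
      + ∑ j, (φ x * pd (YA w z j) j x + pd φ j x * YA w z j x)))
    + (∑ a, ∑ b, ∑ c, ∑ i, (φ x * pd (YB a b c i) i x + pd φ i x * YB a b c i x))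
    + ∑ c, ∑ i, (φ x * pd (YC c i) i x + pd φ i x * YC c i x)
  have hYA : ∀ w z j, ContDiffOn ℝ 1 (YA w z j) O := fun w z j =>
    (contDiffOn_coef h (contDiffOn_src p q w)).neg.mul (hhs w z j)
  have hYB : ∀ a b c i, ContDiffOn ℝ 1 (YB a b c i) O := fun a b c i =>
    ((contDiffOn_coef h (hK.B a b c)).mul (ContDiffOn.sum fun j _ => (hG a j).mul (hG b j))).mul (hG c i)
  have hYC : ∀ c i, ContDiffOn ℝ 1 (YC c i) O := fun c i =>
    (contDiffOn_coef h (hK.C c)).mul (hG c i)
  have iY : ∀ {Y : (Fin n → ℝ) → ℝ}, ContDiffOn ℝ 1 Y O → ∀ i,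
      Integrable fun x => φ x * pd Y i x + pd φ i x * Y x := fun {Y} hY i =>
    ((continuous_mul_of_tsupport hφ.continuous hO hs (continuousOn_pd hY hO i)).integrable_of_hasCompactSupport
      hc.mul_right).add ((continuous_mul_of_tsupport (continuous_pd_one hφ i) hO
        ((tsupport_pd _ _).trans hs) hY.continuousOn).integrable_of_hasCompactSupport
      (hasCompactSupport_pd hc i).mul_right)
  have iB : ∀ w z, Integrable fun x => ∑ i, ∑ j, (pd (pd (comps u v w) i) j x
        * (φ x * pd (hh w z j) i x + pd φ i x * hh w z j x)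
      - pd (pd (comps u v w) i) i x * (φ x * pd (hh w z j) j x + pd φ j x * hh w z j x)) := fun w z => by
    refine integrable_finsetSum _ fun i _ => integrable_finsetSum _ fun j _ => ?_
    have piece : ∀ a b, Integrable fun x =>
        pd (pd (comps u v w) i) a x * (φ x * pd (hh w z j) b x + pd φ b x * hh w z j x) := fun a b => by
      have h1 := continuous_mul_of_tsupport hφ.continuous hO hs
        ((continuousOn_pd (hG w i) hO a).mul (continuousOn_pd (hhs w z j) hO b))
      have h2 := continuous_mul_of_tsupport (continuous_pd_one hφ b) hO ((tsupport_pd _ _).trans hs)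
        ((continuousOn_pd (hG w i) hO a).mul (hhs w z j).continuousOn)
      refine ((h1.integrable_of_hasCompactSupport hc.mul_right).add
        (h2.integrable_of_hasCompactSupport (hasCompactSupport_pd hc b).mul_right)).congr
        (.of_forall fun x => ?_)
      simp only [Pi.add_apply, Pi.mul_apply]
      ring
    exact (piece j i).sub (piece i j)
  have hT : ∫ x, T x = 0 := by
    simp only [T]
    have k1 : ∀ w z, ∫ x, ((∑ i, ∑ j, (pd (pd (comps u v w) i) j x
          * (φ x * pd (hh w z j) i x + pd φ i x * hh w z j x)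
        - pd (pd (comps u v w) i) i x * (φ x * pd (hh w z j) j x + pd φ j x * hh w z j x)))
        + ∑ j, (φ x * pd (YA w z j) j x + pd φ j x * YA w z j x)) = 0 := fun w z => by
      rw [integral_add (iB w z) (integrable_finsetSum _ fun j _ => iY (hYA w z j) j),
        integral_finsetSum _ fun j _ => iY (hYA w z j) j,
        integral_bochner hO (h.smooth_comps w) (hhs w z) hφ hc hs, zero_add]
      exact sum_eq_zero fun j _ => integral_pd_cut hO (hYA w z j) hφ hc hs j
    have I1 : ∀ w z, Integrable fun x => (∑ i, ∑ j, (pd (pd (comps u v w) i) j x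
          * (φ x * pd (hh w z j) i x + pd φ i x * hh w z j x)
        - pd (pd (comps u v w) i) i x * (φ x * pd (hh w z j) j x + pd φ j x * hh w z j x)))
        + ∑ j, (φ x * pd (YA w z j) j x + pd φ j x * YA w z j x) := fun w z =>
      (iB w z).add (integrable_finsetSum _ fun j _ => iY (hYA w z j) j)
    have IA := integrable_finsetSum (univ : Finset (Fin 2)) fun w _ =>
      integrable_finsetSum (univ : Finset (Fin 2)) fun z _ => I1 w z
    have IB := integrable_finsetSum (univ : Finset (Fin 2)) fun a _ =>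
      integrable_finsetSum (univ : Finset (Fin 2)) fun b _ =>
      integrable_finsetSum (univ : Finset (Fin 2)) fun c _ =>
      integrable_finsetSum (univ : Finset (Fin n)) fun i _ => iY (hYB a b c i) i
    have IC := integrable_finsetSum (univ : Finset (Fin 2)) fun c _ =>
      integrable_finsetSum (univ : Finset (Fin n)) fun i _ => iY (hYC c i) i
    rw [integral_add (Integrable.fun_add IA IB) IC, integral_add IA IB]
    rw [integral_finsetSum _ fun w _ => integrable_finsetSum _ fun z _ => I1 w z,
      integral_finsetSum _ fun a _ => integrable_finsetSum _ fun b _ => integrable_finsetSum _ fun c _ =>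
        integrable_finsetSum _ fun i _ => iY (hYB a b c i) i,
      integral_finsetSum _ fun c _ => integrable_finsetSum _ fun i _ => iY (hYC c i) i]
    simp only [integral_finsetSum _ fun z _ => I1 _ z, k1, sum_const_zero, zero_add]
    have k2 : ∀ a, ∫ x, (∑ b, ∑ c, ∑ i, (φ x * pd (YB a b c i) i x + pd φ i x * YB a b c i x)) = 0 :=
      fun a => by
      rw [integral_finsetSum _ fun b _ => integrable_finsetSum _ fun c _ =>
        integrable_finsetSum _ fun i _ => iY (hYB a b c i) i]
      refine sum_eq_zero fun b _ => ?_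
      rw [integral_finsetSum _ fun c _ => integrable_finsetSum _ fun i _ => iY (hYB a b c i) i]
      refine sum_eq_zero fun c _ => ?_
      rw [integral_finsetSum _ fun i _ => iY (hYB a b c i) i]
      exact sum_eq_zero fun i _ => integral_pd_cut hO (hYB a b c i) hφ hc hs i
    have k3 : ∀ c, ∫ x, (∑ i, (φ x * pd (YC c i) i x + pd φ i x * YC c i x)) = 0 := fun c => by
      rw [integral_finsetSum _ fun i _ => iY (hYC c i) i]
      exact sum_eq_zero fun i _ => integral_pd_cut hO (hYC c i) hφ hc hs i
    simp only [k2, k3, sum_const_zero, add_zero]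
  refine (integral_congr_ae (.of_forall fun x => ?_)).trans hT
  by_cases hx : x ∈ tsupport φ
  swap
  · have z : ∀ i, pd φ i x = 0 := fun i =>
      image_eq_zero_of_notMem_tsupport fun h => hx (tsupport_pd _ _ h)
    simp [T, z, image_eq_zero_of_notMem_tsupport hx]
  have hx0 : x ∈ O := hs hx
  have eh : ∀ w z j i, pd (hh w z j) i x
      = K.A w z (U x) * pd (pd (comps u v z) j) i x
        + pd (comps u v z) j x * dCoef (K.A w z) (jetAt u v x) i := fun w z j i => by
    rw [pd_mul (dF (hK.A w z) hx0) (dG z j hx0), pd_coef h (hK.A w z) hx0]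
  have eA : ∀ w z j, pd (YA w z j) j x = -(src p q w (U x)) * pd (hh w z j) j x
      - hh w z j x * dCoef (src p q w) (jetAt u v x) j := fun w z j => by
    rw [show YA w z j = fun x => -(src p q w (U x)) * hh w z j x from rfl,
      pd_mul (dF (contDiffOn_src p q w) hx0).fun_neg
        (((hhs w z j).differentiableOn one_ne_zero).differentiableAt (hO.mem_nhds hx0)),
      show pd (fun x => -(src p q w (U x))) j x = -pd (fun x => src p q w (U x)) j x by
        simp [pd, fderiv_fun_neg], pd_coef h (contDiffOn_src p q w) hx0]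
    ring
  have eB : ∀ a b c i, pd (YB a b c i) i x
      = dCoef (K.B a b c) (jetAt u v x) i * (∑ j, pd (comps u v a) j x * pd (comps u v b) j x)
          * pd (comps u v c) i x
        + K.B a b c (U x) * (∑ j, (pd (comps u v a) j x * pd (pd (comps u v b) j) i x
          + pd (comps u v b) j x * pd (pd (comps u v a) j) i x)) * pd (comps u v c) i x
        + K.B a b c (U x) * (∑ j, pd (comps u v a) j x * pd (comps u v b) j x)
          * pd (pd (comps u v c) i) i x := fun a b c i => by
    have ds : DifferentiableAt ℝ (fun x => ∑ j, pd (comps u v a) j x * pd (comps u v b) j x) x :=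
      DifferentiableAt.fun_sum fun j _ => (dG a j hx0).mul (dG b j hx0)
    rw [show YB a b c i = fun x => K.B a b c (U x)
        * (∑ j, pd (comps u v a) j x * pd (comps u v b) j x) * pd (comps u v c) i x from rfl,
      pd_mul ((dF (hK.B a b c) hx0).fun_mul ds) (dG c i hx0), pd_mul (dF (hK.B a b c) hx0) ds,
      pd_sum _ (F := fun j x => pd (comps u v a) j x * pd (comps u v b) j x)
        fun j _ => (dG a j hx0).mul (dG b j hx0), pd_coef h (hK.B a b c) hx0]
    simp only [pd_mul (dG a _ hx0) (dG b _ hx0)]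
    ring
  have eC : ∀ c i, pd (YC c i) i x = dCoef (K.C c) (jetAt u v x) i * pd (comps u v c) i x
      + K.C c (U x) * pd (pd (comps u v c) i) i x := fun c i => by
    rw [show YC c i = fun x => K.C c (U x) * pd (comps u v c) i x from rfl,
      pd_mul (dF (hK.C c) hx0) (dG c i hx0), pd_coef h (hK.C c) hx0]
    ring
  have etr : ∀ w (g : Fin n → ℝ), ∑ i, ∑ j, pd (pd (comps u v w) i) i x * g j
      = -src p q w (U x) * ∑ j, g j := fun w g => by
    rw [← sum_mul_sum, h.trace_comps w hx0]
  set J := jetAt u v x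
  have sA : ∀ w z, (∑ i, ∑ j, (pd (pd (comps u v w) i) j x
        * (φ x * pd (hh w z j) i x + pd φ i x * hh w z j x)
      - pd (pd (comps u v w) i) i x * (φ x * pd (hh w z j) j x + pd φ j x * hh w z j x)))
      + ∑ j, (φ x * pd (YA w z j) j x + pd φ j x * YA w z j x)
      = φ x * ((∑ i, ∑ j, J.H w i j * (dCoef (K.A w z) J i * J.G z j + K.A w z J.y * J.H z j i))
          - K.A w z J.y * ∑ j, J.G z j * dCoef (src p q w) J j)
        + ∑ i, pd φ i x * (K.A w z J.y * ∑ j, J.H w i j * J.G z j) := fun w z => by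
    simp only [sum_sub_distrib]
    rw [etr]
    simp only [mul_sum, mul_sub, ← sum_sub_distrib]
    simp only [← sum_add_distrib, ← sum_sub_distrib]
    refine sum_congr rfl fun i _ => ?_
    simp only [eh, eA, hh, YA]
    simp only [sum_add_distrib, J, jetAt, U, mul_add, mul_sub]
    ring_nf
    simp only [mul_comm, mul_left_comm, mul_assoc]
    ring
  have sB : ∀ a b c i, φ x * pd (YB a b c i) i x + pd φ i x * YB a b c i x
      = φ x * (dCoef (K.B a b c) J i * inner2 (J.G a) (J.G b) * J.G c i
          + K.B a b c J.y * (∑ j, (J.G a j * J.H b j i + J.G b j * J.H a j i)) * J.G c i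
          + K.B a b c J.y * inner2 (J.G a) (J.G b) * J.H c i i)
        + pd φ i x * (K.B a b c J.y * inner2 (J.G a) (J.G b) * J.G c i) := fun a b c i => by
    rw [eB]
    rfl
  have sC : ∀ c i, φ x * pd (YC c i) i x + pd φ i x * YC c i x
      = φ x * (dCoef (K.C c) J i * J.G c i + K.C c J.y * J.H c i i)
        + pd φ i x * (K.C c J.y * J.G c i) := fun c i => by
    rw [eC]
    rfl
  simp only [T]
  simp only [sA, sB, sC]
  simp only [sum_add_distrib]
  simp only [divergence, flux, mul_add, mul_sum, sum_add_distrib]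
  simp only [sum_comm (γ := Fin n) (α := Fin 2)]
  ring

/-- No solution, from an inequality between jets. -/
theorem Sol.false_of_certificate (h : Sol p q u v) (hq : 0 < q) (hqp : q ≤ p)
    (hn : 5 ≤ n) {D : ℝ} (hD : (n : ℝ) < D) {K : Coef} (hK : K.Smooth)
    (hpos : ∀ J : Jet n, J.Admissible p q → 0 < divergence p q K J)
    (hfar : ∃ C, ∀ J : Jet n, J.Admissible p q → ∀ i,
      |flux K J i| ≤ C * divergence p q K J ^ (1 - 1 / D))
    (hnear : ∀ M : ℝ, ∃ C, ∀ J : Jet n, J.Admissible p q → (∀ c, 1 / M ≤ J.y c ∧ J.y c ≤ M) →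
      ∀ i, |flux K J i| ≤ C * divergence p q K J ^ (1 - 1 / (4 : ℝ))) :
    False := by
  have hle := fun x => h.compare (by omega) hq hqp x
  have hadm : ∀ x, x ≠ 0 → (jetAt u v x).Admissible p q := fun x hx => admissible_jetAt h hle hx
  obtain ⟨C, hC⟩ := hfar
  have hcpt : IsCompact (Icc (fun _ : Fin n => -(2 : ℝ)) fun _ => 2) := isCompact_Icc
  have hc' : ∀ c, Continuous (comps u v c) := fun c => by
    fin_cases c
    · exact h.cont_u
    · exact h.cont_v
  obtain ⟨M, hM⟩ : ∃ M : ℝ, ∀ x ∈ Icc (fun _ : Fin n => -(2 : ℝ)) (fun _ => 2), ∀ c,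
      1 / M ≤ comps u v c x ∧ comps u v c x ≤ M := by
    choose B hB using fun c => hcpt.exists_bound_of_continuousOn (hc' c).continuousOn
    choose B' hB' using fun c => hcpt.exists_bound_of_continuousOn
      ((hc' c).inv₀ fun x => (h.pos_comps x c).ne').continuousOn
    set M := 1 + ∑ c, (|B c| + |B' c|)
    refine ⟨M, fun x hx c => ?_⟩
    have hpos' : 0 < comps u v c x := h.pos_comps x c
    have hMb : |B c| + |B' c| ≤ ∑ c, (|B c| + |B' c|) :=
      single_le_sum (f := fun c => |B c| + |B' c|) (fun c _ => by positivity) (Finset.mem_univ c)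
    have h1 : comps u v c x ≤ |B c| := by
      refine ((le_abs_self _).trans ?_).trans (le_abs_self _)
      simpa using hB c x hx
    have h2 : (comps u v c x)⁻¹ ≤ |B' c| := by
      refine ((le_abs_self _).trans ?_).trans (le_abs_self _)
      simpa using hB' c x hx
    have hM0 : 0 < M := by positivity
    refine ⟨?_, by linarith [abs_nonneg (B' c)]⟩
    rw [div_le_iff₀ hM0]
    have := mul_le_mul_of_nonneg_left (show (comps u v c x)⁻¹ ≤ M by linarith [abs_nonneg (B c)]) hpos'.le
    rwa [mul_inv_cancel₀ hpos'.ne'] at this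
  obtain ⟨C', hC'⟩ := hnear M
  refine no_positive_divergence (X := fun i x => flux K (jetAt u v x) i)
    (P := fun x => divergence p q K (jetAt u v x)) hn hD (fun i => continuousOn_flux h hK i)
    (continuousOn_divergence h hK) (fun x hx => hpos _ (hadm x hx))
    (fun φ hφ hc hs => h.identity hK hφ hc hs) ⟨C, fun x hx i => hC _ (hadm x hx) i⟩
    ⟨C', fun x hx hx4 i => hC' _ (hadm x hx) ?_ i⟩
  refine fun c => hM x ?_ c
  have := mem_box (x := x) (a := 0) (R := 2) (by norm_num) (by rw [sub_zero]; linarith)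
  simpa using this

end

end Vale.Agent.P100
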