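import Mathlib
import Vale.Agent.P100.Identity

/-!
# P100: homogeneous coefficients

For homogeneous coefficients the three hypotheses of `Sol.false_of_certificate` follow from one
coercive inequality on the jets with `u = 1`.
-/

namespace Vale.Agent.P100

open MeasureTheory Set Filter Topology Finset Function
open Vale.Agent.P098.Cone
open scoped ContDiff

noncomputable section

variable {n : ℕ} {p q : ℝ}

/-- The two weights. -/
def wt (p q : ℝ) (c : Fin 2) : ℝ := ![2 * (p + 1) / (p * q - 1), 2 * (q + 1) / (p * q - 1)] c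

/-- The scaling of the values. -/
def stretch (p q l : ℝ) (y : Fin 2 → ℝ) : Fin 2 → ℝ := fun c => l ^ wt p q c * y c

/-- Homogeneous of degree `m`. -/
def Hom (p q : ℝ) (F : (Fin 2 → ℝ) → ℝ) (m : ℝ) : Prop :=
  ∀ l, 0 < l → ∀ y ∈ quad2, F (stretch p q l y) = l ^ m * F y

/-- The coefficients of a field whose divergence has degree `D`. -/
structure Coef.Homogeneous (p q D : ℝ) (K : Coef) : Prop where
  A : ∀ w z, Hom p q (K.A w z) (D - 4 - wt p q w - wt p q z)
  B : ∀ a b c, Hom p q (K.B a b c) (D - 4 - wt p q a - wt p q b - wt p q c)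
  C : ∀ c, Hom p q (K.C c) (D - 2 - wt p q c)

/-- The scaling of a jet. -/
def Jet.scale (p q l : ℝ) (J : Jet n) : Jet n where
  y := stretch p q l J.y
  G := fun c i => l ^ (wt p q c + 1) * J.G c i
  H := fun c i j => l ^ (wt p q c + 2) * J.H c i j

theorem stretch_mem {l : ℝ} (hl : 0 < l) {y : Fin 2 → ℝ} (hy : y ∈ quad2) :
    stretch p q l y ∈ quad2 := fun c => mul_pos (Real.rpow_pos_of_pos hl _) (hy c)

theorem pd_hom {F : (Fin 2 → ℝ) → ℝ} {m l : ℝ} (hF : ContDiffOn ℝ 1 F quad2) (h : Hom p q F m)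
    (hl : 0 < l) {y : Fin 2 → ℝ} (hy : y ∈ quad2) (e : Fin 2) :
    pd F e (stretch p q l y) = l ^ (m - wt p q e) * pd F e y := by
  have d1 : ∀ {z}, z ∈ quad2 → DifferentiableAt ℝ F z := fun hz =>
    (hF.differentiableOn one_ne_zero).differentiableAt (isOpen_quad2.mem_nhds hz)
  set L : (Fin 2 → ℝ) →L[ℝ] (Fin 2 → ℝ) :=
    ContinuousLinearMap.pi fun c => (l ^ wt p q c) • ContinuousLinearMap.proj c
  have hL : ∀ z, L z = stretch p q l z := fun z => by
    funext c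
    simp [L, stretch]
  have h1 : HasFDerivAt (fun z => F (L z)) ((fderiv ℝ F (L y)).comp L) y :=
    ((d1 (by rw [hL]; exact stretch_mem hl hy)).hasFDerivAt).comp y L.hasFDerivAt
  have h2 : HasFDerivAt (fun z => F (L z)) (l ^ m • fderiv ℝ F y) y :=
    ((d1 hy).hasFDerivAt.const_mul (l ^ m)).congr_of_eventuallyEq (by
      filter_upwards [isOpen_quad2.mem_nhds hy] with z hz
      rw [hL, h l hl z hz])
  have h3 := congrArg (fun T : (Fin 2 → ℝ) →L[ℝ] ℝ => T (Pi.single e 1)) (h1.unique h2)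
  have hLe : L (Pi.single e 1) = (l ^ wt p q e) • Pi.single e 1 := by
    funext c
    by_cases hc : c = e
    · subst hc; simp [L]
    · simp [L, hc]
  simp only [ContinuousLinearMap.comp_apply, hLe, map_smul, smul_eq_mul,
    ContinuousLinearMap.smul_apply, hL] at h3
  rw [pd, pd, Real.rpow_sub hl, div_mul_eq_mul_div, eq_div_iff (Real.rpow_pos_of_pos hl _).ne']
  linarith

theorem hom_src (hpq : p * q ≠ 1) (c : Fin 2) : Hom p q (src p q c) (wt p q c + 2) := by
  intro l hl y hy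
  have hd : p * q - 1 ≠ 0 := sub_ne_zero.2 hpq
  fin_cases c <;> simp only [src, stretch, Fin.zero_eta, Fin.mk_one, Matrix.cons_val_zero,
    Matrix.cons_val_one] <;>
    rw [Real.mul_rpow (Real.rpow_nonneg hl.le _) (hy _).le, ← Real.rpow_mul hl.le] <;>
    congr 2 <;> simp only [wt, Matrix.cons_val_zero, Matrix.cons_val_one] <;>
    rw [eq_comm, div_add' _ _ _ hd, div_mul_eq_mul_div, div_eq_div_iff hd hd] <;> ring

theorem dCoef_scale {F : (Fin 2 → ℝ) → ℝ} {m l : ℝ} (hF : ContDiffOn ℝ 1 F quad2)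
    (h : Hom p q F m) (hl : 0 < l) {J : Jet n} (hy : J.y ∈ quad2) (i : Fin n) :
    dCoef F (J.scale p q l) i = l ^ (m + 1) * dCoef F J i := by
  simp only [dCoef, Jet.scale, mul_sum]
  refine sum_congr rfl fun e _ => ?_
  rw [pd_hom hF h hl hy]
  simp only [Real.rpow_sub hl, Real.rpow_add hl, Real.rpow_one]
  field_simp [(Real.rpow_pos_of_pos hl (wt p q e)).ne']

theorem inner2_scale {l : ℝ} (hl : 0 < l) (J : Jet n) (a b : Fin 2) :
    inner2 ((J.scale p q l).G a) ((J.scale p q l).G b)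
      = l ^ (wt p q a + wt p q b + 2) * inner2 (J.G a) (J.G b) := by
  simp only [inner2, Jet.scale, mul_sum]
  refine sum_congr rfl fun i _ => ?_
  simp only [Real.rpow_add hl, Real.rpow_one, Real.rpow_ofNat]
  ring

theorem flux_scale {K : Coef} {D l : ℝ} (hK : K.Homogeneous p q D) (hl : 0 < l) {J : Jet n}
    (hy : J.y ∈ quad2) (i : Fin n) :
    flux K (J.scale p q l) i = l ^ (D - 1) * flux K J i := by
  have hne : ∀ x : ℝ, l ^ x ≠ 0 := fun x => (Real.rpow_pos_of_pos hl x).ne'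
  have eH : ∀ w z, (∑ j, (J.scale p q l).H w i j * (J.scale p q l).G z j)
      = l ^ (wt p q w + wt p q z + 3) * ∑ j, J.H w i j * J.G z j := fun w z => by
    rw [mul_sum]
    refine sum_congr rfl fun j _ => ?_
    simp only [Jet.scale, Real.rpow_add hl, Real.rpow_one, Real.rpow_ofNat]
    ring
  simp only [flux, inner2_scale hl, eH]
  simp only [Jet.scale, hK.A _ _ l hl J.y hy, hK.B _ _ _ l hl J.y hy, hK.C _ l hl J.y hy]
  rw [mul_add, mul_add]
  refine congrArg₂ _ (congrArg₂ _ ?_ ?_) ?_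
  · simp only [mul_sum (a := l ^ (D - 1))]
    refine sum_congr rfl fun w _ => sum_congr rfl fun z _ => ?_
    simp only [Real.rpow_sub hl, Real.rpow_add hl, Real.rpow_one, Real.rpow_ofNat]
    field_simp [hne]
  · simp only [mul_sum (a := l ^ (D - 1))]
    refine sum_congr rfl fun a _ => sum_congr rfl fun b _ => sum_congr rfl fun c _ => ?_
    simp only [Real.rpow_sub hl, Real.rpow_add hl, Real.rpow_one, Real.rpow_ofNat]
    field_simp [hne]
  · simp only [mul_sum (a := l ^ (D - 1))]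
    refine sum_congr rfl fun c _ => ?_
    simp only [Real.rpow_sub hl, Real.rpow_add hl, Real.rpow_one, Real.rpow_ofNat]
    field_simp [hne]

theorem divergence_scale {K : Coef} {D l : ℝ} (hKs : K.Smooth) (hK : K.Homogeneous p q D)
    (hpq : p * q ≠ 1) (hl : 0 < l) {J : Jet n} (hy : J.y ∈ quad2) :
    divergence p q K (J.scale p q l) = l ^ D * divergence p q K J := by
  have hne : ∀ x : ℝ, l ^ x ≠ 0 := fun x => (Real.rpow_pos_of_pos hl x).ne'
  have eS : ∀ w z, (∑ j, (J.scale p q l).G z j * dCoef (src p q w) (J.scale p q l) j)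
      = l ^ (wt p q w + wt p q z + 4) * ∑ j, J.G z j * dCoef (src p q w) J j := fun w z => by
    rw [mul_sum]
    refine sum_congr rfl fun j _ => ?_
    rw [dCoef_scale (contDiffOn_src p q _) (hom_src hpq _) hl hy]
    simp only [Jet.scale, Real.rpow_add hl, Real.rpow_one, Real.rpow_ofNat]
    ring
  have eB : ∀ a b i, (∑ j, ((J.scale p q l).G a j * (J.scale p q l).H b j i
        + (J.scale p q l).G b j * (J.scale p q l).H a j i))
      = l ^ (wt p q a + wt p q b + 3) * ∑ j, (J.G a j * J.H b j i + J.G b j * J.H a j i) := fun a b i => by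
    rw [mul_sum]
    refine sum_congr rfl fun j _ => ?_
    simp only [Jet.scale, Real.rpow_add hl, Real.rpow_one, Real.rpow_ofNat]
    ring
  simp only [divergence, eS, eB, inner2_scale hl, dCoef_scale (hKs.A _ _) (hK.A _ _) hl hy,
    dCoef_scale (hKs.B _ _ _) (hK.B _ _ _) hl hy, dCoef_scale (hKs.C _) (hK.C _) hl hy]
  simp only [Jet.scale, hK.A _ _ l hl J.y hy, hK.B _ _ _ l hl J.y hy, hK.C _ l hl J.y hy]
  rw [mul_add, mul_add]
  refine congrArg₂ _ (congrArg₂ _ ?_ ?_) ?_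
  · simp only [mul_sum (a := l ^ D)]
    refine sum_congr rfl fun w _ => sum_congr rfl fun z _ => ?_
    rw [mul_sub]
    refine congrArg₂ _ ?_ ?_
    · simp only [mul_sum (a := l ^ D)]
      refine sum_congr rfl fun i _ => sum_congr rfl fun j _ => ?_
      simp only [Real.rpow_sub hl, Real.rpow_add hl, Real.rpow_one, Real.rpow_ofNat]
      field_simp [hne]
    · simp only [Real.rpow_sub hl, Real.rpow_add hl, Real.rpow_one, Real.rpow_ofNat]
      field_simp [hne]
  · simp only [mul_sum (a := l ^ D)]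
    refine sum_congr rfl fun a _ => sum_congr rfl fun b _ => sum_congr rfl fun c _ =>
      sum_congr rfl fun i _ => ?_
    simp only [Real.rpow_sub hl, Real.rpow_add hl, Real.rpow_one, Real.rpow_ofNat]
    field_simp [hne]
  · simp only [mul_sum (a := l ^ D)]
    refine sum_congr rfl fun c _ => sum_congr rfl fun i _ => ?_
    simp only [Real.rpow_sub hl, Real.rpow_add hl, Real.rpow_one, Real.rpow_ofNat]
    field_simp [hne]

theorem Jet.Admissible.scale {J : Jet n} (hJ : J.Admissible p q) (hp : 0 < p) (hpq : p * q ≠ 1)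
    {l : ℝ} (hl : 0 < l) : (J.scale p q l).Admissible p q where
  pos := stretch_mem hl hJ.pos
  le := by
    have hd : p * q - 1 ≠ 0 := sub_ne_zero.2 hpq
    simp only [Jet.scale, stretch]
    rw [Real.mul_rpow (Real.rpow_nonneg hl.le _) (hJ.pos 0).le, ← Real.rpow_mul hl.le, mul_left_comm,
      show wt p q 0 * ((q + 1) / (p + 1)) = wt p q 1 by
        have : p + 1 ≠ 0 := by linarith
        simp only [wt, Matrix.cons_val_zero, Matrix.cons_val_one]
        field_simp]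
    exact mul_le_mul_of_nonneg_left hJ.le (Real.rpow_nonneg hl.le _)
  symm c i j := by simp only [Jet.scale, hJ.symm c i j]
  trace c := by
    simp only [Jet.scale]
    rw [← mul_sum, hJ.trace c, hom_src hpq c l hl J.y hJ.pos, mul_neg]

/-- The size of a jet with `u = 1`. -/
def Jet.size (J : Jet n) : ℝ :=
  1 + (∑ c, ∑ i, ∑ j, J.H c i j ^ 2) + (∑ c, ∑ i, J.G c i ^ 2) ^ 2

theorem abs_flux_le {K : Coef} {C : ℝ} (J : Jet n) (hA : ∀ w z, |K.A w z J.y| ≤ C)
    (hB : ∀ a b c, |K.B a b c J.y| ≤ C) (hC : ∀ c, |K.C c J.y| ≤ C) (i : Fin n) :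
    |flux K J i| ≤ (12 * n + 2) * C * J.size ^ (3 / 4 : ℝ) := by
  have hC0 : 0 ≤ C := (abs_nonneg _).trans (hC 0)
  have h1 : 1 ≤ J.size := by
    have : 0 ≤ ∑ c, ∑ i, ∑ j, J.H c i j ^ 2 := by positivity
    unfold Jet.size
    nlinarith [sq_nonneg (∑ c, ∑ i, J.G c i ^ 2)]
  set s := J.size ^ (1 / 4 : ℝ) with hs
  have hs1 : 1 ≤ s := Real.one_le_rpow h1 (by norm_num)
  have hs0 : 0 ≤ s := zero_le_one.trans hs1
  have hs4 : s ^ 4 = J.size := by
    rw [hs, ← Real.rpow_natCast, ← Real.rpow_mul (by linarith)]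
    norm_num
  have e3 : J.size ^ (3 / 4 : ℝ) = s ^ 3 := by
    rw [hs, ← Real.rpow_natCast, ← Real.rpow_mul (by linarith)]
    norm_num
  have hG : ∀ c k, |J.G c k| ≤ s := fun c k => by
    have h2 : J.G c k ^ 2 ≤ ∑ c, ∑ i, J.G c i ^ 2 :=
      (single_le_sum (f := fun i => J.G c i ^ 2) (fun i _ => sq_nonneg _) (Finset.mem_univ k)).trans
        (single_le_sum (f := fun c => ∑ i, J.G c i ^ 2) (fun c _ => by positivity) (Finset.mem_univ c))
    have h3 : |J.G c k| ^ 4 ≤ s ^ 4 := by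
      rw [hs4, Jet.size, show (4 : ℕ) = 2 * 2 from rfl, pow_mul, sq_abs]
      have : 0 ≤ ∑ c, ∑ i, ∑ j, J.H c i j ^ 2 := by positivity
      nlinarith [mul_self_le_mul_self (sq_nonneg (J.G c k)) h2]
    exact le_of_pow_le_pow_left₀ (by norm_num) hs0 h3
  have hH : ∀ c k j, |J.H c k j| ≤ s ^ 2 := fun c k j => by
    have h2 : J.H c k j ^ 2 ≤ ∑ c, ∑ i, ∑ j, J.H c i j ^ 2 :=
      ((single_le_sum (f := fun j => J.H c k j ^ 2) (fun i _ => sq_nonneg _) (Finset.mem_univ j)).trans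
        (single_le_sum (f := fun i => ∑ j, J.H c i j ^ 2) (fun c _ => by positivity) (Finset.mem_univ k))).trans
        (single_le_sum (f := fun c => ∑ i, ∑ j, J.H c i j ^ 2) (fun c _ => by positivity)
          (Finset.mem_univ c))
    have h3 : |J.H c k j| ^ 2 ≤ (s ^ 2) ^ 2 := by
      rw [← pow_mul, show 2 * 2 = 4 from rfl, hs4, Jet.size, sq_abs]
      nlinarith [sq_nonneg (∑ c, ∑ i, J.G c i ^ 2)]
    exact le_of_pow_le_pow_left₀ (by norm_num) (by positivity) h3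
  have iG : ∀ a b, |inner2 (J.G a) (J.G b)| ≤ n * s ^ 2 := fun a b => by
    refine (abs_sum_le_sum_abs _ _).trans ((sum_le_card_nsmul _ _ (s ^ 2) fun k _ => ?_).trans_eq
      (by simp))
    rw [abs_mul, sq]
    exact mul_le_mul (hG a k) (hG b k) (abs_nonneg _) hs0
  have tA : ∀ w z, |K.A w z J.y * ∑ j, J.H w i j * J.G z j| ≤ C * (n * s ^ 3) := fun w z => by
    rw [abs_mul]
    refine mul_le_mul (hA w z) ((abs_sum_le_sum_abs _ _).trans
      ((sum_le_card_nsmul _ _ (s ^ 3) fun k _ => ?_).trans_eq (by simp))) (abs_nonneg _) hC0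
    rw [abs_mul, show s ^ 3 = s ^ 2 * s by ring]
    exact mul_le_mul (hH w i k) (hG z k) (abs_nonneg _) (by positivity)
  have tB : ∀ a b c, |K.B a b c J.y * inner2 (J.G a) (J.G b) * J.G c i| ≤ C * (n * s ^ 3) :=
    fun a b c => by
    rw [abs_mul, abs_mul, show C * (n * s ^ 3) = C * (n * s ^ 2) * s by ring]
    exact mul_le_mul (mul_le_mul (hB a b c) (iG a b) (abs_nonneg _) hC0) (hG c i) (abs_nonneg _)
      (by positivity)
  have tC : ∀ c, |K.C c J.y * J.G c i| ≤ C * s ^ 3 := fun c => by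
    rw [abs_mul]
    exact mul_le_mul (hC c) ((hG c i).trans (by nlinarith [mul_le_mul hs1 hs1 zero_le_one hs0]))
      (abs_nonneg _) hC0
  rw [e3, flux]
  simp only [Fin.sum_univ_two]
  refine (abs_le.2 ⟨?_, ?_⟩) <;>
    nlinarith [abs_le.1 (tA 0 0), abs_le.1 (tA 0 1), abs_le.1 (tA 1 0), abs_le.1 (tA 1 1),
      abs_le.1 (tB 0 0 0), abs_le.1 (tB 0 0 1), abs_le.1 (tB 0 1 0), abs_le.1 (tB 0 1 1),
      abs_le.1 (tB 1 0 0), abs_le.1 (tB 1 0 1), abs_le.1 (tB 1 1 0), abs_le.1 (tB 1 1 1),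
      abs_le.1 (tC 0), abs_le.1 (tC 1)]

variable {u v : (Fin n → ℝ) → ℝ}

/-- No solution, from a lower bound of the divergence and a bound of the flux at `u = 1`. -/
theorem Sol.false_of_normal_flux (h : Sol p q u v) (hq : 0 < q) (hqp : q ≤ p) (hpq : 1 < p * q)
    (hn : 5 ≤ n) {D : ℝ} (hD : (n : ℝ) < D) {K : Coef} (hK : K.Smooth)
    (hom : K.Homogeneous p q D)
    (hpos : ∃ ε > 0, ∀ J : Jet n, J.Admissible p q → J.y 0 = 1 → ε ≤ divergence p q K J)
    (hflux : ∃ C, ∀ J : Jet n, J.Admissible p q → J.y 0 = 1 → ∀ i,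
      |flux K J i| ≤ C * divergence p q K J ^ (3 / 4 : ℝ)) :
    False := by
  obtain ⟨ε, hε, hpos⟩ := hpos
  obtain ⟨C1, hflux⟩ := hflux
  have hp : 0 < p := hq.trans_le hqp
  have hα : 0 < wt p q 0 := by
    simp only [wt, Matrix.cons_val_zero]
    exact div_pos (by linarith) (by linarith)
  have hD4 : (4 : ℝ) ≤ D := by
    have : (5 : ℝ) ≤ n := by exact_mod_cast hn
    linarith
  have hD0 : D ≠ 0 := by linarith
  have key : ∀ J : Jet n, J.Admissible p q → ∃ l P : ℝ, 0 < l ∧ l ^ wt p q 0 = J.y 0 ∧ ε ≤ P ∧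
      divergence p q K J = l ^ D * P ∧
      ∀ i, |flux K J i| ≤ l ^ (D - 1) * (C1 * P ^ (3 / 4 : ℝ)) := fun J hJ => by
    set l := J.y 0 ^ (wt p q 0)⁻¹
    have hl : 0 < l := Real.rpow_pos_of_pos (hJ.pos 0) _
    have hl0 : l ^ wt p q 0 = J.y 0 := Real.rpow_inv_rpow (hJ.pos 0).le hα.ne'
    set J1 := J.scale p q l⁻¹
    have hJ1 : J1.Admissible p q := hJ.scale hp hpq.ne' (inv_pos.2 hl)
    have hy1 : J1.y 0 = 1 := by
      change l⁻¹ ^ wt p q 0 * J.y 0 = 1
      rw [Real.inv_rpow hl.le, hl0, inv_mul_cancel₀ (hJ.pos 0).ne']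
    refine ⟨l, divergence p q K J1, hl, hl0, hpos J1 hJ1 hy1, ?_, fun i => ?_⟩
    · rw [divergence_scale hK hom hpq.ne' (inv_pos.2 hl) hJ.pos, ← mul_assoc,
        Real.inv_rpow hl.le, mul_inv_cancel₀ (Real.rpow_pos_of_pos hl _).ne', one_mul]
    · have h1 := hflux J1 hJ1 hy1 i
      have e : flux K J1 i = l⁻¹ ^ (D - 1) * flux K J i := flux_scale hom (inv_pos.2 hl) hJ.pos i
      rw [e, abs_mul, Real.inv_rpow hl.le, abs_inv, abs_of_pos (Real.rpow_pos_of_pos hl _),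
        inv_mul_le_iff₀ (Real.rpow_pos_of_pos hl _)] at h1
      exact h1
  refine h.false_of_certificate hq hqp hn hD hK (fun J hJ => ?_) ?_ fun M => ?_
  · obtain ⟨l, P, hl, -, hP, hdiv, -⟩ := key J hJ
    rw [hdiv]
    exact mul_pos (Real.rpow_pos_of_pos hl _) (hε.trans_le hP)
  · refine ⟨|C1| * ε ^ (3 / 4 - (1 - 1 / D)), fun J hJ i => ?_⟩
    obtain ⟨l, P, hl, -, hP, hdiv, hX⟩ := key J hJ
    have hP0 : 0 < P := hε.trans_le hP
    have e : 3 / 4 - (1 - 1 / D) ≤ 0 := by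
      have : 1 / D ≤ 1 / 4 := one_div_le_one_div_of_le (by norm_num) hD4
      linarith
    have hE : P ^ (3 / 4 : ℝ) ≤ ε ^ (3 / 4 - (1 - 1 / D)) * P ^ (1 - 1 / D) := by
      refine le_trans (le_of_eq ?_) (mul_le_mul_of_nonneg_right
        (Real.rpow_le_rpow_of_nonpos hε hP e) (Real.rpow_nonneg hP0.le _))
      rw [← Real.rpow_add hP0, sub_add_cancel]
    refine (hX i).trans ?_
    rw [hdiv, Real.mul_rpow (Real.rpow_nonneg hl.le _) hP0.le, ← Real.rpow_mul hl.le,
      show D * (1 - 1 / D) = D - 1 by field_simp]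
    calc l ^ (D - 1) * (C1 * P ^ (3 / 4 : ℝ))
        ≤ l ^ (D - 1) * (|C1| * (ε ^ (3 / 4 - (1 - 1 / D)) * P ^ (1 - 1 / D))) := by
          refine mul_le_mul_of_nonneg_left ?_ (Real.rpow_nonneg hl.le _)
          exact mul_le_mul (le_abs_self _) hE (Real.rpow_nonneg hP0.le _) (abs_nonneg _)
      _ = _ := by ring
  · refine ⟨|C1| * (M ^ (wt p q 0)⁻¹) ^ (D / 4 - 1), fun J hJ hM i => ?_⟩
    obtain ⟨l, P, hl, hl0, hP, hdiv, hX⟩ := key J hJ
    have hP0 : 0 ≤ P := (hε.trans_le hP).le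
    have hlM : l ≤ M ^ (wt p q 0)⁻¹ := by
      rw [← Real.rpow_rpow_inv hl.le hα.ne', hl0]
      exact Real.rpow_le_rpow (hJ.pos 0).le (hM 0).2 (inv_pos.2 hα).le
    refine (hX i).trans ?_
    rw [hdiv, show (1 : ℝ) - 1 / 4 = 3 / 4 by norm_num,
      Real.mul_rpow (Real.rpow_nonneg hl.le _) hP0, ← Real.rpow_mul hl.le,
      show D - 1 = D * (3 / 4) + (D / 4 - 1) by ring, Real.rpow_add hl]
    calc l ^ (D * (3 / 4)) * l ^ (D / 4 - 1) * (C1 * P ^ (3 / 4 : ℝ))
        ≤ l ^ (D * (3 / 4)) * (M ^ (wt p q 0)⁻¹) ^ (D / 4 - 1) * (|C1| * P ^ (3 / 4 : ℝ)) := by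
          have hl' : l ^ (D / 4 - 1) ≤ (M ^ (wt p q 0)⁻¹) ^ (D / 4 - 1) :=
            Real.rpow_le_rpow hl.le hlM (by linarith)
          refine (mul_le_mul_of_nonneg_left (mul_le_mul_of_nonneg_right (le_abs_self C1)
            (Real.rpow_nonneg hP0 _)) (by positivity)).trans ?_
          exact mul_le_mul_of_nonneg_right (mul_le_mul_of_nonneg_left hl' (by positivity))
            (by positivity)
      _ = _ := by ring

theorem Jet.one_le_size (J : Jet n) : 1 ≤ J.size := by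
  have : 0 ≤ ∑ c, ∑ i, ∑ j, J.H c i j ^ 2 := by positivity
  unfold Jet.size
  nlinarith [sq_nonneg (∑ c, ∑ i, J.G c i ^ 2)]

/-- No solution, from a coercive inequality on the jets with `u = 1`. -/
theorem Sol.false_of_normal (h : Sol p q u v) (hq : 0 < q) (hqp : q ≤ p) (hpq : 1 < p * q)
    (hn : 5 ≤ n) {D : ℝ} (hD : (n : ℝ) < D) {K : Coef} (hK : K.Smooth)
    (hom : K.Homogeneous p q D)
    (hpos : ∃ ε > 0, ∀ J : Jet n, J.Admissible p q → J.y 0 = 1 →
      ε * J.size ≤ divergence p q K J)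
    (hbd : ∃ C, ∀ y ∈ quad2, y 0 = 1 → y 1 ≤ ((p + 1) / (q + 1)) ^ (1 / (p + 1)) →
      (∀ w z, |K.A w z y| ≤ C) ∧ (∀ a b c, |K.B a b c y| ≤ C) ∧ ∀ c, |K.C c y| ≤ C) :
    False := by
  obtain ⟨ε, hε, hpos⟩ := hpos
  obtain ⟨C, hbd⟩ := hbd
  refine h.false_of_normal_flux hq hqp hpq hn hD hK hom
    ⟨ε, hε, fun J hJ h1 => (le_mul_of_one_le_right hε.le J.one_le_size).trans (hpos J hJ h1)⟩
    ⟨|(12 * n + 2 : ℝ) * C| * ε⁻¹ ^ (3 / 4 : ℝ), fun J hJ h1 i => ?_⟩
  obtain ⟨bA, bB, bC⟩ := hbd _ hJ.pos h1 (by simpa [h1] using hJ.le)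
  have hN0 : 0 ≤ J.size := zero_le_one.trans J.one_le_size
  rw [mul_assoc, ← Real.mul_rpow (inv_pos.2 hε).le ((mul_nonneg hε.le hN0).trans (hpos J hJ h1))]
  exact (abs_flux_le J bA bB bC i).trans (mul_le_mul (le_abs_self _)
    (Real.rpow_le_rpow hN0 (by rw [le_inv_mul_iff₀ hε]; exact hpos J hJ h1) (by norm_num))
    (Real.rpow_nonneg hN0 _) (abs_nonneg _))

end

end Vale.Agent.P100
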