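import Mathlib
import Vale.Agent.P100.Scale

/-!
# P100: the divergence as two quadratic forms

Along traceless Hessians and traceless products of gradients the divergence splits into a form in
five matrix variables and a form in `1, |∇u|², ∇u·∇v, |∇v|²`, with six free parameters moved
between them and one multiple of the Cauchy-Schwarz defect.
-/

namespace Vale.Agent.P100

open Finset Function
open Vale.Agent.P098.Cone

noncomputable section

variable {n : ℕ} {p q : ℝ}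

/-- The numbers that enter the two forms at a point. -/
structure Vals where
  A : Fin 2 → Fin 2 → ℝ
  dA : Fin 2 → Fin 2 → Fin 2 → ℝ
  B : Fin 2 → Fin 2 → Fin 2 → ℝ
  dB : Fin 2 → Fin 2 → Fin 2 → Fin 2 → ℝ
  C : Fin 2 → ℝ
  dC : Fin 2 → Fin 2 → ℝ
  t : Fin 2 → ℝ
  ds : Fin 2 → Fin 2 → ℝ

/-- The values of a field at a point. -/
def Coef.vals (p q : ℝ) (K : Coef) (y : Fin 2 → ℝ) : Vals where
  A w z := K.A w z y
  dA w z e := pd (K.A w z) e y
  B a b c := K.B a b c y
  dB a b c e := pd (K.B a b c) e y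
  C c := K.C c y
  dC c e := pd (K.C c) e y
  t c := -src p q c y
  ds w e := pd (src p q w) e y

/-- The index of a pair. -/
def pr (a b : Fin 2) : Fin 3 := ⟨a.val + b.val, by omega⟩

/-- The pair of an index, first member. -/
def pfst : Fin 3 → Fin 2 := ![0, 0, 1]

/-- The pair of an index, second member. -/
def psnd : Fin 3 → Fin 2 := ![0, 1, 1]

/-- Products of the traceless parts of the three gradient products. -/
def gram (n : ℕ) (Kc : Fin 3 → Fin 3 → ℝ) (s : Fin 3 → ℝ) : ℝ :=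
  ∑ P, ∑ Q, Kc P Q * ((s (pr (pfst P) (pfst Q)) * s (pr (psnd P) (psnd Q))
    + s (pr (pfst P) (psnd Q)) * s (pr (psnd P) (pfst Q))) / 2 - s P * s Q / n)

/-- The form in the matrix variables. -/
def form5 (V : Vals) (Kc : Fin 3 → Fin 3 → ℝ) (h : Fin 2 → ℝ) (e : Fin 3 → ℝ) : ℝ :=
  (∑ w, ∑ z, (V.A w z * h w * h z + ∑ k, V.dA w z k * h w * e (pr k z)))
    + (∑ a, ∑ b, ∑ c, V.B a b c * (h b * e (pr a c) + h a * e (pr b c)))
    + ∑ P, ∑ Q, Kc P Q * e P * e Q

/-- The form in `1, |∇u|², ∇u·∇v, |∇v|²`. -/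
def form4 (n : ℕ) (V : Vals) (Kc : Fin 3 → Fin 3 → ℝ) (γ s₀ : ℝ) (s : Fin 3 → ℝ) : ℝ :=
  s₀ ^ 2 * ((∑ w, ∑ z, V.A w z * V.t w * V.t z / n) + ∑ c, V.C c * V.t c)
    + s₀ * ((∑ w, ∑ z, ((∑ k, V.dA w z k * (V.t w / n) * s (pr k z))
        - V.A w z * ∑ k, V.ds w k * s (pr k z)))
      + (∑ a, ∑ b, ∑ c, V.B a b c
          * (V.t b / n * s (pr a c) + V.t a / n * s (pr b c) + V.t c * s (pr a b)))
      + ∑ c, ∑ k, V.dC c k * s (pr k c))
    + (∑ a, ∑ b, ∑ c, ∑ k, V.dB a b c k * s (pr k c) * s (pr a b))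
    - gram n Kc s - γ * (s 0 * s 2 - s 1 ^ 2)

/-- The traceless part. -/
def dev (M : Fin n → Fin n → ℝ) (i j : Fin n) : ℝ :=
  M i j - if i = j then (∑ k, M k k) / n else 0

theorem sum_dev_mul (hn : n ≠ 0) (M N : Fin n → Fin n → ℝ) :
    ∑ i, ∑ j, dev M i j * dev N i j
      = (∑ i, ∑ j, M i j * N i j) - (∑ k, M k k) * (∑ k, N k k) / n := by
  have hn' : (n : ℝ) ≠ 0 := Nat.cast_ne_zero.2 hn
  have e : ∀ i j, dev M i j * dev N i j = M i j * N i j
      + if i = j then (∑ k, M k k) * (∑ k, N k k) / n ^ 2 - M i i * ((∑ k, N k k) / n)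
        - N i i * ((∑ k, M k k) / n) else 0 := fun i j => by
    by_cases h : i = j
    · subst h; simp only [dev, ↓reduceIte]; ring
    · simp [dev, h]
  simp only [e, sum_add_distrib, sum_ite_eq, Finset.mem_univ, if_true, sum_sub_distrib, ← sum_mul,
    sum_const, card_univ, Fintype.card_fin, nsmul_eq_mul]
  field_simp
  ring

/-- The symmetrised product of two gradients. -/
def sym (a b : Fin n → ℝ) (i j : Fin n) : ℝ := (a i * b j + b i * a j) / 2

theorem inner2_comm (a b : Fin n → ℝ) : inner2 a b = inner2 b a := by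
  simp only [inner2, mul_comm]

theorem trace_sym (a b : Fin n → ℝ) : ∑ k, sym a b k k = inner2 a b :=
  sum_congr rfl fun k _ => by simp only [sym]; ring

theorem sum_sym_mul (a b c d : Fin n → ℝ) :
    ∑ i, ∑ j, sym a b i j * sym c d i j
      = (inner2 a c * inner2 b d + inner2 a d * inner2 b c) / 2 := by
  calc ∑ i, ∑ j, sym a b i j * sym c d i j
      = ∑ i, ∑ j, ((a i * c i) * (b j * d j) / 4 + (a i * d i) * (b j * c j) / 4
          + ((b i * c i) * (a j * d j) / 4 + (b i * d i) * (a j * c j) / 4)) :=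
        sum_congr rfl fun i _ => sum_congr rfl fun j _ => by simp only [sym]; ring
    _ = _ := by
        simp only [sum_add_distrib, ← sum_div, ← mul_sum, ← sum_mul, inner2]
        ring

theorem sum_mul_sym {H : Fin n → Fin n → ℝ} (hH : ∀ i j, H i j = H j i) (a b : Fin n → ℝ) :
    ∑ i, ∑ j, H i j * sym a b i j = ∑ i, ∑ j, H i j * (a i * b j) := by
  have h : (∑ i, ∑ j, H i j * (b i * a j)) = ∑ i, ∑ j, H i j * (a i * b j) := by
    rw [sum_comm]
    exact sum_congr rfl fun i _ => sum_congr rfl fun j _ => by rw [hH j i]; ring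
  calc ∑ i, ∑ j, H i j * sym a b i j
      = ∑ i, ∑ j, (H i j * (a i * b j) / 2 + H i j * (b i * a j) / 2) :=
        sum_congr rfl fun i _ => sum_congr rfl fun j _ => by simp only [sym]; ring
    _ = _ := by simp only [sum_add_distrib, ← sum_div, h, add_halves]

variable (J : Jet n)

/-- The traceless Hessians at an entry. -/
def Jet.devH (i j : Fin n) (c : Fin 2) : ℝ := dev (J.H c) i j

/-- The traceless gradient products at an entry. -/
def Jet.devG (i j : Fin n) (P : Fin 3) : ℝ := dev (sym (J.G (pfst P)) (J.G (psnd P))) i j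

/-- The three gradient scalars. -/
def Jet.dots (P : Fin 3) : ℝ := inner2 (J.G (pfst P)) (J.G (psnd P))

theorem dots_pr (a b : Fin 2) : J.dots (pr a b) = inner2 (J.G a) (J.G b) := by
  fin_cases a <;> fin_cases b
  exacts [rfl, rfl, inner2_comm _ _, rfl]

theorem devG_pr (i j : Fin n) (a b : Fin 2) :
    J.devG i j (pr a b) = dev (sym (J.G a) (J.G b)) i j := by
  fin_cases a <;> fin_cases b
  exacts [rfl, rfl, by simp [Jet.devG, pr, pfst, psnd, dev, sym, add_comm, mul_comm], rfl]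

/-- The Gram identity for the gradient products. -/
theorem sum_devG_mul (hn : n ≠ 0) (Kc : Fin 3 → Fin 3 → ℝ) :
    ∑ i, ∑ j, ∑ P, ∑ Q, Kc P Q * J.devG i j P * J.devG i j Q = gram n Kc J.dots := by
  simp only [gram]
  simp_rw [sum_comm (γ := Fin n) (α := Fin 3)]
  refine sum_congr rfl fun P _ => sum_congr rfl fun Q _ => ?_
  simp only [dots_pr]
  simp only [mul_assoc, ← mul_sum, Jet.devG, sum_dev_mul hn, sum_sym_mul, trace_sym, Jet.dots]

/-- The splitting. -/
theorem divergence_eq {K : Coef} (hn : n ≠ 0) (hJ : J.Admissible p q)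
    (Kc : Fin 3 → Fin 3 → ℝ) (γ : ℝ) :
    divergence p q K J
      = (∑ i, ∑ j, form5 (K.vals p q J.y) Kc (J.devH i j) (J.devG i j))
        + form4 n (K.vals p q J.y) Kc γ 1 J.dots
        + γ * (J.dots 0 * J.dots 2 - J.dots 1 ^ 2) := by
  set V := K.vals p q J.y
  set HH : Fin 2 → Fin 2 → ℝ := fun w z => ∑ i, ∑ j, J.H w i j * J.H z i j
  set HG : Fin 2 → Fin 2 → Fin 2 → ℝ := fun w a b => ∑ i, ∑ j, J.H w i j * (J.G a i * J.G b j)
  have dA : ∀ w z, (∑ i, ∑ j, J.H w i j * (dCoef (K.A w z) J i * J.G z j + K.A w z J.y * J.H z j i))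
      = (∑ k, V.dA w z k * HG w k z) + V.A w z * HH w z := fun w z => by
    simp only [HG, HH, dCoef, V, Coef.vals, mul_add, sum_add_distrib, mul_sum, sum_mul,
      hJ.symm z]
    congr 1
    · simp_rw [sum_comm (γ := Fin n) (α := Fin 2)]
      exact sum_congr rfl fun k _ => sum_congr rfl fun i _ => sum_congr rfl fun j _ => by ring
    · exact sum_congr rfl fun i _ => sum_congr rfl fun j _ => by rw [hJ.symm z i j]; ring
  have dS : ∀ w z, (∑ j, J.G z j * dCoef (src p q w) J j)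
      = ∑ k, V.ds w k * inner2 (J.G k) (J.G z) := fun w z => by
    simp only [dCoef, inner2, V, Coef.vals, mul_sum]
    rw [sum_comm]
    exact sum_congr rfl fun k _ => sum_congr rfl fun i _ => by ring
  have dB : ∀ a b c, (∑ i, (dCoef (K.B a b c) J i * inner2 (J.G a) (J.G b) * J.G c i
        + K.B a b c J.y * (∑ j, (J.G a j * J.H b j i + J.G b j * J.H a j i)) * J.G c i
        + K.B a b c J.y * inner2 (J.G a) (J.G b) * J.H c i i))
      = (∑ k, V.dB a b c k * inner2 (J.G k) (J.G c) * inner2 (J.G a) (J.G b))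
        + V.B a b c * (HG b a c + HG a b c + inner2 (J.G a) (J.G b) * V.t c) := fun a b c => by
    have e1 : ∑ i, dCoef (K.B a b c) J i * inner2 (J.G a) (J.G b) * J.G c i
        = ∑ k, V.dB a b c k * inner2 (J.G k) (J.G c) * inner2 (J.G a) (J.G b) := by
      simp only [dCoef, sum_mul, V, Coef.vals]
      rw [sum_comm]
      refine sum_congr rfl fun k _ => ?_
      rw [show inner2 (J.G k) (J.G c) = ∑ i, J.G k i * J.G c i from rfl, mul_sum, sum_mul]
      exact sum_congr rfl fun i _ => by ring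
    have e2 : ∀ a b, ∑ i, (∑ j, J.G a j * J.H b j i) * J.G c i = HG b a c := fun a b => by
      simp only [HG, sum_mul]
      rw [sum_comm]
      exact sum_congr rfl fun i _ => sum_congr rfl fun j _ => by ring
    simp only [sum_add_distrib, mul_add, add_mul, mul_assoc, ← mul_sum]
    rw [show (∑ i, dCoef (K.B a b c) J i * (inner2 (J.G a) (J.G b) * J.G c i)) = _ from
        (sum_congr rfl fun i _ => (mul_assoc _ _ _).symm).trans e1]
    simp only [e2, hJ.trace c, V, Coef.vals, mul_assoc]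
    ring
  have dC : ∀ c, (∑ i, (dCoef (K.C c) J i * J.G c i + K.C c J.y * J.H c i i))
      = (∑ k, V.dC c k * inner2 (J.G k) (J.G c)) + V.C c * V.t c := fun c => by
    simp only [sum_add_distrib, ← mul_sum, hJ.trace c, dCoef, inner2, sum_mul, V, Coef.vals]
    rw [sum_comm]
    simp only [mul_sum]
    congr 1
    exact sum_congr rfl fun k _ => sum_congr rfl fun i _ => by ring
  have f5 : (∑ i, ∑ j, form5 V Kc (J.devH i j) (J.devG i j))
      = (∑ w, ∑ z, (V.A w z * (HH w z - V.t w * V.t z / n)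
          + ∑ k, V.dA w z k * (HG w k z - V.t w / n * inner2 (J.G k) (J.G z))))
        + (∑ a, ∑ b, ∑ c, V.B a b c * (HG b a c - V.t b / n * inner2 (J.G a) (J.G c)
            + (HG a b c - V.t a / n * inner2 (J.G b) (J.G c))))
        + gram n Kc J.dots := by
    have htr : ∀ c, ∑ k, J.H c k k = V.t c := fun c => hJ.trace c
    have m1 : ∀ w z, ∑ i, ∑ j, J.devH i j w * J.devH i j z = HH w z - V.t w * V.t z / n :=
      fun w z => by simp only [Jet.devH, sum_dev_mul hn, htr]; rfl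
    have m2 : ∀ w a b, ∑ i, ∑ j, J.devH i j w * J.devG i j (pr a b)
        = HG w a b - V.t w / n * inner2 (J.G a) (J.G b) := fun w a b => by
      simp only [Jet.devH, devG_pr, sum_dev_mul hn, htr, trace_sym, sum_mul_sym (hJ.symm w)]
      rw [div_mul_eq_mul_div]
    simp only [form5, sum_add_distrib, sum_devG_mul J hn Kc]
    simp_rw [sum_comm (γ := Fin n) (α := Fin 2)]
    simp only [mul_add, sum_add_distrib, mul_assoc, ← mul_sum, m1, m2]
  rw [f5]
  simp only [divergence, dA, dS, dB, dC, form4, dots_pr, Fin.sum_univ_two]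
  simp only [show ∀ w z, K.A w z J.y = V.A w z from fun _ _ => rfl, inner2_comm (J.G 1) (J.G 0)]
  ring

theorem sum_dev_sq (hn : n ≠ 0) (M : Fin n → Fin n → ℝ) :
    ∑ i, ∑ j, M i j ^ 2 = (∑ i, ∑ j, dev M i j ^ 2) + (∑ k, M k k) ^ 2 / n := by
  simp only [pow_two, sum_dev_mul hn]
  ring

/-- The coercive inequality from two forms with a margin. -/
theorem coercive_of_forms {K : Coef} (hn : n ≠ 0) (hp : 0 < p) {ε : ℝ} (hε : 0 < ε)
    (hforms : ∀ y ∈ quad2, y 0 = 1 → y 1 ≤ ((p + 1) / (q + 1)) ^ (1 / (p + 1)) →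
      ∃ (Kc : Fin 3 → Fin 3 → ℝ) (γ : ℝ), 0 ≤ γ
        ∧ (∀ h e, ε * (h 0 ^ 2 + h 1 ^ 2) ≤ form5 (K.vals p q y) Kc h e)
        ∧ ∀ s₀ s, ε * (s₀ ^ 2 + s 0 ^ 2 + s 2 ^ 2) ≤ form4 n (K.vals p q y) Kc γ s₀ s) :
    ∃ ε > 0, ∀ J : Jet n, J.Admissible p q → J.y 0 = 1 → ε * J.size ≤ divergence p q K J := by
  set R := ((p + 1) / (q + 1)) ^ (1 / (p + 1))
  have hC0 : 0 < 2 + (R ^ p) ^ 2 := by positivity
  refine ⟨ε / (2 + (R ^ p) ^ 2), div_pos hε hC0, fun J hJ hy0 => ?_⟩
  have hR : J.y 1 ≤ R := by simpa [R, hy0] using hJ.le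
  obtain ⟨Kc, γ, hγ, h5, h4⟩ := hforms J.y hJ.pos hy0 hR
  have hcs : 0 ≤ J.dots 0 * J.dots 2 - J.dots 1 ^ 2 := by
    have := sum_mul_sq_le_sq_mul_sq univ (J.G 0) (J.G 1)
    simp only [Jet.dots, pfst, psnd, inner2, Matrix.cons_val_zero, Matrix.cons_val_one,
      Matrix.cons_val, ← pow_two]
    linarith
  have hP := sum_le_sum fun i (_ : i ∈ univ) => sum_le_sum fun j (_ : j ∈ univ) =>
    h5 (J.devH i j) (J.devG i j)
  have hP4 := h4 1 J.dots
  set d := ∑ i, ∑ j, (J.devH i j 0 ^ 2 + J.devH i j 1 ^ 2)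
  have hd : 0 ≤ d := by positivity
  simp only [← mul_sum] at hP
  have hH : (∑ c, ∑ i, ∑ j, J.H c i j ^ 2) ≤ d + 1 + (R ^ p) ^ 2 := by
    have hn1 : (1 : ℝ) ≤ n := by exact_mod_cast Nat.one_le_iff_ne_zero.2 hn
    have ht : ∀ c, (∑ k, J.H c k k) ^ 2 / n ≤ src p q c J.y ^ 2 := fun c => by
      rw [hJ.trace c, neg_sq]
      exact div_le_self (sq_nonneg _) hn1
    have hs0 : src p q 0 J.y ^ 2 ≤ (R ^ p) ^ 2 := by
      simp only [src, Matrix.cons_val_zero]
      have := Real.rpow_le_rpow (hJ.pos 1).le hR hp.le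
      nlinarith [Real.rpow_nonneg (hJ.pos 1).le p]
    have hs1 : src p q 1 J.y ^ 2 = 1 := by simp [src, hy0]
    rw [Fin.sum_univ_two, sum_dev_sq hn (J.H 0), sum_dev_sq hn (J.H 1)]
    simp only [d, Jet.devH, sum_add_distrib]
    linarith [ht 0, ht 1]
  have hG : (∑ c, ∑ i, J.G c i ^ 2) ^ 2 ≤ 2 * (J.dots 0 ^ 2 + J.dots 2 ^ 2) := by
    have e : ∀ c, inner2 (J.G c) (J.G c) = ∑ i, J.G c i ^ 2 := fun c =>
      sum_congr rfl fun i _ => (sq _).symm
    rw [Fin.sum_univ_two, ← e 0, ← e 1, show J.dots 0 = inner2 (J.G 0) (J.G 0) from rfl,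
      show J.dots 2 = inner2 (J.G 1) (J.G 1) from rfl]
    nlinarith [sq_nonneg (inner2 (J.G 0) (J.G 0) - inner2 (J.G 1) (J.G 1))]
  rw [divergence_eq J hn hJ Kc γ, div_mul_eq_mul_div, div_le_iff₀ hC0]
  have hsz : J.size ≤ (2 + (R ^ p) ^ 2) * (d + (1 ^ 2 + J.dots 0 ^ 2 + J.dots 2 ^ 2)) := by
    unfold Jet.size
    nlinarith [sq_nonneg (R ^ p), sq_nonneg (J.dots 0), sq_nonneg (J.dots 2)]
  calc ε * J.size ≤ (2 + (R ^ p) ^ 2) * (ε * d + ε * (1 ^ 2 + J.dots 0 ^ 2 + J.dots 2 ^ 2)) := by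
        nlinarith [mul_le_mul_of_nonneg_left hsz hε.le]
    _ ≤ _ := by
        rw [mul_comm]
        exact mul_le_mul_of_nonneg_right (by nlinarith [mul_nonneg hγ hcs]) hC0.le

end

end Vale.Agent.P100
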