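import Mathlib
import Vale.Agent.P100.Scale

/-!
# P100: homogeneous coefficients from functions of one variable, and a margin for positive forms

A coefficient `u ^ k φ(v / u ^ σ)` is homogeneous; on `u = 1` it is `φ(v)`. A continuous family of
positive quadratic forms over a compact interval is uniformly positive.
-/

namespace Vale.Agent.P100

open MeasureTheory Set Filter Topology Finset Function
open Vale.Agent.P098.Cone
open scoped ContDiff

noncomputable section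

variable {n : ℕ} {p q : ℝ}

/-- `u ^ k f (v / u ^ σ)` of degree `m`. -/
def homFun (p q m : ℝ) (f : ℝ → ℝ) (y : Fin 2 → ℝ) : ℝ :=
  y 0 ^ (m / wt p q 0) * f (y 1 / y 0 ^ ((q + 1) / (p + 1)))

/-- The coefficients given by functions of one variable. -/
def family (p q D : ℝ) (fA : Fin 2 → Fin 2 → ℝ → ℝ) (fB : Fin 2 → Fin 2 → Fin 2 → ℝ → ℝ)
    (fC : Fin 2 → ℝ → ℝ) : Coef where
  A w z := homFun p q (D - 4 - wt p q w - wt p q z) (fA w z)
  B a b c := homFun p q (D - 4 - wt p q a - wt p q b - wt p q c) (fB a b c)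
  C c := homFun p q (D - 2 - wt p q c) (fC c)

theorem homFun_one (m : ℝ) (f : ℝ → ℝ) {y : Fin 2 → ℝ} (hy : y 0 = 1) :
    homFun p q m f y = f (y 1) := by
  simp [homFun, hy]

theorem contDiffOn_homFun_pos (m : ℝ) {f : ℝ → ℝ} (hf : ContDiffOn ℝ 1 f (Set.Ioi 0)) :
    ContDiffOn ℝ 1 (homFun p q m f) quad2 := by
  have hc : ∀ c : Fin 2, ContDiffOn ℝ 1 (fun y : Fin 2 → ℝ => y c) quad2 := fun c =>
    (contDiff_apply ℝ ℝ c).contDiffOn
  exact ((hc 0).rpow_const_of_ne fun y hy => (hy 0).ne').mul (hf.comp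
    ((hc 1).div ((hc 0).rpow_const_of_ne fun y hy => (hy 0).ne')
      fun y hy => (Real.rpow_pos_of_pos (hy 0) _).ne')
    fun y hy => div_pos (hy 1) (Real.rpow_pos_of_pos (hy 0) _))

theorem contDiffOn_homFun (m : ℝ) {f : ℝ → ℝ} (hf : ContDiff ℝ 1 f) :
    ContDiffOn ℝ 1 (homFun p q m f) quad2 :=
  contDiffOn_homFun_pos m hf.contDiffOn

theorem wt_one (hp : 0 < p) : wt p q 1 = wt p q 0 * ((q + 1) / (p + 1)) := by
  have : p + 1 ≠ 0 := by linarith
  simp only [wt, Matrix.cons_val_zero, Matrix.cons_val_one]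
  field_simp

theorem wt_zero_ne (hp : 0 < p) (hpq : p * q ≠ 1) : wt p q 0 ≠ 0 := by
  simp only [wt, Matrix.cons_val_zero]
  exact div_ne_zero (by linarith) (sub_ne_zero.2 hpq)

theorem hom_homFun (hp : 0 < p) (hpq : p * q ≠ 1) (m : ℝ) (f : ℝ → ℝ) :
    Hom p q (homFun p q m f) m := by
  intro l hl y hy
  simp only [homFun, stretch]
  rw [Real.mul_rpow (Real.rpow_nonneg hl.le _) (hy 0).le, ← Real.rpow_mul hl.le,
    mul_div_cancel₀ m (wt_zero_ne hp hpq), Real.mul_rpow (Real.rpow_nonneg hl.le _) (hy 0).le,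
    ← Real.rpow_mul hl.le, ← wt_one hp,
    mul_div_mul_left _ _ (Real.rpow_pos_of_pos hl _).ne', mul_assoc]

theorem family_smooth {D : ℝ} {fA : Fin 2 → Fin 2 → ℝ → ℝ} {fB : Fin 2 → Fin 2 → Fin 2 → ℝ → ℝ}
    {fC : Fin 2 → ℝ → ℝ} (hA : ∀ w z, ContDiff ℝ 1 (fA w z))
    (hB : ∀ a b c, ContDiff ℝ 1 (fB a b c)) (hC : ∀ c, ContDiff ℝ 1 (fC c)) :
    (family p q D fA fB fC).Smooth :=
  ⟨fun w z => contDiffOn_homFun _ (hA w z), fun a b c => contDiffOn_homFun _ (hB a b c),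
    fun c => contDiffOn_homFun _ (hC c)⟩

theorem family_homogeneous (hp : 0 < p) (hpq : p * q ≠ 1) (D : ℝ) (fA : Fin 2 → Fin 2 → ℝ → ℝ)
    (fB : Fin 2 → Fin 2 → Fin 2 → ℝ → ℝ) (fC : Fin 2 → ℝ → ℝ) :
    (family p q D fA fB fC).Homogeneous p q D :=
  ⟨fun _ _ => hom_homFun hp hpq _ _, fun _ _ _ => hom_homFun hp hpq _ _,
    fun _ => hom_homFun hp hpq _ _⟩

/-- The derivatives on `u = 1`. -/
theorem pd_homFun_at (m : ℝ) {f : ℝ → ℝ} {y : Fin 2 → ℝ} (hf : DifferentiableAt ℝ f (y 1))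
    (hy : y ∈ quad2) (h1 : y 0 = 1) :
    pd (homFun p q m f) 0 y
        = m / wt p q 0 * f (y 1) - (q + 1) / (p + 1) * y 1 * deriv f (y 1) ∧
      pd (homFun p q m f) 1 y = deriv f (y 1) := by
  set k := m / wt p q 0
  set s := (q + 1) / (p + 1)
  have d0 : DifferentiableAt ℝ (fun z : Fin 2 → ℝ => z 0) y := differentiableAt_apply 0 y
  have d1 : DifferentiableAt ℝ (fun z : Fin 2 → ℝ => z 1) y := differentiableAt_apply 1 y
  have ek : HasDerivAt (fun t : ℝ => t ^ k) k (y 0) := by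
    simpa [h1] using Real.hasDerivAt_rpow_const (p := k) (Or.inl (hy 0).ne')
  have es : HasDerivAt (fun t : ℝ => t ^ (-s)) (-s) (y 0) := by
    simpa [h1] using Real.hasDerivAt_rpow_const (p := -s) (Or.inl (hy 0).ne')
  have eqv : homFun p q m f
      =ᶠ[𝓝 y] fun z => z 0 ^ k * f (z 1 * z 0 ^ (-s)) := by
    filter_upwards [isOpen_quad2.mem_nhds hy] with z hz
    show z 0 ^ k * f (z 1 / z 0 ^ s) = z 0 ^ k * f (z 1 * z 0 ^ (-s))
    rw [Real.rpow_neg (hz 0).le, ← div_eq_mul_inv]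
  have ds : DifferentiableAt ℝ (fun z : Fin 2 → ℝ => z 0 ^ (-s)) y :=
    d0.rpow_const (Or.inl (hy 0).ne')
  have dr : DifferentiableAt ℝ (fun z : Fin 2 → ℝ => z 1 * z 0 ^ (-s)) y := d1.mul ds
  have ef : HasDerivAt f (deriv f (y 1)) (y 1 * y 0 ^ (-s)) := by
    rw [h1, Real.one_rpow, mul_one]
    exact hf.hasDerivAt
  have e : ∀ i, pd (homFun p q m f) i y = deriv f (y 1) *
      (y 1 * (-s * if i = 0 then 1 else 0) + if i = 1 then 1 else 0)
        + f (y 1) * (k * if i = 0 then 1 else 0) := fun i => by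
    rw [pd_congr eqv, pd_mul (f := fun z : Fin 2 → ℝ => z 0 ^ k) (g := fun z : Fin 2 → ℝ => f (z 1 * z 0 ^ (-s)))
      (d0.rpow_const (Or.inl (hy 0).ne'))
      (ef.differentiableAt.comp y dr), pd_comp ek d0, pd_comp ef dr, pd_mul d1 ds, pd_comp es d0,
      pd_coord, pd_coord]
    simp [h1]
  constructor <;> rw [e] <;> simp <;> ring

theorem pd_homFun (m : ℝ) {f : ℝ → ℝ} (hf : ContDiff ℝ 1 f) {y : Fin 2 → ℝ} (hy : y ∈ quad2)
    (h1 : y 0 = 1) :
    pd (homFun p q m f) 0 y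
        = m / wt p q 0 * f (y 1) - (q + 1) / (p + 1) * y 1 * deriv f (y 1) ∧
      pd (homFun p q m f) 1 y = deriv f (y 1) :=
  pd_homFun_at m (hf.differentiable one_ne_zero _) hy h1

theorem family_smooth_pos {D : ℝ} {fA : Fin 2 → Fin 2 → ℝ → ℝ}
    {fB : Fin 2 → Fin 2 → Fin 2 → ℝ → ℝ} {fC : Fin 2 → ℝ → ℝ}
    (hA : ∀ w z, ContDiffOn ℝ 1 (fA w z) (Set.Ioi 0))
    (hB : ∀ a b c, ContDiffOn ℝ 1 (fB a b c) (Set.Ioi 0))
    (hC : ∀ c, ContDiffOn ℝ 1 (fC c) (Set.Ioi 0)) :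
    (family p q D fA fB fC).Smooth :=
  ⟨fun w z => contDiffOn_homFun_pos _ (hA w z), fun a b c => contDiffOn_homFun_pos _ (hB a b c),
    fun c => contDiffOn_homFun_pos _ (hC c)⟩

theorem family_bound {D : ℝ} {fA : Fin 2 → Fin 2 → ℝ → ℝ} {fB : Fin 2 → Fin 2 → Fin 2 → ℝ → ℝ}
    {fC : Fin 2 → ℝ → ℝ} (hA : ∀ w z, Continuous (fA w z))
    (hB : ∀ a b c, Continuous (fB a b c)) (hC : ∀ c, Continuous (fC c)) (R : ℝ) :
    ∃ C, ∀ y ∈ quad2, y 0 = 1 → y 1 ≤ R →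
      (∀ w z, |(family p q D fA fB fC).A w z y| ≤ C) ∧
      (∀ a b c, |(family p q D fA fB fC).B a b c y| ≤ C) ∧
      ∀ c, |(family p q D fA fB fC).C c y| ≤ C := by
  obtain ⟨C, hC'⟩ := (isCompact_Icc (a := (0 : ℝ)) (b := R)).exists_bound_of_continuousOn
    (f := fun r => (∑ w, ∑ z, |fA w z r|) + (∑ a, ∑ b, ∑ c, |fB a b c r|) + ∑ c, |fC c r|)
    (((continuous_finsetSum _ fun w _ => continuous_finsetSum _ fun z _ => (hA w z).abs).add
      (continuous_finsetSum _ fun a _ => continuous_finsetSum _ fun b _ =>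
        continuous_finsetSum _ fun c _ => (hB a b c).abs)).add
      (continuous_finsetSum _ fun c _ => (hC c).abs)).continuousOn
  refine ⟨C, fun y hy h1 hR => ?_⟩
  have hsum := (le_abs_self _).trans (hC' (y 1) ⟨(hy 1).le, hR⟩)
  have nA : 0 ≤ ∑ w, ∑ z, |fA w z (y 1)| := by positivity
  have nB : 0 ≤ ∑ a, ∑ b, ∑ c, |fB a b c (y 1)| := by positivity
  have nC : 0 ≤ ∑ c, |fC c (y 1)| := by positivity
  refine ⟨fun w z => ?_, fun a b c => ?_, fun c => ?_⟩ <;> simp only [family, homFun_one _ _ h1]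
  · have : |fA w z (y 1)| ≤ ∑ w, ∑ z, |fA w z (y 1)| :=
      (single_le_sum (f := fun z => |fA w z (y 1)|) (fun _ _ => abs_nonneg _) (Finset.mem_univ z)).trans
        (single_le_sum (f := fun w => ∑ z, |fA w z (y 1)|) (fun _ _ => by positivity) (Finset.mem_univ w))
    linarith
  · have : |fB a b c (y 1)| ≤ ∑ a, ∑ b, ∑ c, |fB a b c (y 1)| :=
      ((single_le_sum (f := fun c => |fB a b c (y 1)|) (fun _ _ => abs_nonneg _) (Finset.mem_univ c)).trans
        (single_le_sum (f := fun b => ∑ c, |fB a b c (y 1)|) (fun _ _ => by positivity)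
          (Finset.mem_univ b))).trans
        (single_le_sum (f := fun a => ∑ b, ∑ c, |fB a b c (y 1)|) (fun _ _ => by positivity)
          (Finset.mem_univ a))
    linarith
  · have : |fC c (y 1)| ≤ ∑ c, |fC c (y 1)| :=
      single_le_sum (f := fun c => |fC c (y 1)|) (fun _ _ => abs_nonneg _) (Finset.mem_univ c)
    linarith

/-- A continuous family of positive quadratic forms on a compact interval has a margin. -/
theorem exists_margin {d : ℕ} {R : ℝ} {G : ℝ → (Fin d → ℝ) → ℝ}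
    (hc : ContinuousOn (uncurry G) (Icc 0 R ×ˢ univ))
    (hs : ∀ r ∈ Icc 0 R, ∀ (c : ℝ) (h : Fin d → ℝ), G r (c • h) = c ^ 2 * G r h)
    (hp : ∀ r ∈ Icc 0 R, ∀ h, h ≠ 0 → 0 < G r h) :
    ∃ ε > 0, ∀ r ∈ Icc 0 R, ∀ h, ε * ∑ i, h i ^ 2 ≤ G r h := by
  set S : Set (Fin d → ℝ) := {h | ∑ i, h i ^ 2 = 1}
  have hS : IsCompact S := by
    refine (isCompact_Icc (a := fun _ : Fin d => -(1 : ℝ)) (b := fun _ => 1)).of_isClosed_subset
      (isClosed_eq (by fun_prop) continuous_const) fun h hh => ?_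
    have hb : ∀ i, -1 ≤ h i ∧ h i ≤ 1 := fun i => by
      refine abs_le_of_sq_le_sq' ?_ zero_le_one
      rw [one_pow, ← show ∑ i, h i ^ 2 = 1 from hh]
      exact single_le_sum (f := fun i => h i ^ 2) (fun _ _ => sq_nonneg _) (Finset.mem_univ i)
    exact ⟨fun i => (hb i).1, fun i => (hb i).2⟩
  have hne : ∀ h ∈ S, h ≠ 0 := fun h hh h0 => by
    have : ∑ i, h i ^ 2 = 1 := hh
    simp [h0] at this
  obtain ⟨ε, hε, hmin⟩ : ∃ ε > 0, ∀ z ∈ Icc 0 R ×ˢ S, ε ≤ uncurry G z := by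
    rcases (Icc (0 : ℝ) R ×ˢ S).eq_empty_or_nonempty with h0 | h0
    · exact ⟨1, one_pos, by simp [h0]⟩
    · obtain ⟨z, hz, hmin⟩ := (isCompact_Icc.prod hS).exists_isMinOn h0
        (hc.mono (prod_mono Subset.rfl (subset_univ _)))
      exact ⟨uncurry G z, hp _ hz.1 _ (hne _ hz.2), fun w hw => hmin hw⟩
  refine ⟨ε, hε, fun r hr h => ?_⟩
  by_cases h0 : h = 0
  · have := hs r hr 0 h
    simp [h0] at this
    simp [h0, this]
  obtain ⟨j, hj⟩ := Function.ne_iff.1 h0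
  have hN : 0 < ∑ i, h i ^ 2 := sum_pos' (fun i _ => sq_nonneg _)
    ⟨j, Finset.mem_univ j, pow_two_pos_of_ne_zero hj⟩
  set N := ∑ i, h i ^ 2
  have hmem : (√N)⁻¹ • h ∈ S := by
    show ∑ i, ((√N)⁻¹ • h) i ^ 2 = 1
    simp only [Pi.smul_apply, smul_eq_mul, mul_pow, ← mul_sum, inv_pow, Real.sq_sqrt hN.le]
    exact inv_mul_cancel₀ hN.ne'
  have h1 : ε ≤ G r ((√N)⁻¹ • h) := hmin (r, (√N)⁻¹ • h) ⟨hr, hmem⟩
  rw [hs r hr, inv_pow, Real.sq_sqrt hN.le, le_inv_mul_iff₀ hN, mul_comm] at h1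
  exact h1

end

end Vale.Agent.P100
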