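import Mathlib
import Vale.Agent.P100.Blocks
import Vale.Agent.P100.Family

/-!
# P100: no solution from a certificate in one variable

A certificate consists of a degree `D`, twelve functions of `r = v / u ^ σ`, six parameters moved
between the two forms and one nonnegative multiplier, such that both forms are positive on
`[0, rmax]`.
-/

namespace Vale.Agent.P100

open Set Finset Function
open Vale.Agent.P098.Cone
open scoped ContDiff

noncomputable section

variable {n : ℕ} {p q : ℝ}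

/-- The derivatives on `u = 1` of `u ^ (m / α) f (v / u ^ σ)`. -/
def homD (p q m : ℝ) (f : ℝ → ℝ) (r : ℝ) (e : Fin 2) : ℝ :=
  ![m / wt p q 0 * f r - (q + 1) / (p + 1) * r * deriv f r, deriv f r] e

/-- The numbers of a family at `u = 1`, `v = r`. -/
def famVals (p q D : ℝ) (fA : Fin 2 → Fin 2 → ℝ → ℝ) (fB : Fin 2 → Fin 2 → Fin 2 → ℝ → ℝ)
    (fC : Fin 2 → ℝ → ℝ) (r : ℝ) : Vals where
  A w z := fA w z r
  dA w z := homD p q (D - 4 - wt p q w - wt p q z) (fA w z) r
  B a b c := fB a b c r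
  dB a b c := homD p q (D - 4 - wt p q a - wt p q b - wt p q c) (fB a b c) r
  C c := fC c r
  dC c := homD p q (D - 2 - wt p q c) (fC c) r
  t := ![-(r ^ p), -1]
  ds := ![![0, p * r ^ (p - 1)], ![q, 0]]

theorem pd_hom_eq (m : ℝ) {f : ℝ → ℝ} (hf : ContDiff ℝ 1 f) {y : Fin 2 → ℝ} (hy : y ∈ quad2)
    (h1 : y 0 = 1) (e : Fin 2) : pd (homFun p q m f) e y = homD p q m f (y 1) e := by
  obtain ⟨a, b⟩ := pd_homFun (p := p) (q := q) m hf hy h1
  fin_cases e
  exacts [a, b]

theorem pd_hom_eq_at (m : ℝ) {f : ℝ → ℝ} {y : Fin 2 → ℝ} (hf : DifferentiableAt ℝ f (y 1))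
    (hy : y ∈ quad2) (h1 : y 0 = 1) (e : Fin 2) :
    pd (homFun p q m f) e y = homD p q m f (y 1) e := by
  obtain ⟨a, b⟩ := pd_homFun_at (p := p) (q := q) m hf hy h1
  fin_cases e
  exacts [a, b]

theorem pd_src {y : Fin 2 → ℝ} (hy : y ∈ quad2) (h1 : y 0 = 1) (w e : Fin 2) :
    pd (src p q w) e y = ![![0, p * y 1 ^ (p - 1)], ![q, 0]] w e := by
  have d : ∀ c : Fin 2, DifferentiableAt ℝ (fun z : Fin 2 → ℝ => z c) y := fun c =>
    differentiableAt_apply c y
  have e0 : pd (fun z : Fin 2 → ℝ => z 1 ^ p) e y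
      = p * y 1 ^ (p - 1) * if e = 1 then 1 else 0 := by
    rw [pd_comp (Real.hasDerivAt_rpow_const (p := p) (Or.inl (hy 1).ne')) (d 1), pd_coord]
  have e1 : pd (fun z : Fin 2 → ℝ => z 0 ^ q) e y = q * if e = 0 then 1 else 0 := by
    rw [pd_comp (Real.hasDerivAt_rpow_const (p := q) (Or.inl (hy 0).ne')) (d 0), pd_coord, h1,
      Real.one_rpow, mul_one]
  fin_cases w
  · refine (show pd (src p q 0) e y = pd (fun z : Fin 2 → ℝ => z 1 ^ p) e y from rfl).trans ?_
    rw [e0]
    fin_cases e <;> simp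
  · refine (show pd (src p q 1) e y = pd (fun z : Fin 2 → ℝ => z 0 ^ q) e y from rfl).trans ?_
    rw [e1]
    fin_cases e <;> simp

variable {D : ℝ} {fA : Fin 2 → Fin 2 → ℝ → ℝ} {fB : Fin 2 → Fin 2 → Fin 2 → ℝ → ℝ}
  {fC : Fin 2 → ℝ → ℝ}

theorem vals_family_pos (hA : ∀ w z, ContDiffOn ℝ 1 (fA w z) (Set.Ioi 0))
    (hB : ∀ a b c, ContDiffOn ℝ 1 (fB a b c) (Set.Ioi 0))
    (hC : ∀ c, ContDiffOn ℝ 1 (fC c) (Set.Ioi 0)) {y : Fin 2 → ℝ} (hy : y ∈ quad2) (h1 : y 0 = 1) :
    (family p q D fA fB fC).vals p q y = famVals p q D fA fB fC (y 1) := by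
  have d : ∀ {f : ℝ → ℝ}, ContDiffOn ℝ 1 f (Set.Ioi 0) → DifferentiableAt ℝ f (y 1) := fun hf =>
    (hf.differentiableOn one_ne_zero).differentiableAt (Ioi_mem_nhds (hy 1))
  simp only [Coef.vals, famVals, Vals.mk.injEq, family, homFun_one _ _ h1, true_and]
  refine ⟨?_, ?_, ?_, ?_, ?_⟩
  · funext w z e; exact pd_hom_eq_at _ (d (hA w z)) hy h1 e
  · funext a b c e; exact pd_hom_eq_at _ (d (hB a b c)) hy h1 e
  · funext c e; exact pd_hom_eq_at _ (d (hC c)) hy h1 e
  · funext c; fin_cases c <;> simp [src, h1]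
  · funext w e; exact pd_src hy h1 w e

theorem vals_family (hA : ∀ w z, ContDiff ℝ 1 (fA w z)) (hB : ∀ a b c, ContDiff ℝ 1 (fB a b c))
    (hC : ∀ c, ContDiff ℝ 1 (fC c)) {y : Fin 2 → ℝ} (hy : y ∈ quad2) (h1 : y 0 = 1) :
    (family p q D fA fB fC).vals p q y = famVals p q D fA fB fC (y 1) :=
  vals_family_pos (fun w z => (hA w z).contDiffOn) (fun a b c => (hB a b c).contDiffOn)
    (fun c => (hC c).contDiffOn) hy h1

variable {u v : (Fin n → ℝ) → ℝ}

/-- No solution, from two forms with a margin. -/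
theorem Sol.false_of_margin (h : Sol p q u v) (hn : 5 ≤ n) (hq : 0 < q) (hqp : q ≤ p)
    (hpq : 1 < p * q) (hD : (n : ℝ) < D) (hA : ∀ w z, ContDiff ℝ 1 (fA w z))
    (hB : ∀ a b c, ContDiff ℝ 1 (fB a b c)) (hC : ∀ c, ContDiff ℝ 1 (fC c)) {ε : ℝ} (hε : 0 < ε)
    (hforms : ∀ r, 0 < r → r ≤ ((p + 1) / (q + 1)) ^ (1 / (p + 1)) →
      ∃ (Kc : Fin 3 → Fin 3 → ℝ) (γ : ℝ), 0 ≤ γ
        ∧ (∀ z e, ε * (z 0 ^ 2 + z 1 ^ 2) ≤ form5 (famVals p q D fA fB fC r) Kc z e)
        ∧ ∀ s₀ s, ε * (s₀ ^ 2 + s 0 ^ 2 + s 2 ^ 2)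
            ≤ form4 n (famVals p q D fA fB fC r) Kc γ s₀ s) :
    False := by
  have hp : 0 < p := hq.trans_le hqp
  refine h.false_of_normal hq hqp hpq hn hD (family_smooth hA hB hC)
    (family_homogeneous hp hpq.ne' D fA fB fC) (coercive_of_forms (by omega) hp hε ?_)
    (family_bound (fun w z => (hA w z).continuous) (fun a b c => (hB a b c).continuous)
      (fun c => (hC c).continuous) _)
  intro y hy h1 hR
  rw [vals_family hA hB hC hy h1]
  exact hforms _ (hy 1) hR

theorem continuous_homD (m : ℝ) {f : ℝ → ℝ} (hf : ContDiff ℝ 1 f) (e : Fin 2) :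
    Continuous fun r => homD p q m f r e := by
  have h0 := hf.continuous
  have h1 := hf.continuous_deriv le_rfl
  fin_cases e <;> simp [homD] <;> fun_prop

theorem continuous_forms {X : Type*} [TopologicalSpace X] {A : X → Fin 2 → Fin 2 → ℝ}
    {dA : X → Fin 2 → Fin 2 → Fin 2 → ℝ} {B : X → Fin 2 → Fin 2 → Fin 2 → ℝ}
    {dB : X → Fin 2 → Fin 2 → Fin 2 → Fin 2 → ℝ} {C : X → Fin 2 → ℝ} {dC : X → Fin 2 → Fin 2 → ℝ}
    {t : X → Fin 2 → ℝ} {ds : X → Fin 2 → Fin 2 → ℝ} (hA : Continuous A) (hA' : Continuous dA)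
    (hB : Continuous B) (hB' : Continuous dB) (hC : Continuous C) (hC' : Continuous dC)
    (ht : Continuous t) (hs : Continuous ds) {K : X → Fin 3 → Fin 3 → ℝ} (hK : Continuous K)
    {g : X → ℝ} (hg : Continuous g) :
    (∀ (h : X → Fin 2 → ℝ) (e : X → Fin 3 → ℝ), Continuous h → Continuous e →
      Continuous fun x =>
        form5 ⟨A x, dA x, B x, dB x, C x, dC x, t x, ds x⟩ (K x) (h x) (e x)) ∧
    ∀ (n : ℕ) (a : X → ℝ) (s : X → Fin 3 → ℝ), Continuous a → Continuous s →
      Continuous fun x =>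
        form4 n ⟨A x, dA x, B x, dB x, C x, dC x, t x, ds x⟩ (K x) (g x) (a x) (s x) := by
  constructor
  · intro h e hh he
    simp only [form5]
    fun_prop
  · intro n a s ha hs'
    simp only [form4, gram]
    fun_prop

/-- No solution, from two positive forms on the closed interval. -/
theorem Sol.false_of_blocks (h : Sol p q u v) (hn : 5 ≤ n) (hq : 0 < q) (hqp : q ≤ p)
    (hpq : 1 < p * q) (hD : (n : ℝ) < D) (hA : ∀ w z, ContDiff ℝ 1 (fA w z))
    (hB : ∀ a b c, ContDiff ℝ 1 (fB a b c)) (hC : ∀ c, ContDiff ℝ 1 (fC c))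
    {Kc : ℝ → Fin 3 → Fin 3 → ℝ} {γ : ℝ → ℝ} (hK : ∀ P Q, Continuous fun r => Kc r P Q)
    (hγc : Continuous γ)
    (hγ : ∀ r ∈ Icc 0 (((p + 1) / (q + 1)) ^ (1 / (p + 1))), 0 ≤ γ r)
    (h5 : ∀ r ∈ Icc 0 (((p + 1) / (q + 1)) ^ (1 / (p + 1))), ∀ z e, z ≠ 0 ∨ e ≠ 0 →
      0 < form5 (famVals p q D fA fB fC r) (Kc r) z e)
    (h4 : ∀ r ∈ Icc 0 (((p + 1) / (q + 1)) ^ (1 / (p + 1))), ∀ s₀ s, s₀ ≠ 0 ∨ s ≠ 0 →
      0 < form4 n (famVals p q D fA fB fC r) (Kc r) (γ r) s₀ s) :
    False := by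
  set R := ((p + 1) / (q + 1)) ^ (1 / (p + 1))
  have hp1 : 1 ≤ p := by nlinarith
  have cp : Continuous fun r : ℝ => r ^ p := Real.continuous_rpow_const (by linarith)
  have cp' : Continuous fun r : ℝ => r ^ (p - 1) := Real.continuous_rpow_const (by linarith)
  set V := famVals p q D fA fB fC
  have cA : ∀ w z, Continuous fun r => (V r).A w z := fun w z => (hA w z).continuous
  have cA' : ∀ w z e, Continuous fun r => (V r).dA w z e := fun w z e => continuous_homD _ (hA w z) e
  have cB : ∀ a b c, Continuous fun r => (V r).B a b c := fun a b c => (hB a b c).continuous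
  have cB' : ∀ a b c e, Continuous fun r => (V r).dB a b c e := fun a b c e =>
    continuous_homD _ (hB a b c) e
  have cC : ∀ c, Continuous fun r => (V r).C c := fun c => (hC c).continuous
  have cC' : ∀ c e, Continuous fun r => (V r).dC c e := fun c e => continuous_homD _ (hC c) e
  have ct : ∀ c, Continuous fun r => (V r).t c := fun c => by
    fin_cases c <;> simp [V, famVals] <;> fun_prop
  have cs : ∀ w e, Continuous fun r => (V r).ds w e := fun w e => by
    fin_cases w <;> fin_cases e <;> simp [V, famVals] <;> fun_prop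
  obtain ⟨c5, c4⟩ := continuous_forms (X := ℝ × (Fin 5 → ℝ))
    (A := fun x => (V x.1).A) (dA := fun x => (V x.1).dA) (B := fun x => (V x.1).B)
    (dB := fun x => (V x.1).dB) (C := fun x => (V x.1).C) (dC := fun x => (V x.1).dC)
    (t := fun x => (V x.1).t) (ds := fun x => (V x.1).ds)
    (continuous_pi fun w => continuous_pi fun z => (cA w z).comp continuous_fst)
    (continuous_pi fun w => continuous_pi fun z => continuous_pi fun e =>
      (cA' w z e).comp continuous_fst)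
    (continuous_pi fun a => continuous_pi fun b => continuous_pi fun c =>
      (cB a b c).comp continuous_fst)
    (continuous_pi fun a => continuous_pi fun b => continuous_pi fun c => continuous_pi fun e =>
      (cB' a b c e).comp continuous_fst)
    (continuous_pi fun c => (cC c).comp continuous_fst)
    (continuous_pi fun c => continuous_pi fun e => (cC' c e).comp continuous_fst)
    (continuous_pi fun c => (ct c).comp continuous_fst)
    (continuous_pi fun w => continuous_pi fun e => (cs w e).comp continuous_fst)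
    (K := fun x => Kc x.1) (continuous_pi fun P => continuous_pi fun Q => (hK P Q).comp continuous_fst)
    (g := fun x => γ x.1) (hγc.comp continuous_fst)
  obtain ⟨ε₅, hε₅, m5⟩ := exists_margin (d := 5) (R := R)
    (G := fun r z => form5 (V r) (Kc r) ![z 0, z 1] ![z 2, z 3, z 4])
    (Continuous.continuousOn (c5 (fun x => ![x.2 0, x.2 1]) (fun x => ![x.2 2, x.2 3, x.2 4])
      (by fun_prop) (by fun_prop)))
    (fun r _ c z => by
      simp only [form5, Fin.sum_univ_two, Fin.sum_univ_three, pr, Pi.smul_apply, smul_eq_mul]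
      simp
      ring)
    (fun r hr z hz => h5 r hr _ _ (by
      by_contra hc
      rw [not_or, not_not, not_not] at hc
      refine hz (funext fun i => ?_)
      have a := congrFun hc.1
      have b := congrFun hc.2
      fin_cases i
      exacts [a 0, a 1, b 0, b 1, b 2]))
  obtain ⟨ε₄, hε₄, m4⟩ := exists_margin (d := 4) (R := R)
    (G := fun r z => form4 n (V r) (Kc r) (γ r) (z 0) ![z 1, z 2, z 3])
    (Continuous.continuousOn (by
      have lift : Continuous fun x : ℝ × (Fin 4 → ℝ) => (x.1, (![x.2 0, x.2 1, x.2 2, x.2 3, 0] : Fin 5 → ℝ)) := by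
        fun_prop
      exact (c4 n (fun x => x.2 0) (fun x => ![x.2 1, x.2 2, x.2 3]) (by fun_prop)
        (by fun_prop)).comp lift))
    (fun r _ c z => by
      simp only [form4, gram, Fin.sum_univ_two, Fin.sum_univ_three, pr, pfst, psnd, Pi.smul_apply,
        smul_eq_mul]
      simp
      ring)
    (fun r hr z hz => h4 r hr _ _ (by
      by_contra hc
      rw [not_or, not_not, not_not] at hc
      refine hz (funext fun i => ?_)
      have b := congrFun hc.2
      fin_cases i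
      exacts [hc.1, b 0, b 1, b 2]))
  refine h.false_of_margin hn hq hqp hpq hD hA hB hC (lt_min hε₅ hε₄)
    fun r hr hrR => ⟨Kc r, γ r, hγ r ⟨hr.le, hrR⟩, fun z e => ?_, fun s₀ s => ?_⟩
  · have hm := m5 r ⟨hr.le, hrR⟩ ![z 0, z 1, e 0, e 1, e 2]
    have ez : (![z 0, z 1] : Fin 2 → ℝ) = z := by funext i; fin_cases i <;> rfl
    have ee : (![e 0, e 1, e 2] : Fin 3 → ℝ) = e := by funext i; fin_cases i <;> rfl
    simp [Fin.sum_univ_five] at hm
    rw [ez, ee] at hm
    refine le_trans ?_ hm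
    refine mul_le_mul (min_le_left _ _) ?_ (by positivity) hε₅.le
    linarith [sq_nonneg (e 0), sq_nonneg (e 1), sq_nonneg (e 2)]
  · have hm := m4 r ⟨hr.le, hrR⟩ ![s₀, s 0, s 1, s 2]
    have ee : (![s 0, s 1, s 2] : Fin 3 → ℝ) = s := by funext i; fin_cases i <;> rfl
    simp [Fin.sum_univ_four] at hm
    rw [ee] at hm
    refine le_trans ?_ hm
    refine mul_le_mul (min_le_right _ _) ?_ (by positivity) hε₄.le
    linarith [sq_nonneg (s 1)]

end

end Vale.Agent.P100
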