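import Mathlib
import Vale.Agent.P100.Assembly

/-!
# P100: certificates of five functions

The field `A D²u ∇u + B |∇u|² ∇u + C |∇u|² ∇v + c ∇u + d ∇v` contains no Hessian of `v`. After
completing the square in the Hessian of `u` its divergence is a polynomial in `|∇u|²`, `∇u·∇v`,
`|∇v|²`, and a lower bound of that polynomial excludes solutions.
-/

namespace Vale.Agent.P100

open Set Finset Function
open Vale.Agent.P098.Cone
open scoped ContDiff

noncomputable section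

variable {n : ℕ} {p q D : ℝ}

/-- Five functions of `r`. -/
structure Five where
  A : ℝ → ℝ
  B : ℝ → ℝ
  C : ℝ → ℝ
  c : ℝ → ℝ
  d : ℝ → ℝ

/-- Once continuously differentiable. -/
structure Five.Smooth (F : Five) : Prop where
  A : ContDiff ℝ 1 F.A
  B : ContDiff ℝ 1 F.B
  C : ContDiff ℝ 1 F.C
  c : ContDiff ℝ 1 F.c
  d : ContDiff ℝ 1 F.d

/-- Once continuously differentiable for `r > 0`. -/
structure Five.SmoothPos (F : Five) : Prop where
  A : ContDiffOn ℝ 1 F.A (Set.Ioi 0)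
  B : ContDiffOn ℝ 1 F.B (Set.Ioi 0)
  C : ContDiffOn ℝ 1 F.C (Set.Ioi 0)
  c : ContDiffOn ℝ 1 F.c (Set.Ioi 0)
  d : ContDiffOn ℝ 1 F.d (Set.Ioi 0)

theorem Five.Smooth.pos {F : Five} (h : F.Smooth) : F.SmoothPos :=
  ⟨h.A.contDiffOn, h.B.contDiffOn, h.C.contDiffOn, h.c.contDiffOn, h.d.contDiffOn⟩

/-- The Hessian coefficients. -/
def Five.fA (F : Five) : Fin 2 → Fin 2 → ℝ → ℝ := ![![F.A, fun _ => 0], ![fun _ => 0, fun _ => 0]]

/-- The cubic coefficients. -/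
def Five.fB (F : Five) : Fin 2 → Fin 2 → Fin 2 → ℝ → ℝ :=
  ![![![F.B, F.C], ![fun _ => 0, fun _ => 0]],
    ![![fun _ => 0, fun _ => 0], ![fun _ => 0, fun _ => 0]]]

/-- The linear coefficients. -/
def Five.fC (F : Five) : Fin 2 → ℝ → ℝ := ![F.c, F.d]

/-- The numbers at `r`. -/
def Five.vals (p q D : ℝ) (F : Five) (r : ℝ) : Vals := famVals p q D F.fA F.fB F.fC r

/-- The coefficient of the traceless `∇u ∇u`. -/
def Five.k₁ (p q D : ℝ) (F : Five) (r : ℝ) : ℝ :=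
  homD p q (D - 4 - wt p q 0 - wt p q 0) F.A r 0 + 2 * F.B r

/-- The coefficient of the traceless `∇u ∇v`. -/
def Five.k₂ (p q D : ℝ) (F : Five) (r : ℝ) : ℝ :=
  homD p q (D - 4 - wt p q 0 - wt p q 0) F.A r 1 + 2 * F.C r

/-- Bounded on `(0, rmax]`, with the two combined coefficients. -/
def Five.Bounded (p q D : ℝ) (F : Five) : Prop :=
  ∃ M, ∀ r ∈ Set.Ioc 0 (((p + 1) / (q + 1)) ^ (1 / (p + 1))),
    |F.A r| + |F.B r| + |F.C r| + |F.c r| + |F.d r| + |F.k₁ p q D r| + |F.k₂ p q D r| ≤ M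

theorem Five.Smooth.bounded {F : Five} (h : F.Smooth) (p q D : ℝ) : F.Bounded p q D := by
  obtain ⟨M, hM⟩ := (isCompact_Icc (a := (0 : ℝ))
    (b := ((p + 1) / (q + 1)) ^ (1 / (p + 1)))).exists_bound_of_continuousOn
    (f := fun r => |F.A r| + |F.B r| + |F.C r| + |F.c r| + |F.d r| + |F.k₁ p q D r|
      + |F.k₂ p q D r|) (Continuous.continuousOn (by
      have := h.A.continuous; have := h.B.continuous; have := h.C.continuous
      have := h.c.continuous; have := h.d.continuous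
      have := h.A.continuous_deriv le_rfl
      simp only [Five.k₁, Five.k₂, homD, Matrix.cons_val_zero, Matrix.cons_val_one]
      fun_prop))
  exact ⟨M, fun r hr => (le_abs_self _).trans (hM r ⟨hr.1.le, hr.2⟩)⟩

/-- What is left after completing the square, in `a = |∇u|²`, `b = ∇u·∇v`, `g = |∇v|²`. -/
def Five.rest (n : ℕ) (p q D : ℝ) (F : Five) (r a b g : ℝ) : ℝ :=
  (F.A r * (r ^ p) ^ 2 / n - F.c r * r ^ p - F.d r)
    + (homD p q (D - 4 - wt p q 0 - wt p q 0) F.A r 0 * (-(r ^ p) / n)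
        - F.B r * r ^ p * (1 + 2 / n) - F.C r + homD p q (D - 2 - wt p q 0) F.c r 0) * a
    + (homD p q (D - 4 - wt p q 0 - wt p q 0) F.A r 1 * (-(r ^ p) / n)
        - F.A r * (p * r ^ (p - 1)) - 2 * F.C r * r ^ p / n
        + homD p q (D - 2 - wt p q 0) F.c r 1 + homD p q (D - 2 - wt p q 1) F.d r 0) * b
    + homD p q (D - 2 - wt p q 1) F.d r 1 * g
    + (homD p q (D - 4 - wt p q 0 - wt p q 0 - wt p q 0) F.B r 0
        - (1 - 1 / n) * F.k₁ p q D r ^ 2 / (4 * F.A r)) * a ^ 2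
    + (homD p q (D - 4 - wt p q 0 - wt p q 0 - wt p q 0) F.B r 1
        + homD p q (D - 4 - wt p q 0 - wt p q 0 - wt p q 1) F.C r 0
        - (1 - 1 / n) * (F.k₁ p q D r * F.k₂ p q D r) / (2 * F.A r)) * (a * b)
    - (1 - 1 / n) * F.k₂ p q D r ^ 2 / (4 * F.A r) * b ^ 2
    + homD p q (D - 4 - wt p q 0 - wt p q 0 - wt p q 1) F.C r 1 * (a * g)
    - F.k₂ p q D r ^ 2 / (8 * F.A r) * (a * g - b ^ 2)

/-- The parameters that complete the square. -/
def Five.square (p q D : ℝ) (F : Five) (r : ℝ) : Fin 3 → Fin 3 → ℝ :=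
  ![![F.k₁ p q D r ^ 2 / (4 * F.A r), F.k₁ p q D r * F.k₂ p q D r / (4 * F.A r), 0],
    ![F.k₁ p q D r * F.k₂ p q D r / (4 * F.A r), F.k₂ p q D r ^ 2 / (4 * F.A r), 0], ![0, 0, 0]]

theorem homD_zero (m r : ℝ) (e : Fin 2) : homD p q m (fun _ => 0) r e = 0 := by
  fin_cases e <;> simp [homD]

theorem Five.form5_eq (F : Five) {r : ℝ} (hA : F.A r ≠ 0) (h : Fin 2 → ℝ) (e : Fin 3 → ℝ) :
    form5 (F.vals p q D r) (F.square p q D r) h e
      = F.A r * (h 0 + (F.k₁ p q D r * e 0 + F.k₂ p q D r * e 1) / (2 * F.A r)) ^ 2 := by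
  simp [form5, Five.vals, famVals, Five.square, Five.fA, Five.fB, Fin.sum_univ_two,
    Fin.sum_univ_three, pr, homD_zero, Five.k₁, Five.k₂]
  field_simp
  ring

theorem Five.form4_eq (F : Five) {r : ℝ} (hA : F.A r ≠ 0) (hn : n ≠ 0) (s : Fin 3 → ℝ) :
    form4 n (F.vals p q D r) (F.square p q D r) 0 1 s
      = F.rest n p q D r (s 0) (s 1) (s 2) := by
  have hn' : (n : ℝ) ≠ 0 := Nat.cast_ne_zero.2 hn
  simp [form4, gram, Five.vals, famVals, Five.square, Five.fA, Five.fB, Five.fC, Fin.sum_univ_two,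
    Fin.sum_univ_three, pr, pfst, psnd, homD_zero, Five.rest]
  field_simp
  ring

/-- Bounds on the entries by the three gradient scalars. -/
theorem Jet.entry_bounds (J : Jet n) (hn : n ≠ 0) {s : ℝ} (hs : 1 ≤ s)
    (h1 : J.dots 0 ^ 2 ≤ s ^ 4) (h2 : J.dots 0 * J.dots 2 ≤ s ^ 4) (h3 : J.dots 2 ≤ s ^ 4)
    (i j : Fin n) :
    0 ≤ J.dots 0 ∧ J.dots 0 ≤ s ^ 2 ∧ |J.G 0 j| ≤ s ∧ |J.G 1 j| ≤ s ^ 2
      ∧ J.dots 0 * |J.G 1 j| ≤ s ^ 3 ∧ |J.devG i j 0| ≤ 2 * s ^ 2 ∧ |J.devG i j 1| ≤ 2 * s ^ 2 := by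
  have hs0 : 0 ≤ s := zero_le_one.trans hs
  have ha0 : 0 ≤ J.dots 0 := by
    show 0 ≤ inner2 (J.G 0) (J.G 0)
    exact sum_nonneg fun i _ => mul_self_nonneg (J.G 0 i)
  have hg0 : 0 ≤ J.dots 2 := by
    show 0 ≤ inner2 (J.G 1) (J.G 1)
    exact sum_nonneg fun i _ => mul_self_nonneg (J.G 1 i)
  have ha2 : J.dots 0 ≤ s ^ 2 :=
    le_of_pow_le_pow_left₀ two_ne_zero (by positivity) (h1.trans_eq (by ring))
  have uk : ∀ k, J.G 0 k ^ 2 ≤ J.dots 0 := fun k => by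
    rw [sq]
    exact single_le_sum (f := fun j => J.G 0 j * J.G 0 j) (fun _ _ => mul_self_nonneg _)
      (Finset.mem_univ k)
  have vk : ∀ k, J.G 1 k ^ 2 ≤ J.dots 2 := fun k => by
    rw [sq]
    exact single_le_sum (f := fun j => J.G 1 j * J.G 1 j) (fun _ _ => mul_self_nonneg _)
      (Finset.mem_univ k)
  have sn : (1 : ℝ) ≤ n := by exact_mod_cast Nat.one_le_iff_ne_zero.2 hn
  have hdot : ∀ X Y : Fin n → ℝ, |dev (sym X Y) i j|
      ≤ (|X i * Y j| + |Y i * X j|) / 2 + |inner2 X Y| := fun X Y => by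
    rw [dev, trace_sym]
    refine (abs_sub _ _).trans (add_le_add ?_ ?_)
    · rw [sym, abs_div, abs_two]
      exact div_le_div_of_nonneg_right (abs_add_le _ _) zero_le_two
    · split_ifs
      · rw [abs_div, abs_of_pos (zero_lt_one.trans_le sn)]
        exact div_le_self (abs_nonneg _) sn
      · simp
  have hU : ∀ k, |J.G 0 k| ≤ s := fun k => by
    refine le_of_pow_le_pow_left₀ two_ne_zero hs0 ?_
    rw [sq_abs]
    exact (uk k).trans ha2
  refine ⟨ha0, ha2, hU j, ?_, ?_, ?_, ?_⟩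
  · refine le_of_pow_le_pow_left₀ two_ne_zero (by positivity) ?_
    rw [sq_abs, ← pow_mul]
    exact (vk j).trans h3
  · refine le_of_pow_le_pow_left₀ two_ne_zero (by positivity) ?_
    rw [mul_pow, sq_abs]
    calc J.dots 0 ^ 2 * J.G 1 j ^ 2 ≤ J.dots 0 * (J.dots 0 * J.dots 2) := by
          rw [sq (J.dots 0), mul_assoc]
          exact mul_le_mul_of_nonneg_left (mul_le_mul_of_nonneg_left (vk j) ha0) ha0
      _ ≤ s ^ 2 * s ^ 4 := mul_le_mul ha2 h2 (mul_nonneg ha0 hg0) (by positivity)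
      _ = _ := by ring
  · refine (hdot (J.G 0) (J.G 0)).trans ?_
    have : |J.G 0 i * J.G 0 j| ≤ s ^ 2 := by
      rw [abs_mul, sq]
      exact mul_le_mul (hU i) (hU j) (abs_nonneg _) hs0
    have e : |inner2 (J.G 0) (J.G 0)| = J.dots 0 := abs_of_nonneg ha0
    linarith
  · refine (hdot (J.G 0) (J.G 1)).trans ?_
    have cross : ∀ k m, |J.G 0 k * J.G 1 m| ≤ s ^ 2 := fun k m => by
      refine le_of_pow_le_pow_left₀ two_ne_zero (by positivity) ?_
      rw [sq_abs, mul_pow, ← pow_mul]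
      exact (mul_le_mul (uk k) (vk m) (sq_nonneg _) ha0).trans h2
    have c2 := cross j i
    rw [mul_comm] at c2
    have : |inner2 (J.G 0) (J.G 1)| ≤ s ^ 2 := by
      refine le_of_pow_le_pow_left₀ two_ne_zero (by positivity) ?_
      rw [sq_abs, ← pow_mul]
      refine le_trans ?_ h2
      have := sum_mul_sq_le_sq_mul_sq univ (J.G 0) (J.G 1)
      simp only [sq (J.G 0 _), sq (J.G 1 _)] at this
      exact this
    linarith [cross i j]

/-- A flux without Hessian of `v`, from bounds on the entries. -/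
theorem abs_five_flux {A B C c d a U V M N s σ : ℝ} (hA : |A| ≤ M) (hB : |B| ≤ M) (hC : |C| ≤ M)
    (hc : |c| ≤ M) (hd : |d| ≤ M) (hs : 1 ≤ s) (ha0 : 0 ≤ a) (ha : a ≤ s ^ 2) (hU : |U| ≤ s)
    (hV : |V| ≤ s ^ 2) (haV : a * |V| ≤ s ^ 3) (hσ : |σ| ≤ N) :
    |A * σ + (B * a * U + C * a * V) + (c * U + d * V)| ≤ M * N + 4 * M * s ^ 3 := by
  have hM0 : 0 ≤ M := (abs_nonneg _).trans hA
  have t1 : |A * σ| ≤ M * N := by
    rw [abs_mul]; exact mul_le_mul hA hσ (abs_nonneg _) hM0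
  have t2 : |B * a * U| ≤ M * s ^ 3 := by
    rw [abs_mul, abs_mul, abs_of_nonneg ha0, show M * s ^ 3 = M * s ^ 2 * s by ring]
    exact mul_le_mul (mul_le_mul hB ha ha0 hM0) hU (abs_nonneg _) (by positivity)
  have t3 : |C * a * V| ≤ M * s ^ 3 := by
    rw [abs_mul, abs_mul, abs_of_nonneg ha0, mul_assoc]
    exact mul_le_mul hC haV (by positivity) hM0
  have t4 : |c * U| ≤ M * s ^ 3 := by
    rw [abs_mul]
    exact mul_le_mul hc (hU.trans (le_self_pow₀ hs (by norm_num))) (abs_nonneg _) hM0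
  have t5 : |d * V| ≤ M * s ^ 3 := by
    rw [abs_mul]
    exact mul_le_mul hd (hV.trans (pow_le_pow_right₀ hs (by norm_num))) (abs_nonneg _) hM0
  have := abs_le.1 t1
  have := abs_le.1 t2
  have := abs_le.1 t3
  have := abs_le.1 t4
  have := abs_le.1 t5
  rw [abs_le]
  constructor <;> linarith

/-- An entry of the Hessian, from the completed square and the trace. -/
theorem abs_entry_le {h δ k₁ k₂ e₀ e₁ A ε M s : ℝ} (hε : 0 < ε) (hA : ε ≤ A) (hδ : |δ| ≤ M)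
    (h1 : |k₁| ≤ M) (h2 : |k₂| ≤ M) (he0 : |e₀| ≤ 2 * s ^ 2) (he1 : |e₁| ≤ 2 * s ^ 2) (hs : 1 ≤ s)
    (hsq : (h + (k₁ * e₀ + k₂ * e₁) / (2 * A)) ^ 2 ≤ (s ^ 2) ^ 2) :
    |δ + h| ≤ (M + 2 * (M / ε) + 1) * s ^ 2 := by
  have hM0 : 0 ≤ M := (abs_nonneg _).trans hδ
  have hs2 : 1 ≤ s ^ 2 := one_le_pow₀ hs
  have hy : |(k₁ * e₀ + k₂ * e₁) / (2 * A)| ≤ 2 * (M / ε) * s ^ 2 := by
    rw [abs_div, abs_of_pos (by linarith : 0 < 2 * A), div_le_iff₀ (by linarith)]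
    refine (abs_add_le _ _).trans ?_
    rw [abs_mul, abs_mul]
    refine (add_le_add (mul_le_mul h1 he0 (abs_nonneg _) hM0)
      (mul_le_mul h2 he1 (abs_nonneg _) hM0)).trans ?_
    calc M * (2 * s ^ 2) + M * (2 * s ^ 2) = 4 * (M / ε) * s ^ 2 * ε := by field_simp; ring
      _ ≤ 4 * (M / ε) * s ^ 2 * A := mul_le_mul_of_nonneg_left hA (by positivity)
      _ = _ := by ring
  have := abs_le.1 (abs_le_of_sq_le_sq hsq (by positivity))
  have := abs_le.1 hy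
  have := abs_le.1 hδ
  have := mul_le_mul_of_nonneg_left hs2 hM0
  rw [abs_le]
  constructor <;> linarith

variable {u v : (Fin n → ℝ) → ℝ}

/-- No solution, from five functions that are regular for `r > 0` and bounded up to `rmax`. -/
theorem Sol.false_of_five_pos (h : Sol p q u v) (hn : 5 ≤ n) (hq : 0 < q) (hqp : q ≤ p)
    (hpq : 1 < p * q) (hD : (n : ℝ) < D) {F : Five} (hF : F.SmoothPos)
    (hbd : F.Bounded p q D) {ε : ℝ} (hε : 0 < ε)
    (hA : ∀ r, 0 < r → r ≤ ((p + 1) / (q + 1)) ^ (1 / (p + 1)) → ε ≤ F.A r)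
    (hrest : ∀ r, 0 < r → r ≤ ((p + 1) / (q + 1)) ^ (1 / (p + 1)) → ∀ a b g, 0 ≤ a → 0 ≤ g →
      b ^ 2 ≤ a * g → ε * (1 + a ^ 2 + a * g + g) ≤ F.rest n p q D r a b g) :
    False := by
  have hn0 : n ≠ 0 := by omega
  have hp : 0 < p := hq.trans_le hqp
  have fa : ∀ w z, ContDiffOn ℝ 1 (F.fA w z) (Set.Ioi 0) := fun w z => by
    fin_cases w <;> fin_cases z
    exacts [hF.A, contDiffOn_const, contDiffOn_const, contDiffOn_const]
  have fb : ∀ a b c, ContDiffOn ℝ 1 (F.fB a b c) (Set.Ioi 0) := fun a b c => by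
    fin_cases a <;> fin_cases b <;> fin_cases c
    exacts [hF.B, hF.C, contDiffOn_const, contDiffOn_const, contDiffOn_const, contDiffOn_const,
      contDiffOn_const, contDiffOn_const]
  have fc : ∀ c, ContDiffOn ℝ 1 (F.fC c) (Set.Ioi 0) := fun c => by
    fin_cases c
    exacts [hF.c, hF.d]
  set R := ((p + 1) / (q + 1)) ^ (1 / (p + 1))
  set K := family p q D F.fA F.fB F.fC
  obtain ⟨M, hM⟩ : ∃ M, ∀ r ∈ Ioc 0 R, |F.A r| + |F.B r| + |F.C r| + |F.c r| + |F.d r|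
      + |F.k₁ p q D r| + |F.k₂ p q D r| + |r ^ p| ≤ M := by
    obtain ⟨M₀, hM₀⟩ := hbd
    refine ⟨M₀ + R ^ p, fun r hr => add_le_add (hM₀ r hr) ?_⟩
    rw [abs_of_nonneg (Real.rpow_nonneg hr.1.le p)]
    exact Real.rpow_le_rpow hr.1.le hr.2 hp.le
  have main : ∀ J : Jet n, J.Admissible p q → J.y 0 = 1 → ∃ r ∈ Ioc 0 R, r = J.y 1 ∧
      (∑ i, ∑ j, ε * (J.devH i j 0 + (F.k₁ p q D r * J.devG i j 0 + F.k₂ p q D r * J.devG i j 1)
          / (2 * F.A r)) ^ 2)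
        + ε * (1 + J.dots 0 ^ 2 + J.dots 0 * J.dots 2 + J.dots 2)
      ≤ divergence p q K J := fun J hJ h1 => by
    have hr : 0 < J.y 1 := hJ.pos 1
    have hR : J.y 1 ≤ R := by simpa [R, h1] using hJ.le
    refine ⟨J.y 1, ⟨hr, hR⟩, rfl, ?_⟩
    have hA' := hA _ hr hR
    have hne : F.A (J.y 1) ≠ 0 := (hε.trans_le hA').ne'
    rw [divergence_eq J hn0 hJ (F.square p q D (J.y 1)) 0, vals_family_pos fa fb fc hJ.pos h1]
    have e5 := fun i j => F.form5_eq (p := p) (q := q) (D := D) hne (J.devH i j) (J.devG i j)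
    have e4 := F.form4_eq (n := n) (p := p) (q := q) (D := D) hne hn0 J.dots
    simp only [Five.vals] at e5 e4
    simp only [e5, e4, zero_mul, add_zero]
    refine add_le_add (sum_le_sum fun i _ => sum_le_sum fun j _ =>
      mul_le_mul_of_nonneg_right hA' (sq_nonneg _)) (hrest _ hr hR _ _ _ ?_ ?_ ?_)
    · show 0 ≤ inner2 (J.G 0) (J.G 0)
      exact sum_nonneg fun i _ => mul_self_nonneg (J.G 0 i)
    · show 0 ≤ inner2 (J.G 1) (J.G 1)
      exact sum_nonneg fun i _ => mul_self_nonneg (J.G 1 i)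
    · have := sum_mul_sq_le_sq_mul_sq univ (J.G 0) (J.G 1)
      simp only [Jet.dots, pfst, psnd, inner2, Matrix.cons_val_zero, Matrix.cons_val_one,
        Matrix.cons_val, ← pow_two]
      exact this
  have dpos : ∀ J : Jet n, ∀ P, 0 ≤ inner2 (J.G P) (J.G P) := fun J P =>
    sum_nonneg fun i _ => mul_self_nonneg _
  refine h.false_of_normal_flux hq hqp hpq hn hD (family_smooth_pos fa fb fc)
    (family_homogeneous hp hpq.ne' D _ _ _) ⟨ε, hε, fun J hJ h1 => ?_⟩ ?_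
  · obtain ⟨r, -, -, hm⟩ := main J hJ h1
    refine le_trans ?_ hm
    have hs : 0 ≤ ∑ i, ∑ j, ε * (J.devH i j 0 + (F.k₁ p q D r * J.devG i j 0
        + F.k₂ p q D r * J.devG i j 1) / (2 * F.A r)) ^ 2 := by positivity
    have a0 : 0 ≤ J.dots 0 := dpos J 0
    have g0 : 0 ≤ J.dots 2 := dpos J 1
    nlinarith [mul_nonneg hε.le (mul_nonneg a0 g0), mul_nonneg hε.le g0,
      mul_nonneg hε.le (sq_nonneg (J.dots 0))]
  -- the flux
  set N := M + 2 * (M / ε) + 1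
  refine ⟨(n * M * N + 4 * M) * ε⁻¹ ^ (3 / 4 : ℝ), fun J hJ h1 i => ?_⟩
  obtain ⟨r, hr, hrJ, hm⟩ := main J hJ h1
  have hMr := hM r hr
  have nn := fun f : ℝ => abs_nonneg f
  set P := divergence p q K J
  set Q := ε⁻¹ * P
  set S := ∑ i, ∑ j, ε * (J.devH i j 0 + (F.k₁ p q D r * J.devG i j 0
      + F.k₂ p q D r * J.devG i j 1) / (2 * F.A r)) ^ 2
  have hS : 0 ≤ S := by positivity
  have ha : 0 ≤ J.dots 0 := dpos J 0
  have hg : 0 ≤ J.dots 2 := dpos J 1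
  have hag := mul_nonneg ha hg
  have hQ : 1 + J.dots 0 ^ 2 + J.dots 0 * J.dots 2 + J.dots 2 ≤ Q := by
    rw [le_inv_mul_iff₀ hε]
    linarith
  have ha2 := sq_nonneg (J.dots 0)
  have hQ1 : 1 ≤ Q := by linarith
  set s := Q ^ (1 / 4 : ℝ)
  have hs1 : 1 ≤ s := Real.one_le_rpow hQ1 (by norm_num)
  have hs4 : s ^ 4 = Q := by
    rw [← Real.rpow_natCast, ← Real.rpow_mul (by linarith)]
    norm_num
  have hsx := mul_nonneg hε.le
    (by linarith : 0 ≤ 1 + J.dots 0 ^ 2 + J.dots 0 * J.dots 2 + J.dots 2)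
  have hs3 : s ^ 3 = ε⁻¹ ^ (3 / 4 : ℝ) * P ^ (3 / 4 : ℝ) := by
    rw [← Real.mul_rpow (inv_pos.2 hε).le (by linarith), ← Real.rpow_natCast,
      ← Real.rpow_mul (by linarith)]
    norm_num [Q]
  have eb := J.entry_bounds hn0 hs1 (by linarith) (by linarith) (by linarith)
  have hH : ∀ j, |J.H 0 i j| ≤ N * s ^ 2 := fun j => by
    obtain ⟨-, -, -, -, -, e0, e1⟩ := eb i j
    have ht : |J.H 0 i j - J.devH i j 0| ≤ M := by
      simp only [Jet.devH, dev, sub_sub_cancel]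
      split_ifs
      · rw [hJ.trace 0, abs_div, abs_neg, Nat.abs_cast]
        refine (div_le_self (abs_nonneg _) (by exact_mod_cast Nat.one_le_iff_ne_zero.2 hn0)).trans ?_
        rw [show src p q 0 J.y = r ^ p by rw [hrJ]; rfl]
        linarith [nn (F.A r), nn (F.B r), nn (F.C r), nn (F.c r), nn (F.d r), nn (F.k₁ p q D r), nn (F.k₂ p q D r)]
      · rw [abs_zero]
        exact le_trans (by positivity) hMr
    rw [show J.H 0 i j = (J.H 0 i j - J.devH i j 0) + J.devH i j 0 by ring]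
    refine abs_entry_le (k₁ := F.k₁ p q D r) (k₂ := F.k₂ p q D r) hε (hA r hr.1 hr.2) ht ?_ ?_ e0 e1 hs1 ?_
    · linarith [nn (F.A r), nn (F.B r), nn (F.C r), nn (F.c r), nn (F.d r), nn (F.k₂ p q D r), nn (r ^ p)]
    · linarith [nn (F.A r), nn (F.B r), nn (F.C r), nn (F.c r), nn (F.d r), nn (F.k₁ p q D r), nn (r ^ p)]
    · rw [show (s ^ 2) ^ 2 = s ^ 4 by ring, hs4, le_inv_mul_iff₀ hε]
      refine le_trans ?_ (le_trans (le_add_of_nonneg_right hsx) hm)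
      exact (single_le_sum (f := fun j => ε * (J.devH i j 0 + (F.k₁ p q D r * J.devG i j 0
          + F.k₂ p q D r * J.devG i j 1) / (2 * F.A r)) ^ 2) (fun _ _ => by positivity)
          (Finset.mem_univ j)).trans
        (single_le_sum (f := fun i => ∑ j, ε * (J.devH i j 0 + (F.k₁ p q D r * J.devG i j 0
          + F.k₂ p q D r * J.devG i j 1) / (2 * F.A r)) ^ 2) (fun _ _ => by positivity)
          (Finset.mem_univ i))
  have hflux : flux K J i = F.A r * (∑ j, J.H 0 i j * J.G 0 j)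
      + (F.B r * J.dots 0 * J.G 0 i + F.C r * J.dots 0 * J.G 1 i)
      + (F.c r * J.G 0 i + F.d r * J.G 1 i) := by
    simp [flux, K, family, homFun_one _ _ h1, Five.fA, Five.fB, Five.fC, Fin.sum_univ_two, ← hrJ,
      Jet.dots, pfst, psnd]
  rw [hflux, mul_assoc _ (ε⁻¹ ^ (3 / 4 : ℝ)), ← hs3]
  obtain ⟨a0, a2, hU, hV, haV, -, -⟩ := eb i i
  refine (abs_five_flux (M := M) (N := n * (N * s ^ 3)) ?_ ?_ ?_ ?_ ?_ hs1 a0 a2 hU hV haV ?_).trans
    (le_of_eq (by ring))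
  · linarith [nn (F.B r), nn (F.C r), nn (F.c r), nn (F.d r), nn (F.k₁ p q D r), nn (F.k₂ p q D r), nn (r ^ p)]
  · linarith [nn (F.A r), nn (F.C r), nn (F.c r), nn (F.d r), nn (F.k₁ p q D r), nn (F.k₂ p q D r), nn (r ^ p)]
  · linarith [nn (F.A r), nn (F.B r), nn (F.c r), nn (F.d r), nn (F.k₁ p q D r), nn (F.k₂ p q D r), nn (r ^ p)]
  · linarith [nn (F.A r), nn (F.B r), nn (F.C r), nn (F.d r), nn (F.k₁ p q D r), nn (F.k₂ p q D r), nn (r ^ p)]
  · linarith [nn (F.A r), nn (F.B r), nn (F.C r), nn (F.c r), nn (F.k₁ p q D r), nn (F.k₂ p q D r), nn (r ^ p)]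
  refine (abs_sum_le_sum_abs _ _).trans ((sum_le_card_nsmul _ _ (N * s ^ 3) fun j _ => ?_).trans_eq
    (by simp))
  rw [abs_mul, show N * s ^ 3 = N * s ^ 2 * s by ring]
  exact mul_le_mul (hH j) (eb i j).2.2.1 (abs_nonneg _) ((abs_nonneg _).trans (hH j))

/-- No solution, from five functions. -/
theorem Sol.false_of_five (h : Sol p q u v) (hn : 5 ≤ n) (hq : 0 < q) (hqp : q ≤ p)
    (hpq : 1 < p * q) (hD : (n : ℝ) < D) {F : Five} (hF : F.Smooth) {ε : ℝ} (hε : 0 < ε)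
    (hA : ∀ r, 0 < r → r ≤ ((p + 1) / (q + 1)) ^ (1 / (p + 1)) → ε ≤ F.A r)
    (hrest : ∀ r, 0 < r → r ≤ ((p + 1) / (q + 1)) ^ (1 / (p + 1)) → ∀ a b g, 0 ≤ a → 0 ≤ g →
      b ^ 2 ≤ a * g → ε * (1 + a ^ 2 + a * g + g) ≤ F.rest n p q D r a b g) :
    False :=
  h.false_of_five_pos hn hq hqp hpq hD hF.pos (hF.bounded p q D) hε hA hrest

end

end Vale.Agent.P100
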