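import Mathlib
import Vale.Agent.P100.Reduced

/-!
# P100: a certificate in a larger real dimension

The remainder of a five-function field is affine in `1 / N`, with a square as slope. So a certificate
for a real `N ≥ n` is a certificate for `n`.
-/

namespace Vale.Agent.P100

noncomputable section

variable {n : ℕ} {p q D : ℝ}

/-- The part of the remainder free of the dimension. -/
def Five.restInf (p q D : ℝ) (F : Five) (r a b g : ℝ) : ℝ :=
  (-F.c r * r ^ p - F.d r)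
    + (-F.B r * r ^ p - F.C r + homD p q (D - 2 - wt p q 0) F.c r 0) * a
    + (-F.A r * (p * r ^ (p - 1))
        + homD p q (D - 2 - wt p q 0) F.c r 1 + homD p q (D - 2 - wt p q 1) F.d r 0) * b
    + homD p q (D - 2 - wt p q 1) F.d r 1 * g
    + (homD p q (D - 4 - wt p q 0 - wt p q 0 - wt p q 0) F.B r 0
        - F.k₁ p q D r ^ 2 / (4 * F.A r)) * a ^ 2
    + (homD p q (D - 4 - wt p q 0 - wt p q 0 - wt p q 0) F.B r 1
        + homD p q (D - 4 - wt p q 0 - wt p q 0 - wt p q 1) F.C r 0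
        - F.k₁ p q D r * F.k₂ p q D r / (2 * F.A r)) * (a * b)
    - F.k₂ p q D r ^ 2 / (4 * F.A r) * b ^ 2
    + homD p q (D - 4 - wt p q 0 - wt p q 0 - wt p q 1) F.C r 1 * (a * g)
    - F.k₂ p q D r ^ 2 / (8 * F.A r) * (a * g - b ^ 2)

/-- The trace of the completed square. -/
def Five.slope (p q D : ℝ) (F : Five) (r a b : ℝ) : ℝ :=
  (-(r ^ p) * F.A r + (F.k₁ p q D r * a + F.k₂ p q D r * b) / 2) ^ 2 / F.A r

/-- The remainder in a real dimension `N`. -/
def Five.restAt (N p q D : ℝ) (F : Five) (r a b g : ℝ) : ℝ :=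
  F.restInf p q D r a b g + F.slope p q D r a b / N

theorem Five.rest_eq (F : Five) {r : ℝ} (hA : F.A r ≠ 0) (hn : n ≠ 0) (a b g : ℝ) :
    F.rest n p q D r a b g = F.restAt n p q D r a b g := by
  have hn' : (n : ℝ) ≠ 0 := Nat.cast_ne_zero.2 hn
  simp only [Five.rest, Five.restAt, Five.restInf, Five.slope, Five.k₁, Five.k₂]
  field_simp
  ring

theorem Five.restAt_anti (F : Five) {r : ℝ} (hA : 0 < F.A r) {M N : ℝ} (hM : 0 < M) (hMN : M ≤ N)
    (a b g : ℝ) : F.restAt N p q D r a b g ≤ F.restAt M p q D r a b g :=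
  (add_le_add_iff_left _).2 (div_le_div_of_nonneg_left (div_nonneg (sq_nonneg _) hA.le) hM hMN)

variable {u v : (Fin n → ℝ) → ℝ}

/-- No solution, from five functions in a real dimension `N ≥ n`. -/
theorem Sol.false_of_five_at (h : Sol p q u v) (hn : 5 ≤ n) (hq : 0 < q) (hqp : q ≤ p)
    (hpq : 1 < p * q) (hD : (n : ℝ) < D) {N : ℝ} (hN : (n : ℝ) ≤ N) {F : Five} (hF : F.Smooth)
    {ε : ℝ} (hε : 0 < ε)
    (hA : ∀ r, 0 < r → r ≤ ((p + 1) / (q + 1)) ^ (1 / (p + 1)) → ε ≤ F.A r)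
    (hrest : ∀ r, 0 < r → r ≤ ((p + 1) / (q + 1)) ^ (1 / (p + 1)) → ∀ a b g, 0 ≤ a → 0 ≤ g →
      b ^ 2 ≤ a * g → ε * (1 + a ^ 2 + a * g + g) ≤ F.restAt N p q D r a b g) :
    False := by
  have hn0 : (0 : ℝ) < n := by exact_mod_cast (show 0 < n by omega)
  refine h.false_of_five hn hq hqp hpq hD hF hε hA fun r hr hR a b g ha hg hb => ?_
  have hA' := hε.trans_le (hA r hr hR)
  rw [F.rest_eq hA'.ne' (by omega)]
  exact (hrest r hr hR a b g ha hg hb).trans (F.restAt_anti hA' hn0 hN a b g)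

end

end Vale.Agent.P100
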