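import Mathlib
import Vale.Agent.P100.Family

/-!
# P100: the diagonal case p = q, by the classical identity of Gidas and Spruck

For `p = q` the comparison gives `u = v`, and the field `u^k (D²u ∇u) + b u^(k-1) |∇u|² ∇u + e u^(k+p) ∇u`
with `k = -2/(n-2)` has a positive divergence below the exponent `(n+2)/(n-2)`.
-/

namespace Vale.Agent.P100

open MeasureTheory Set Filter Topology Finset Function
open Vale.Agent.P098.Cone
open scoped ContDiff

noncomputable section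

variable {n : ℕ} {p : ℝ} {u v : (Fin n → ℝ) → ℝ}

/-- On the diagonal the two components agree. -/
theorem Sol.diag (h : Sol p p u v) (hn : 3 ≤ n) (hp : 0 < p) (x : Fin n → ℝ) : v x = u x := by
  have h1 := h.compare hn hp le_rfl x
  have h2 := h.symm.compare hn hp le_rfl x
  rw [div_self (by linarith : p + 1 ≠ 0), Real.one_rpow, Real.rpow_one, one_mul] at h1 h2
  linarith

/-- The Hessian coefficients. -/
def scalA : Fin 2 → Fin 2 → ℝ → ℝ := ![![fun _ => 1, fun _ => 0], ![fun _ => 0, fun _ => 0]]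

/-- The cubic coefficients. -/
def scalB (b : ℝ) : Fin 2 → Fin 2 → Fin 2 → ℝ → ℝ :=
  ![![![fun _ => b, fun _ => 0], ![fun _ => 0, fun _ => 0]],
    ![![fun _ => 0, fun _ => 0], ![fun _ => 0, fun _ => 0]]]

/-- The linear coefficients. -/
def scalC (e : ℝ) : Fin 2 → ℝ → ℝ := ![fun _ => e, fun _ => 0]

/-- The divergence at a diagonal jet with `u = 1`. -/
theorem divergence_scalar {D k b e : ℝ} (hp : 1 < p)
    (hD : D = 4 + wt p p 0 * (2 + k)) {J : Jet n} (h1 : ∀ c, J.y c = 1)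
    (hG : J.G 1 = J.G 0) (hs : ∀ i j, J.H 0 i j = J.H 0 j i) (ht : ∑ i, J.H 0 i i = -1) :
    divergence p p (family p p D scalA (scalB b) (scalC e)) J
      = (∑ i, ∑ j, J.H 0 i j ^ 2) + (k + 2 * b) * (∑ i, ∑ j, J.H 0 i j * (J.G 0 i * J.G 0 j))
        - e + ((k + p) * e - p - b) * (∑ i, J.G 0 i ^ 2) + (k - 1) * b * (∑ i, J.G 0 i ^ 2) ^ 2 := by
  have hy : J.y ∈ quad2 := fun c => by simp [h1]
  have hpd : p * p - 1 ≠ 0 := by nlinarith
  have hα : wt p p 0 ≠ 0 := wt_zero_ne (by linarith) (sub_ne_zero.1 hpd)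
  have hw : wt p p 1 = wt p p 0 := by simp [wt]
  have hα2 : 2 = wt p p 0 * (p - 1) := by
    simp only [wt, Matrix.cons_val_zero]
    rw [div_mul_eq_mul_div, eq_div_iff hpd]
    ring
  have eA : ∀ (f : ℝ), ∀ i, dCoef (homFun p p (D - 4 - wt p p 0 - wt p p 0) fun _ => f) J i
      = k * f * J.G 0 i := fun f i => by
    obtain ⟨e0, e1⟩ := pd_homFun (p := p) (q := p) (D - 4 - wt p p 0 - wt p p 0)
      (contDiff_const (c := f)) hy (h1 0)
    simp only [dCoef, Fin.sum_univ_two, e0, e1, deriv_const, mul_zero, sub_zero, add_zero]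
    rw [hD]; field_simp; ring
  have eB : ∀ (f : ℝ), ∀ i,
      dCoef (homFun p p (D - 4 - wt p p 0 - wt p p 0 - wt p p 0) fun _ => f) J i
      = (k - 1) * f * J.G 0 i := fun f i => by
    obtain ⟨e0, e1⟩ := pd_homFun (p := p) (q := p) (D - 4 - wt p p 0 - wt p p 0 - wt p p 0)
      (contDiff_const (c := f)) hy (h1 0)
    simp only [dCoef, Fin.sum_univ_two, e0, e1, deriv_const, mul_zero, sub_zero, add_zero]
    rw [hD]; field_simp; ring
  have eC : ∀ (f : ℝ), ∀ i, dCoef (homFun p p (D - 2 - wt p p 0) fun _ => f) J i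
      = (k + p) * f * J.G 0 i := fun f i => by
    obtain ⟨e0, e1⟩ := pd_homFun (p := p) (q := p) (D - 2 - wt p p 0)
      (contDiff_const (c := f)) hy (h1 0)
    simp only [dCoef, Fin.sum_univ_two, e0, e1, deriv_const, mul_zero, sub_zero, add_zero]
    rw [hD, show (4 : ℝ) + wt p p 0 * (2 + k) - 2 - wt p p 0
      = 2 + wt p p 0 * (1 + k) by ring]
    rw [show (2 : ℝ) + wt p p 0 * (1 + k) = wt p p 0 * (k + p) by linear_combination hα2]
    field_simp
  have e0 : ∀ m : ℝ, ∀ i, dCoef (homFun p p m fun _ => 0) J i = 0 := fun m i => by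
    obtain ⟨e0, e1⟩ := pd_homFun (p := p) (q := p) m (contDiff_const (c := (0 : ℝ))) hy (h1 0)
    simp [dCoef, Fin.sum_univ_two, e0, e1]
  have es : ∀ i, dCoef (src p p 0) J i = p * J.G 0 i := fun i => by
    have d1 : DifferentiableAt ℝ (fun z : Fin 2 → ℝ => z 1) J.y := differentiableAt_apply 1 J.y
    have hr : HasDerivAt (fun t : ℝ => t ^ p) p (J.y 1) := by
      simpa [h1] using Real.hasDerivAt_rpow_const (x := J.y 1) (p := p) (Or.inl (by simp [h1]))
    have e : src p p 0 = fun z : Fin 2 → ℝ => (fun t : ℝ => t ^ p) (z 1) := by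
      funext z; simp [src]
    simp [dCoef, Fin.sum_univ_two, e, pd_comp hr d1, pd_coord, hG, mul_comm]
  simp only [divergence, family, scalA, scalB, scalC, Fin.sum_univ_two, Matrix.cons_val_zero,
    Matrix.cons_val_one, homFun_one _ _ (h1 0), eA, eB, eC, e0, es, hw,
    mul_zero, zero_mul, mul_one, one_mul, add_zero, sub_zero,
    zero_add, sum_const_zero, inner2]
  have s1 : ∀ j i, J.H 0 j i = J.H 0 i j := fun j i => hs j i
  have t1 : (∑ i, ∑ j, J.H 0 i j * (k * J.G 0 i * J.G 0 j + J.H 0 j i))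
      = (∑ i, ∑ j, J.H 0 i j ^ 2) + k * ∑ i, ∑ j, J.H 0 i j * (J.G 0 i * J.G 0 j) := by
    rw [mul_sum, ← sum_add_distrib]
    refine sum_congr rfl fun i _ => ?_
    rw [mul_sum, ← sum_add_distrib]
    refine sum_congr rfl fun j _ => ?_
    rw [s1 j i]; ring
  have t2 : ∀ i, (∑ j, (J.G 0 j * J.H 0 j i + J.G 0 j * J.H 0 j i)) * J.G 0 i
      = 2 * ∑ j, J.H 0 i j * (J.G 0 i * J.G 0 j) := fun i => by
    rw [sum_mul, mul_sum]
    refine sum_congr rfl fun j _ => ?_
    rw [s1 j i]; ring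
  have t3 : ∑ j, J.G 0 j * (p * J.G 0 j) = p * ∑ i, J.G 0 i ^ 2 := by
    rw [mul_sum]; exact sum_congr rfl fun j _ => by ring
  set a := ∑ i, J.G 0 i ^ 2
  have ha : ∑ j, J.G 0 j * J.G 0 j = a := sum_congr rfl fun j _ => by ring
  have t4 : (∑ i, ((k - 1) * b * J.G 0 i * (∑ j, J.G 0 j * J.G 0 j) * J.G 0 i
        + b * (∑ j, (J.G 0 j * J.H 0 j i + J.G 0 j * J.H 0 j i)) * J.G 0 i
        + b * (∑ j, J.G 0 j * J.G 0 j) * J.H 0 i i))
      = (k - 1) * b * a ^ 2 + 2 * b * (∑ i, ∑ j, J.H 0 i j * (J.G 0 i * J.G 0 j)) - b * a := by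
    rw [sum_add_distrib, sum_add_distrib, ← mul_sum univ (fun i => J.H 0 i i), ht]
    have : ∀ i, b * (∑ j, (J.G 0 j * J.H 0 j i + J.G 0 j * J.H 0 j i)) * J.G 0 i
        = b * (2 * ∑ j, J.H 0 i j * (J.G 0 i * J.G 0 j)) := fun i => by rw [mul_assoc, t2 i]
    simp only [this, ha, ← mul_sum]
    rw [show (∑ i, (k - 1) * b * J.G 0 i * a * J.G 0 i) = (k - 1) * b * a * a by
      rw [show (k - 1) * b * a * a = (k - 1) * b * a * ∑ i, J.G 0 i * J.G 0 i by rw [ha], mul_sum]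
      exact sum_congr rfl fun i _ => by ring]
    ring
  have t5 : (∑ i, ((k + p) * e * J.G 0 i * J.G 0 i + e * J.H 0 i i)) = (k + p) * e * a - e := by
    rw [sum_add_distrib, ← mul_sum univ (fun i => J.H 0 i i), ht]
    rw [show (∑ i, (k + p) * e * J.G 0 i * J.G 0 i) = (k + p) * e * a by
      rw [mul_sum]; exact sum_congr rfl fun i _ => by ring]
    ring
  rw [t1, t3, t4, t5]
  ring

/-- Completing the square in the Hessian. -/
theorem scalar_square (hn : 0 < n) (H : Fin n → Fin n → ℝ) (G : Fin n → ℝ)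
    (ht : ∑ i, H i i = -1) (κ : ℝ) :
    ∑ i, ∑ j, (H i j + (κ / 2 * (G i * G j)
        + if i = j then (1 - κ * (∑ l, G l ^ 2) / 2) / n else 0)) ^ 2
      = (∑ i, ∑ j, H i j ^ 2) + κ * (∑ i, ∑ j, H i j * (G i * G j))
        + κ ^ 2 / 4 * (∑ l, G l ^ 2) ^ 2 - (1 - κ * (∑ l, G l ^ 2) / 2) ^ 2 / n := by
  set a := ∑ l, G l ^ 2
  set e := (1 - κ * a / 2) / (n : ℝ)
  have hN : (n : ℝ) ≠ 0 := Nat.cast_ne_zero.2 hn.ne'
  have key : ∀ i j, (H i j + (κ / 2 * (G i * G j) + if i = j then e else 0)) ^ 2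
      = H i j ^ 2 + κ * (H i j * (G i * G j)) + κ ^ 2 / 4 * (G i ^ 2 * G j ^ 2)
        + if i = j then 2 * e * H i j + κ * e * (G i * G j) + e ^ 2 else 0 := fun i j => by
    split_ifs <;> ring
  simp only [key, sum_add_distrib, ← mul_sum, sum_ite_eq, Finset.mem_univ, if_true, ht]
  rw [show (∑ i, G i ^ 2 * ∑ j, G j ^ 2) = a ^ 2 by rw [← sum_mul, sq],
    show (∑ i, G i * G i) = a from sum_congr rfl fun i _ => by ring, sum_const, card_univ,
    Fintype.card_fin, nsmul_eq_mul]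
  simp only [e]
  field_simp
  ring

/-- The coercive inequality on the diagonal. -/
theorem scalar_coercive {k b e : ℝ} (hn : 3 ≤ n) {ε : ℝ} (he : e = 1 / n - ε) (hε : 0 < ε)
    (hL : 0 ≤ -(k + 2 * b) / n - b + (k + p) * e - p) {η : ℝ} (hη : 0 < η)
    (hQ : η ≤ (k - 1) * b - (1 - 1 / n) * (k + 2 * b) ^ 2 / 4) :
    ∃ c > 0, ∀ (H : Fin n → Fin n → ℝ) (G : Fin n → ℝ), (∑ i, H i i = -1) →
      c * (1 + 2 * (∑ i, ∑ j, H i j ^ 2) + (2 * ∑ i, G i ^ 2) ^ 2)
        ≤ (∑ i, ∑ j, H i j ^ 2) + (k + 2 * b) * (∑ i, ∑ j, H i j * (G i * G j))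
          - e + ((k + p) * e - p - b) * (∑ i, G i ^ 2) + (k - 1) * b * (∑ i, G i ^ 2) ^ 2 := by
  set κ := k + 2 * b
  have hn0 : (0 : ℝ) < n := Nat.cast_pos.2 (by omega)
  obtain ⟨c, hc0, hc1, hc2, hc3⟩ : ∃ c > 0, c * 4 ≤ 1 ∧ c * (1 + 8) ≤ ε ∧
      c * (4 * κ ^ 2 + 4) ≤ η := by
    refine ⟨min (1 / 4) (min (ε / 9) (η / (4 * κ ^ 2 + 4))), lt_min (by norm_num)
      (lt_min (by positivity) (by positivity)), ?_, ?_, ?_⟩
    · linarith [min_le_left (1 / 4 : ℝ) (min (ε / 9) (η / (4 * κ ^ 2 + 4)))]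
    · linarith [(min_le_right (1 / 4 : ℝ) (min (ε / 9) (η / (4 * κ ^ 2 + 4)))).trans (min_le_left _ _)]
    · rw [← le_div_iff₀ (by positivity)]
      exact (min_le_right _ _).trans (min_le_right _ _)
  refine ⟨c, hc0, fun H G ht => ?_⟩
  set a := ∑ i, G i ^ 2
  set Q := ∑ i, ∑ j, (H i j + (κ / 2 * (G i * G j)
    + if i = j then (1 - κ * a / 2) / n else 0)) ^ 2
  have hQeq := scalar_square (by omega) H G ht κ
  have hQ0 : 0 ≤ Q := by positivity
  have ha : 0 ≤ a := by positivity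
  have hT : (∑ i, ∑ j, (κ / 2 * (G i * G j)
      + if i = j then (1 - κ * a / 2) / n else 0) ^ 2) ≤ κ ^ 2 * a ^ 2 + 4 / n := by
    have key : ∀ i j, (κ / 2 * (G i * G j) + if i = j then (1 - κ * a / 2) / (n : ℝ) else 0) ^ 2
        = κ ^ 2 / 4 * (G i ^ 2 * G j ^ 2) + if i = j then
          κ * ((1 - κ * a / 2) / n) * (G i * G j) + ((1 - κ * a / 2) / n) ^ 2 else 0 := fun i j => by
      split_ifs <;> ring
    simp only [key, sum_add_distrib, ← mul_sum, sum_ite_eq, Finset.mem_univ, if_true]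
    rw [show (∑ i, G i ^ 2 * ∑ j, G j ^ 2) = a ^ 2 by rw [← sum_mul, sq],
      show (∑ i, G i * G i) = a from sum_congr rfl fun i _ => by ring, sum_const, card_univ,
      Fintype.card_fin, nsmul_eq_mul,
      show κ ^ 2 / 4 * a ^ 2 + (κ * ((1 - κ * a / 2) / n) * a + (n : ℝ) * ((1 - κ * a / 2) / n) ^ 2)
        = κ ^ 2 / 4 * a ^ 2 * (1 - 1 / n) + 1 / n by field_simp; ring]
    have : 0 ≤ 1 / (n : ℝ) := by positivity
    have h4 : 4 / (n : ℝ) = 4 * (1 / n) := by ring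
    nlinarith [mul_nonneg (mul_nonneg (sq_nonneg κ) (sq_nonneg a)) this,
      mul_nonneg (sq_nonneg κ) (sq_nonneg a)]
  have hH : (∑ i, ∑ j, H i j ^ 2) ≤ 2 * Q + 2 * (κ ^ 2 * a ^ 2 + 4 / n) := by
    refine le_trans ?_ (add_le_add le_rfl (mul_le_mul_of_nonneg_left hT (by norm_num : (0 : ℝ) ≤ 2)))
    simp only [Q, mul_sum, ← sum_add_distrib]
    refine sum_le_sum fun i _ => sum_le_sum fun j _ => ?_
    nlinarith [sq_nonneg (H i j + 2 * (κ / 2 * (G i * G j)
      + if i = j then (1 - κ * a / 2) / (n : ℝ) else 0))]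
  have e1 : (1 - κ * a / 2) ^ 2 / (n : ℝ) = 1 / n - κ / n * a + κ ^ 2 / 4 * (1 / n) * a ^ 2 := by
    field_simp; ring
  have h4n : 4 / (n : ℝ) ≤ 2 := by
    rw [div_le_iff₀ hn0]
    have : (3 : ℝ) ≤ n := by exact_mod_cast hn
    linarith
  have eL : -κ / (n : ℝ) = -(κ / n) := by ring
  rw [eL] at hL
  have hLa := mul_nonneg hL ha
  have hQa := mul_le_mul_of_nonneg_right hQ (sq_nonneg a)
  have hlow : Q + ε + η * a ^ 2 ≤ (∑ i, ∑ j, H i j ^ 2)
      + κ * (∑ i, ∑ j, H i j * (G i * G j)) - e + ((k + p) * e - p - b) * a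
      + (k - 1) * b * a ^ 2 := by
    rw [e1] at hQeq
    rw [he] at hLa ⊢
    linarith
  refine le_trans ?_ hlow
  calc c * (1 + 2 * (∑ i, ∑ j, H i j ^ 2) + (2 * a) ^ 2)
      ≤ c * (1 + 2 * (2 * Q + 2 * (κ ^ 2 * a ^ 2 + 2)) + (2 * a) ^ 2) :=
        mul_le_mul_of_nonneg_left (by linarith) hc0.le
    _ = c * 4 * Q + c * (1 + 8) + c * (4 * κ ^ 2 + 4) * a ^ 2 := by ring
    _ ≤ _ := add_le_add (add_le_add (mul_le_of_le_one_left hQ0 hc1) hc2)
        (mul_le_mul_of_nonneg_right hc3 (sq_nonneg a))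

/-- The diagonal case. -/
theorem Sol.false_of_scalar (h : Sol p p u v) (hn : 5 ≤ n) (hp : 1 < p)
    (hsub : p < ((n : ℝ) + 2) / ((n : ℝ) - 2)) : False := by
  have hN : (5 : ℝ) ≤ n := by exact_mod_cast hn
  set c := 1 - 1 / (n : ℝ)
  set k := -2 / ((n : ℝ) - 2)
  set g := c * (((n : ℝ) + 2) / ((n : ℝ) - 2) - p)
  have hinv : 1 / (n : ℝ) ≤ 1 / 5 := one_div_le_one_div_of_le (by norm_num) hN
  have hinv0 : 0 < 1 / (n : ℝ) := by positivity
  have hg : 0 < g := mul_pos (by simp only [c]; linarith) (by linarith)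
  set δ := min (1 / 2) (g / 4)
  have hδ : 0 < δ := lt_min (by norm_num) (by linarith)
  have hδ1 : δ ≤ 1 / 2 := min_le_left _ _
  have hδ2 : δ ≤ g / 4 := min_le_right _ _
  set ε := g / (4 * (|k + p| + 1))
  have hε : 0 < ε := by positivity
  have hεk : (k + p) * ε ≤ g / 4 := by
    have : (k + p) * ε ≤ (|k + p| + 1) * ε :=
      mul_le_mul_of_nonneg_right (by linarith [le_abs_self (k + p)]) hε.le
    refine this.trans (le_of_eq ?_)
    simp only [ε]; field_simp
  set b := -((n : ℝ) - 1) / ((n : ℝ) - 2) + δ / 2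
  set e := 1 / (n : ℝ) - ε
  have hn2 : (n : ℝ) - 2 ≠ 0 := by linarith
  have hL : 0 ≤ -(k + 2 * b) / n - b + (k + p) * e - p := by
    have : -(k + 2 * b) / (n : ℝ) - b + (k + p) * e - p
        = g - (1 / 2 + 1 / n) * δ - (k + p) * ε := by
      simp only [k, b, e, g, c]; field_simp; ring
    rw [this]
    nlinarith
  have hQ : δ / 8 ≤ (k - 1) * b - (1 - 1 / (n : ℝ)) * (k + 2 * b) ^ 2 / 4 := by
    have : (k - 1) * b - (1 - 1 / (n : ℝ)) * (k + 2 * b) ^ 2 / 4 = δ / 2 - c * δ ^ 2 / 4 := by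
      simp only [k, b, c]; field_simp; ring
    rw [this]
    have : c ≤ 1 := by simp only [c]; linarith
    nlinarith
  obtain ⟨m, hm, hco⟩ := scalar_coercive (n := n) (p := p) (k := k) (b := b) (e := e) (by omega)
    rfl hε hL (by positivity : 0 < δ / 8) hQ
  set D := 4 + wt p p 0 * (2 + k)
  have hpq : 1 < p * p := by nlinarith
  have hα : 0 < wt p p 0 := by
    simp only [wt, Matrix.cons_val_zero]
    exact div_pos (by linarith) (by linarith)
  have hD : (n : ℝ) < D := by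
    have h2 : wt p p 0 * (p - 1) = 2 := by
      simp only [wt, Matrix.cons_val_zero]
      have : p * p - 1 ≠ 0 := by linarith
      rw [div_mul_eq_mul_div, div_eq_iff this]
      ring
    have h3 : p - 1 < 4 / ((n : ℝ) - 2) := by
      have : ((n : ℝ) + 2) / ((n : ℝ) - 2) = 1 + 4 / ((n : ℝ) - 2) := by field_simp; ring
      linarith
    have h4 : ((n : ℝ) - 2) / 2 < wt p p 0 := by
      have h5 := mul_lt_mul_of_pos_left h3 hα
      rw [h2, mul_div_assoc', lt_div_iff₀ (by linarith)] at h5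
      linarith
    have h6 : 2 + k = (2 * (n : ℝ) - 6) / ((n : ℝ) - 2) := by simp only [k]; field_simp; ring
    have h7 := mul_lt_mul_of_pos_right h4 (show 0 < 2 + k by rw [h6]; exact div_pos (by linarith) (by linarith))
    have h8 : ((n : ℝ) - 2) / 2 * (2 + k) = (n : ℝ) - 3 := by rw [h6]; field_simp; ring
    simp only [D]
    linarith
  set K := family p p D scalA (scalB b) (scalC e)
  have hK : K.Smooth := family_smooth (fun w z => by fin_cases w <;> fin_cases z <;> exact contDiff_const)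
    (fun a b c => by fin_cases a <;> fin_cases b <;> fin_cases c <;> exact contDiff_const)
    (fun c => by fin_cases c <;> exact contDiff_const)
  have hom : K.Homogeneous p p D := family_homogeneous (by linarith) hpq.ne' D _ _ _
  set C1 := (12 * n + 2 : ℝ) * (1 + |b| + |e|) * m⁻¹ ^ (3 / 4 : ℝ)
  have hC1 : 0 ≤ C1 := by positivity
  have hD4 : (4 : ℝ) ≤ D := by linarith
  have key : ∀ x : Fin n → ℝ, x ≠ 0 → ∃ l P : ℝ, 0 < l ∧ l ^ wt p p 0 = u x ∧ m ≤ P ∧
      divergence p p K (jetAt u v x) = l ^ D * P ∧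
      ∀ i, |flux K (jetAt u v x) i| ≤ l ^ (D - 1) * (C1 * P ^ (3 / 4 : ℝ)) := by
    intro x hx
    have huv : v = u := funext fun y => h.diag (by omega) (by linarith) y
    set J := jetAt u v x
    have hJ : J.Admissible p p := admissible_jetAt h (fun y => h.compare (by omega) (by linarith) le_rfl y) hx
    set l := u x ^ (wt p p 0)⁻¹
    have hl : 0 < l := Real.rpow_pos_of_pos (h.pos_u x) _
    have hl0 : l ^ wt p p 0 = u x := Real.rpow_inv_rpow (h.pos_u x).le hα.ne'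
    have hli : 0 < l⁻¹ := inv_pos.2 hl
    set J1 := J.scale p p l⁻¹
    have hw : wt p p 1 = wt p p 0 := by simp [wt]
    have hy1 : ∀ c, J1.y c = 1 := fun c => by
      have e0 : ∀ c, J.y c = u x ∧ wt p p c = wt p p 0 := fun c => by
        fin_cases c <;> simp [J, jetAt, comps, huv, hw]
      change l⁻¹ ^ wt p p c * J.y c = 1
      rw [(e0 c).1, (e0 c).2, Real.inv_rpow hl.le, hl0, inv_mul_cancel₀ (h.pos_u x).ne']
    have hJ1 : J1.Admissible p p := hJ.scale (by linarith) hpq.ne' hli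
    have hG : J1.G 1 = J1.G 0 := funext fun i => by simp [J1, J, Jet.scale, jetAt, comps, huv, hw]
    have hH : J1.H 1 = J1.H 0 := funext fun i => funext fun j => by
      simp [J1, J, Jet.scale, jetAt, comps, huv, hw]
    have ht : ∑ i, J1.H 0 i i = -1 := by
      rw [hJ1.trace 0]; simp [src, hy1]
    have hdiv : divergence p p K J1 = _ :=
      divergence_scalar (D := D) (k := k) (b := b) (e := e) hp rfl hy1 hG (hJ1.symm 0) ht
    have hsize : J1.size = 1 + 2 * (∑ i, ∑ j, J1.H 0 i j ^ 2) + (2 * ∑ i, J1.G 0 i ^ 2) ^ 2 := by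
      simp only [Jet.size, Fin.sum_univ_two, hG, hH]; ring
    have hP : m * J1.size ≤ divergence p p K J1 := by
      rw [hdiv, hsize]; exact hco _ _ ht
    refine ⟨l, divergence p p K J1, hl, hl0,
      (le_mul_of_one_le_right hm.le J1.one_le_size).trans hP, ?_, fun i => ?_⟩
    · rw [divergence_scale hK hom hpq.ne' hli hJ.pos, ← mul_assoc,
        Real.inv_rpow hl.le, mul_inv_cancel₀ (Real.rpow_pos_of_pos hl _).ne', one_mul]
    · have hb : (∀ w z, |K.A w z J1.y| ≤ 1 + |b| + |e|) ∧ (∀ a c d, |K.B a c d J1.y| ≤ 1 + |b| + |e|) ∧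
          ∀ c, |K.C c J1.y| ≤ 1 + |b| + |e| := by
        have := abs_nonneg b; have := abs_nonneg e
        refine ⟨fun w z => ?_, fun a c d => ?_, fun c => ?_⟩
        · fin_cases w <;> fin_cases z <;> simp [K, family, homFun_one _ _ (hy1 0), scalA] <;> linarith
        · fin_cases a <;> fin_cases c <;> fin_cases d <;>
            simp [K, family, homFun_one _ _ (hy1 0), scalB] <;> linarith
        · fin_cases c <;> simp [K, family, homFun_one _ _ (hy1 0), scalC] <;> linarith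
      have hN0 : 0 ≤ J1.size := zero_le_one.trans J1.one_le_size
      have h1 := (abs_flux_le J1 hb.1 hb.2.1 hb.2.2 i).trans (mul_le_mul_of_nonneg_left
        (Real.rpow_le_rpow hN0 (show J1.size ≤ m⁻¹ * divergence p p K J1 by
          rw [le_inv_mul_iff₀ hm]; exact hP) (by norm_num)) (by positivity))
      rw [Real.mul_rpow (inv_pos.2 hm).le ((mul_nonneg hm.le hN0).trans hP), ← mul_assoc] at h1
      have e2 : flux K J1 i = l⁻¹ ^ (D - 1) * flux K J i := flux_scale hom hli hJ.pos i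
      rw [e2, abs_mul, Real.inv_rpow hl.le, abs_inv, abs_of_pos (Real.rpow_pos_of_pos hl _),
        inv_mul_le_iff₀ (Real.rpow_pos_of_pos hl _)] at h1
      exact h1
  have hcpt : IsCompact (Icc (fun _ : Fin n => -(2 : ℝ)) fun _ => 2) := isCompact_Icc
  obtain ⟨M, hM⟩ := hcpt.exists_bound_of_continuousOn h.cont_u.continuousOn
  refine no_positive_divergence (X := fun i x => flux K (jetAt u v x) i)
    (P := fun x => divergence p p K (jetAt u v x)) hn hD (fun i => continuousOn_flux h hK i)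
    (continuousOn_divergence h hK) (fun x hx => ?_)
    (fun φ hφ hc hs => h.identity hK hφ hc hs)
    ⟨C1 * m ^ (3 / 4 - (1 - 1 / D)), fun x hx i => ?_⟩
    ⟨C1 * (|M| ^ (wt p p 0)⁻¹) ^ (D / 4 - 1), fun x hx hx4 i => ?_⟩
  · obtain ⟨l, P, hl, -, hP, hdiv, -⟩ := key x hx
    rw [hdiv]
    exact mul_pos (Real.rpow_pos_of_pos hl _) (hm.trans_le hP)
  · obtain ⟨l, P, hl, -, hP, hdiv, hX⟩ := key x hx
    have hP0 : 0 < P := hm.trans_le hP
    have e3 : 3 / 4 - (1 - 1 / D) ≤ 0 := by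
      have : 1 / D ≤ 1 / 4 := one_div_le_one_div_of_le (by norm_num) hD4
      linarith
    have hE : P ^ (3 / 4 : ℝ) ≤ m ^ (3 / 4 - (1 - 1 / D)) * P ^ (1 - 1 / D) := by
      refine le_trans (le_of_eq ?_) (mul_le_mul_of_nonneg_right
        (Real.rpow_le_rpow_of_nonpos hm hP e3) (Real.rpow_nonneg hP0.le _))
      rw [← Real.rpow_add hP0, sub_add_cancel]
    refine (hX i).trans ?_
    rw [hdiv, Real.mul_rpow (Real.rpow_nonneg hl.le _) hP0.le, ← Real.rpow_mul hl.le,
      show D * (1 - 1 / D) = D - 1 by field_simp]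
    exact (mul_le_mul_of_nonneg_left (mul_le_mul_of_nonneg_left hE hC1)
      (Real.rpow_nonneg hl.le _)).trans_eq (by ring)
  · obtain ⟨l, P, hl, hl0, hP, hdiv, hX⟩ := key x hx
    have hP0 : 0 ≤ P := (hm.trans_le hP).le
    have hxm : u x ≤ |M| := by
      have hmem : x ∈ Icc (fun _ : Fin n => -(2 : ℝ)) fun _ => 2 := by
        have := mem_box (x := x) (a := 0) (R := 2) (by norm_num) (by rw [sub_zero]; linarith)
        simpa using this
      exact ((le_abs_self _).trans (hM x hmem)).trans (le_abs_self _)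
    have hlM : l ≤ |M| ^ (wt p p 0)⁻¹ := by
      rw [← Real.rpow_rpow_inv hl.le hα.ne', hl0]
      exact Real.rpow_le_rpow (h.pos_u x).le hxm (inv_pos.2 hα).le
    refine (hX i).trans ?_
    rw [hdiv, show (1 : ℝ) - 1 / 4 = 3 / 4 by norm_num,
      Real.mul_rpow (Real.rpow_nonneg hl.le _) hP0, ← Real.rpow_mul hl.le,
      show D - 1 = D * (3 / 4) + (D / 4 - 1) by ring, Real.rpow_add hl]
    refine (mul_le_mul_of_nonneg_right (mul_le_mul_of_nonneg_left
      (Real.rpow_le_rpow hl.le hlM (by linarith)) (Real.rpow_nonneg hl.le _)) (by positivity)).trans_eq ?_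
    ring

end

end Vale.Agent.P100
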