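import Mathlib
import Vale.Agent.P100.Super
import Vale.Agent.P100.Means
import Vale.Agent.P100.Compare

/-!
# P100: no solution for `p q ≤ 1`

By the comparison `-Δ v ≥ c v ^ m` with `m ≤ 1`, and `v` is at least a multiple of its mean on the
ball of the same radius. So the means lose a fixed multiple of `R ^ 2` times themselves from `R` to
`2 R`, which is faster than the power `R ^ (-n-4)` allows.
-/

namespace Vale.Agent.P100

open MeasureTheory Set Filter Topology Finset Function
open Vale.Agent.P098.Cone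
open scoped ContDiff

noncomputable section

variable {n : ℕ} {p q : ℝ} {u v f : (Fin n → ℝ) → ℝ}

/-- The means of a positive function lose at most a power. -/
theorem mean_lower (hf : Continuous f) (hf0 : ∀ x, 0 ≤ f x) {R : ℝ} (hR : 1 ≤ R) :
    mean f 0 1 ≤ R ^ (n + 4) * mean f 0 R := by
  have hR0 : 0 < R := zero_lt_one.trans_le hR
  rw [mean_eq f 0 zero_lt_one, mean_eq f 0 hR0, one_pow (n + 4), inv_one, one_mul,
    mul_inv_cancel_left₀ (pow_ne_zero _ hR0.ne')]
  refine integral_mono (integrable_weight hf 0 zero_le_one 2 one_le_two)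
    (integrable_weight hf 0 hR0.le 2 one_le_two) fun x => mul_le_mul_of_nonneg_left ?_ (hf0 x)
  simp only [posPow]
  refine pow_le_pow_left₀ (le_max_right _ _) (max_le_max ?_ le_rfl) _
  linarith [pow_le_pow_left₀ zero_le_one hR 2]

theorem mean_one_pos (hf : Continuous f) (hf0 : ∀ x, 0 < f x) : 0 < mean f 0 1 := by
  refine ((hf.comp (continuous_const.add (continuous_id.const_smul (1 : ℝ)))).mul
    ((continuous_posPow 2).comp (continuous_const.sub continuous_sqr)))
    |>.integral_pos_of_hasCompactSupport_nonneg_nonzero (x := (0 : Fin n → ℝ)) ?_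
      (fun y => mul_nonneg (hf0 _).le (posPow_nonneg _ _)) ?_
  · exact HasCompactSupport.intro isCompact_Icc fun y hy => by
      have := posPow_eq_zero_of_notMem (a := (0 : Fin n → ℝ)) zero_le_one 2 one_le_two
        (by simpa using hy)
      simp only [one_pow, sub_zero] at this
      show f (0 + (1 : ℝ) • y) * posPow 2 (1 - sqr y) = 0
      rw [this, mul_zero]
  · show f (0 + (1 : ℝ) • (0 : Fin n → ℝ)) * posPow 2 (1 - sqr (0 : Fin n → ℝ)) ≠ 0
    simp [posPow, sqr_zero, (hf0 0).ne']

/-- On a ball, a positive superharmonic function is above a multiple of its mean. -/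
theorem PunctSuper.ball_lower {g : (Fin n → ℝ) → ℝ} (h : PunctSuper f g) (hn : 3 ≤ n)
    (hg : ∀ x, 0 ≤ g x) (hf0 : ∀ x, 0 ≤ f x) {R : ℝ} (hR : 0 < R) {x : Fin n → ℝ}
    (hx : sqr x ≤ R ^ 2) : ((1 : ℝ) / 2) ^ (n + 4) * mean f 0 R ≤ f x * mass n 2 := by
  set d := dist2 x 0
  have hd : 0 ≤ d := Real.sqrt_nonneg _
  have hdR : d ≤ R := by
    simp only [d, dist2, sub_zero]
    exact (Real.sqrt_le_sqrt hx).trans_eq (Real.sqrt_sq hR.le)
  refine le_trans ?_ ((mean_transfer h.cont hf0 x 0 hR).trans (h.mean_le hn hg x (by linarith)))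
  refine mul_le_mul_of_nonneg_right (pow_le_pow_left₀ (by norm_num) ?_ _) (mean_nonneg hf0 0 R)
  rw [div_le_div_iff₀ two_pos (by linarith)]
  linarith

/-- The exponent of the scalar inequality. -/
def expm (p q : ℝ) : ℝ := q / sig p q

theorem expm_pos (hp : 0 < p) (hq : 0 < q) : 0 < expm p q := div_pos hq (sig_pos hp hq)

theorem expm_le_one (hp : 0 < p) (hq : 0 < q) (hpq : p * q ≤ 1) : expm p q ≤ 1 := by
  rw [expm, sig, div_div_eq_mul_div, div_le_one (by linarith)]
  linarith

/-- The scalar inequality. -/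
theorem Sol.scalar (h : Sol p q u v) (hn : 3 ≤ n) (hq : 0 < q) (hqp : q ≤ p) :
    PunctSuper v fun x => (v x / ell p q) ^ expm p q := by
  have hp : 0 < p := hq.trans_le hqp
  have hl := ell_pos hp hq
  refine (h.super_v hq.le).mono ((h.cont_v.div_const _).rpow_const
    fun _ => Or.inr (expm_pos hp hq).le) fun x => ?_
  have hu := h.pos_u x
  have h1 : v x / ell p q ≤ u x ^ sig p q := by
    rw [div_le_iff₀ hl, mul_comm]
    exact h.compare hn hq hqp x
  refine (Real.rpow_le_rpow (div_pos (h.pos_v x) hl).le h1 (expm_pos hp hq).le).trans_eq ?_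
  rw [← Real.rpow_mul hu.le, expm, mul_div_cancel₀ q (sig_pos hp hq).ne']

/-- The means lose a multiple of `R ^ 2` times themselves over a doubling. -/
theorem Sol.doubling (h : Sol p q u v) (hn : 3 ≤ n) (hq : 0 < q) (hqp : q ≤ p) (hpq : p * q ≤ 1) :
    ∃ K, 0 < K ∧ ∀ R, 1 ≤ R → mean v 0 (2 * R) * (1 + K * R ^ 2) ≤ mean v 0 R := by
  have hp : 0 < p := hq.trans_le hqp
  have hl := ell_pos hp hq
  have hs := h.scalar hn hq hqp
  set m := expm p q
  have hm0 : 0 < m := expm_pos hp hq
  have hm1 : m ≤ 1 := expm_le_one hp hq hpq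
  have hg : ∀ x, 0 ≤ (v x / ell p q) ^ m := fun x =>
    Real.rpow_nonneg (div_pos (h.pos_v x) hl).le m
  have hv0 : ∀ x, 0 ≤ v x := fun x => (h.pos_v x).le
  have hanti := hs.mean_antitone hn hg (0 : Fin n → ℝ)
  have hm2 := mass_pos n 2 one_le_two
  have hm3 := mass_pos n 3 (by norm_num)
  have hM1 := mean_one_pos h.cont_v h.pos_v
  set c := ((1 : ℝ) / 2) ^ (n + 4) / (mass n 2 * ell p q)
  have hc : 0 < c := div_pos (by positivity) (mul_pos hm2 hl)
  set K := mass n 3 / 6 * ((c * mean v 0 1) ^ (m - 1) * c)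
  have hK : 0 < K := mul_pos (div_pos hm3 (by norm_num))
    (mul_pos (Real.rpow_pos_of_pos (mul_pos hc hM1) _) hc)
  have hder : ∀ R, 1 ≤ R → deriv (mean v 0) R ≤ -(K * R * mean v 0 R) := by
    intro R hR
    have hR0 : 0 < R := zero_lt_one.trans_le hR
    have hMR : 0 < mean v 0 R := by
      have := mean_lower h.cont_v hv0 hR
      by_contra hle
      nlinarith [pow_pos hR0 (n + 4)]
    refine (hs.deriv_mean_le hn 0 hR0).trans (neg_le_neg ?_)
    set B := (c * mean v 0 R) ^ m
    have hlow : ∀ x, B * bump (0 : Fin n → ℝ) R x ≤ (v x / ell p q) ^ m * bump (0 : Fin n → ℝ) R x := by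
      intro x
      rcases le_or_gt (sqr x) (R ^ 2) with hx | hx
      · refine mul_le_mul_of_nonneg_right (Real.rpow_le_rpow (mul_pos hc hMR).le ?_ hm0.le)
          (bump_nonneg _ _ _)
        have := hs.ball_lower hn hg hv0 hR0 hx
        rw [div_mul_eq_mul_div, div_le_div_iff₀ (mul_pos hm2 hl) hl]
        calc ((1 : ℝ) / 2) ^ (n + 4) * mean v 0 R * ell p q ≤ v x * mass n 2 * ell p q :=
              mul_le_mul_of_nonneg_right this hl.le
          _ = v x * (mass n 2 * ell p q) := mul_assoc _ _ _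
      · have : bump (0 : Fin n → ℝ) R x = 0 := by
          simp [bump, posPow, max_eq_right (by linarith : R ^ 2 - sqr x ≤ 0)]
        simp [this]
    have hint : B * (R ^ (n + 6) * mass n 3)
        ≤ ∫ x, (v x / ell p q) ^ m * bump (0 : Fin n → ℝ) R x := by
      rw [← integral_bump n hR0, ← integral_const_mul]
      exact integral_mono
        (integrable_weight (f := fun _ => B) continuous_const 0 hR0.le 3 (by norm_num))
        (integrable_weight (f := fun x => (v x / ell p q) ^ m) hs.gcont 0 hR0.le 3 (by norm_num))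
        hlow
    refine le_trans ?_ (mul_le_mul_of_nonneg_left hint (by positivity))
    have hle : mean v 0 R ≤ mean v 0 1 := hanti (show (0 : ℝ) ≤ 1 from zero_le_one) hR0.le hR
    have hB : (c * mean v 0 1) ^ (m - 1) * (c * mean v 0 R) ≤ B := by
      rw [show B = (c * mean v 0 R) ^ (m - 1) * (c * mean v 0 R) by
        rw [← Real.rpow_add_one (mul_pos hc hMR).ne', sub_add_cancel]]
      exact mul_le_mul_of_nonneg_right (Real.rpow_le_rpow_of_nonpos (mul_pos hc hMR)
        (mul_le_mul_of_nonneg_left hle hc.le) (by linarith)) (mul_pos hc hMR).le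
    calc K * R * mean v 0 R
        = mass n 3 / 6 * R * ((c * mean v 0 1) ^ (m - 1) * (c * mean v 0 R)) := by ring
      _ ≤ mass n 3 / 6 * R * B := mul_le_mul_of_nonneg_left hB (by positivity)
      _ = _ := by
        rw [show n + 6 = n + 5 + 1 by omega, pow_succ R (n + 5)]
        field_simp
  refine ⟨K, hK, fun R hR => ?_⟩
  have hR0 : 0 < R := zero_lt_one.trans_le hR
  set a := K * R * mean v 0 (2 * R)
  have hd : ∀ t : ℝ, 0 < t → HasDerivAt (fun t => mean v 0 t + a * t) (deriv (mean v 0) t + a) t :=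
    fun t ht => ((hasDerivAt_mean h.cont_v 0 ht).differentiableAt.hasDerivAt.add
      ((hasDerivAt_id' t).const_mul a)).congr_deriv (by ring)
  have hF : AntitoneOn (fun t => mean v 0 t + a * t) (Icc R (2 * R)) := by
    refine antitoneOn_of_deriv_nonpos (convex_Icc _ _)
      ((continuous_mean h.cont_v 0).add (continuous_const.mul continuous_id)).continuousOn ?_ ?_
    · intro t ht
      rw [interior_Icc] at ht
      exact (hd t (hR0.trans ht.1)).differentiableAt.differentiableWithinAt
    · intro t ht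
      rw [interior_Icc] at ht
      rw [(hd t (hR0.trans ht.1)).deriv]
      have h1 := hder t (hR.trans ht.1.le)
      have h2 : mean v 0 (2 * R) ≤ mean v 0 t :=
        hanti (hR0.trans ht.1).le (show 0 ≤ 2 * R by linarith) ht.2.le
      have h3 : a ≤ K * t * mean v 0 t :=
        mul_le_mul (mul_le_mul_of_nonneg_left ht.1.le hK.le) h2 (mean_nonneg hv0 0 _)
          (mul_nonneg hK.le (hR0.trans ht.1).le)
      linarith
  have := hF (Set.left_mem_Icc.2 (by linarith)) (Set.right_mem_Icc.2 (by linarith)) (by linarith)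
  simp only [a] at this ⊢
  linarith

/-- No positive solution for `p q ≤ 1`. -/
theorem Sol.small (h : Sol p q u v) (hn : 3 ≤ n) (hq : 0 < q) (hqp : q ≤ p) (hpq : p * q ≤ 1) :
    False := by
  obtain ⟨K, hK, hdbl⟩ := h.doubling hn hq hqp hpq
  have hv0 : ∀ x, 0 ≤ v x := fun x => (h.pos_v x).le
  obtain ⟨R₀, hR₀, hR₁⟩ := ((tendsto_pow_atTop two_ne_zero).const_mul_atTop hK).eventually_ge_atTop
    ((2 : ℝ) ^ (n + 5)) |>.and (eventually_ge_atTop 1) |>.exists
  have hR00 : (0 : ℝ) < R₀ := zero_lt_one.trans_le hR₁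
  have key : ∀ k : ℕ, ((2 : ℝ) ^ (n + 5)) ^ k * mean v 0 (2 ^ k * R₀) ≤ mean v 0 R₀ := by
    intro k
    induction k with
    | zero => simp
    | succ k ih =>
      have hk : R₀ ≤ 2 ^ k * R₀ := le_mul_of_one_le_left hR00.le (one_le_pow₀ (by norm_num))
      have h1 := hdbl _ (hR₁.trans hk)
      have h2 : (2 : ℝ) ^ (n + 5) ≤ 1 + K * (2 ^ k * R₀) ^ 2 := by
        have := mul_le_mul_of_nonneg_left (pow_le_pow_left₀ hR00.le hk 2) hK.le
        linarith
      rw [← mul_assoc, ← pow_succ'] at h1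
      refine le_trans ?_ ih
      rw [pow_succ ((2 : ℝ) ^ (n + 5)) k, mul_assoc]
      refine mul_le_mul_of_nonneg_left (le_trans ?_ h1) (by positivity)
      rw [mul_comm]
      exact mul_le_mul_of_nonneg_left h2 (mean_nonneg hv0 0 _)
  have bound : ∀ k : ℕ, (2 : ℝ) ^ k * mean v 0 1 ≤ R₀ ^ (n + 4) * mean v 0 R₀ := by
    intro k
    have hk : 1 ≤ 2 ^ k * R₀ := one_le_mul_of_one_le_of_one_le (one_le_pow₀ (by norm_num)) hR₁
    have h1 := mul_le_mul_of_nonneg_left (mean_lower h.cont_v hv0 hk)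
      (show (0 : ℝ) ≤ 2 ^ k by positivity)
    have h2 := mul_le_mul_of_nonneg_left (key k) (show (0 : ℝ) ≤ R₀ ^ (n + 4) by positivity)
    refine h1.trans (le_trans (le_of_eq ?_) h2)
    rw [mul_pow, ← pow_mul, ← pow_mul, show (n + 5) * k = k + k * (n + 4) by ring, pow_add]
    ring
  obtain ⟨k, hk⟩ := ((tendsto_pow_atTop_atTop_of_one_lt one_lt_two).atTop_mul_const
    (mean_one_pos h.cont_v h.pos_v)).eventually_gt_atTop (R₀ ^ (n + 4) * mean v 0 R₀) |>.exists
  exact absurd (bound k) (not_le.2 hk)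

end

end Vale.Agent.P100
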