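import Mathlib
import Vale.Agent.P100.Compare
import Vale.Agent.P100.Small

/-!
# P100: from the literal statement on Euclidean space to `Sol`
-/

namespace Vale.Agent.P100

open Set Finset Function
open Vale.Agent.P098.Cone
open scoped ContDiff Laplacian RealInnerProductSpace

noncomputable section

variable {n : ℕ} {p q : ℝ}

/-- Coordinates. -/
def coords (n : ℕ) : (Fin n → ℝ) ≃L[ℝ] EuclideanSpace ℝ (Fin n) :=
  (PiLp.continuousLinearEquiv 2 ℝ fun _ : Fin n => ℝ).symm

theorem lap_coords {f : EuclideanSpace ℝ (Fin n) → ℝ} {x : Fin n → ℝ}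
    (hf : ContDiffAt ℝ 2 f (coords n x)) :
    lap (f ∘ coords n) x = Δ f (coords n x) := by
  have hg : ContDiffAt ℝ 2 (f ∘ coords n) x := hf.comp x (coords n).contDiff.contDiffAt
  have hd : DifferentiableAt ℝ (fderiv ℝ (f ∘ coords n)) x :=
    (hg.fderiv_right (m := 1) le_rfl).differentiableAt one_ne_zero
  rw [InnerProductSpace.laplacian_eq_iteratedFDeriv_orthonormalBasis f (EuclideanSpace.basisFun (Fin n) ℝ),
    lap]
  refine sum_congr rfl fun i _ => ?_
  have h1 : pd (pd (f ∘ coords n) i) i x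
      = iteratedFDeriv ℝ 2 (f ∘ coords n) x ![Pi.single i 1, Pi.single i 1] := by
    rw [iteratedFDeriv_two_apply]
    show fderiv ℝ (fun y => fderiv ℝ (f ∘ coords n) y (Pi.single i 1)) x (Pi.single i 1) = _
    rw [fderiv_clm_apply hd (differentiableAt_const _)]
    simp
  show pd (pd (f ∘ coords n) i) i x = _
  rw [h1]
  have h2 := (coords n).iteratedFDerivWithin_comp_right f uniqueDiffOn_univ (mem_univ (coords n x)) 2
  rw [preimage_univ, iteratedFDerivWithin_univ, iteratedFDerivWithin_univ] at h2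
  rw [h2, ContinuousMultilinearMap.compContinuousLinearMap_apply]
  refine congrArg _ (funext fun k => ?_)
  have : coords n (Pi.single i 1) = EuclideanSpace.basisFun (Fin n) ℝ i := by
    rw [EuclideanSpace.basisFun_apply]
    ext j
    simp [coords]
  fin_cases k <;> exact this

/-- The solution on coordinates. -/
theorem sol_of_euclidean {u v : EuclideanSpace ℝ (Fin n) → ℝ} (hu : Continuous u) (hv : Continuous v)
    (hu2 : ContDiffOn ℝ 2 u {x | x ≠ 0}) (hv2 : ContDiffOn ℝ 2 v {x | x ≠ 0})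
    (pu : ∀ x, 0 < u x) (pv : ∀ x, 0 < v x) (eu : ∀ x, x ≠ 0 → -(Δ u x) = v x ^ p)
    (ev : ∀ x, x ≠ 0 → -(Δ v x) = u x ^ q) :
    Sol p q (u ∘ coords n) (v ∘ coords n) := by
  have hne : ∀ x : Fin n → ℝ, x ≠ 0 → coords n x ≠ 0 := fun x hx h => hx ((coords n).injective (by simpa using h))
  refine ⟨hu.comp (coords n).continuous, hv.comp (coords n).continuous,
    hu2.comp (coords n).contDiff.contDiffOn fun x hx => hne x hx,
    hv2.comp (coords n).contDiff.contDiffOn fun x hx => hne x hx,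
    fun x => pu _, fun x => pv _, fun x hx => ?_, fun x hx => ?_⟩
  · rw [lap_coords (hu2.contDiffAt (isOpen_ne.mem_nhds (hne x hx))), comp_apply, ← eu _ (hne x hx),
      neg_neg]
  · rw [lap_coords (hv2.contDiffAt (isOpen_ne.mem_nhds (hne x hx))), comp_apply, ← ev _ (hne x hx),
      neg_neg]

/-- It suffices to exclude solutions with `q ≤ p` and `1 < p q`. -/
theorem no_solution_of_ordered {P : ℝ → ℝ → Prop} (hn : 3 ≤ n) (hP : ∀ a b, P a b → P b a)
    (h : ∀ a b, 0 < b → b ≤ a → 1 < a * b → P a b → ∀ u v : (Fin n → ℝ) → ℝ, ¬ Sol a b u v)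
    (hp : 0 < p) (hq : 0 < q) (hpP : P p q)
    {u v : EuclideanSpace ℝ (Fin n) → ℝ} (hu : Continuous u) (hv : Continuous v)
    (hu2 : ContDiffOn ℝ 2 u {x | x ≠ 0}) (hv2 : ContDiffOn ℝ 2 v {x | x ≠ 0})
    (pu : ∀ x, 0 < u x) (pv : ∀ x, 0 < v x) (eu : ∀ x, x ≠ 0 → -(Δ u x) = v x ^ p)
    (ev : ∀ x, x ≠ 0 → -(Δ v x) = u x ^ q) : False := by
  have s := sol_of_euclidean hu hv hu2 hv2 pu pv eu ev
  have key : ∀ {a b : ℝ} {f g : (Fin n → ℝ) → ℝ}, Sol a b f g → 0 < b → b ≤ a → P a b → False :=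
    fun {a b f g} s hb hab hab' => by
    by_cases hpq : 1 < a * b
    · exact h a b hb hab hpq hab' f g s
    · exact s.small hn hb hab (not_lt.1 hpq)
  rcases le_total q p with hqp | hqp
  · exact key s hq hqp hpP
  · exact key s.symm hp hqp (hP _ _ hpP)

end

end Vale.Agent.P100
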