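import Mathlib
import Vale.Agent.P100.Statement
import Vale.Agent.P100.Scalar

/-!
# P100: the critical dimension of a subcritical pair, and the reduction of the literal statement

With `α = 2(p+1)/(pq-1)`, `β = 2(q+1)/(pq-1)` the pair is critical in the real dimension
`N = 2 + α + β`, and subcritical in dimension `n` exactly when `n < N`.
-/

namespace Vale.Agent.P100

open scoped ContDiff Laplacian

noncomputable section

variable {n : ℕ} {p q : ℝ}

/-- The real dimension in which the pair is critical. -/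
def critDim (p q : ℝ) : ℝ := 2 + wt p q 0 + wt p q 1

theorem wt_pos (hq : 0 < q) (hqp : q ≤ p) (hpq : 1 < p * q) : 0 < wt p q 0 ∧ 0 < wt p q 1 := by
  have hd : 0 < p * q - 1 := by linarith
  simp only [wt, Matrix.cons_val_zero, Matrix.cons_val_one]
  exact ⟨div_pos (by linarith) hd, div_pos (by linarith) hd⟩

theorem two_lt_critDim (hq : 0 < q) (hqp : q ≤ p) (hpq : 1 < p * q) : 2 < critDim p q := by
  have := wt_pos hq hqp hpq
  simp only [critDim]
  linarith

theorem wt_one_lt (hq : 0 < q) (hqp : q < p) (hpq : 1 < p * q) : wt p q 1 < wt p q 0 := by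
  simp only [wt, Matrix.cons_val_zero, Matrix.cons_val_one]
  exact div_lt_div_of_pos_right (by linarith) (by linarith)

/-- On the hyperbola of dimension `critDim p q`. -/
theorem critDim_critical (hq : 0 < q) (hqp : q ≤ p) (hpq : 1 < p * q) :
    critDim p q / (p + 1) + critDim p q / (q + 1) = critDim p q - 2 := by
  have h1 : p + 1 ≠ 0 := by linarith
  have h2 : q + 1 ≠ 0 := by linarith
  have h3 : p * q - 1 ≠ 0 := by linarith
  simp only [critDim, wt, Matrix.cons_val_zero, Matrix.cons_val_one]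
  field_simp
  ring

theorem wt_zero_mul (hq : 0 < q) (hqp : q ≤ p) (hpq : 1 < p * q) :
    wt p q 0 * (q + 1) = critDim p q := by
  have h3 : p * q - 1 ≠ 0 := by linarith
  simp only [critDim, wt, Matrix.cons_val_zero, Matrix.cons_val_one, div_eq_mul_inv]
  linear_combination (2 : ℝ) * mul_inv_cancel₀ h3

theorem wt_one_mul (hq : 0 < q) (hqp : q ≤ p) (hpq : 1 < p * q) :
    wt p q 1 * (p + 1) = critDim p q := by
  have h3 : p * q - 1 ≠ 0 := by linarith
  simp only [critDim, wt, Matrix.cons_val_zero, Matrix.cons_val_one, div_eq_mul_inv]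
  linear_combination (2 : ℝ) * mul_inv_cancel₀ h3

/-- Subcritical in dimension `n` means below the critical dimension. -/
theorem lt_critDim (hn : 3 ≤ n) (hq : 0 < q) (hqp : q ≤ p) (hpq : 1 < p * q)
    (hsub : ((n : ℝ) - 2) / n < 1 / (p + 1) + 1 / (q + 1)) : (n : ℝ) < critDim p q := by
  have hn0 : (3 : ℝ) ≤ n := by exact_mod_cast hn
  have hN := two_lt_critDim hq hqp hpq
  have h := critDim_critical hq hqp hpq
  have e : 1 / (p + 1) + 1 / (q + 1) = (critDim p q - 2) / critDim p q := by
    rw [eq_div_iff (by linarith), ← h]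
    ring
  rw [e, div_lt_div_iff₀ (by linarith) (by linarith)] at hsub
  nlinarith

/-- The diagonal below the exponent of Sobolev. -/
theorem lt_sobolev (hn : 3 ≤ n) (hp : 0 < p)
    (hsub : ((n : ℝ) - 2) / n < 1 / (p + 1) + 1 / (p + 1)) :
    p < ((n : ℝ) + 2) / ((n : ℝ) - 2) := by
  have hn0 : (3 : ℝ) ≤ n := by exact_mod_cast hn
  rw [← add_div, div_lt_div_iff₀ (by linarith) (by linarith)] at hsub
  rw [lt_div_iff₀ (by linarith)]
  nlinarith

/-- The literal statement for `n ≥ 5`, from the off-diagonal case with `n < critDim p q`. -/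
theorem lane_emden_of_offdiagonal (hn : 5 ≤ n)
    (H : ∀ a b : ℝ, 0 < b → b < a → 1 < a * b → (n : ℝ) < critDim a b →
      ∀ u v : (Fin n → ℝ) → ℝ, ¬ Sol a b u v)
    (hp : 0 < p) (hq : 0 < q) (hsub : ((n : ℝ) - 2) / n < 1 / (p + 1) + 1 / (q + 1))
    {u v : EuclideanSpace ℝ (Fin n) → ℝ} (hu : Continuous u) (hv : Continuous v)
    (hu2 : ContDiffOn ℝ 2 u {x | x ≠ 0}) (hv2 : ContDiffOn ℝ 2 v {x | x ≠ 0})
    (pu : ∀ x, 0 < u x) (pv : ∀ x, 0 < v x) (eu : ∀ x, x ≠ 0 → -(Δ u x) = v x ^ p)
    (ev : ∀ x, x ≠ 0 → -(Δ v x) = u x ^ q) : False := by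
  refine no_solution_of_ordered (P := fun a b => ((n : ℝ) - 2) / n < 1 / (a + 1) + 1 / (b + 1))
    (by omega) (fun a b h => by rwa [add_comm]) (fun a b hb hba hab hsub' u' v' s => ?_)
    hp hq hsub hu hv hu2 hv2 pu pv eu ev
  rcases hba.lt_or_eq with hlt | rfl
  · exact H a b hb hlt hab (lt_critDim (by omega) hb hba hab hsub') u' v' s
  · exact s.false_of_scalar hn (by nlinarith) (lt_sobolev (by omega) hb hsub')

end

end Vale.Agent.P100
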