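import Mathlib
import Vale.Agent.P100.Dimension

/-!
# P100: from a semidefinite certificate in dimension `N` to a strict one below

A five-function field with semidefinite forms in a real dimension `N > n` excludes solutions in
dimension `n`, provided the trace form does not vanish on the kernel. The two inequalities that
may be equalities are made strict by adding small multiples of `exp (κ r)` and of `r`.
-/

namespace Vale.Agent.P100

open Set Filter Topology Finset Function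
open scoped ContDiff

noncomputable section

variable {n : ℕ} {p q D : ℝ}

/-- The trace form of the completed square. -/
def Five.lin (p q D : ℝ) (F : Five) (r : ℝ) (z : Fin 3 → ℝ) : ℝ :=
  -(r ^ p) * F.A r * z 0 + (F.k₁ p q D r * z 1 + F.k₂ p q D r * z 2) / 2

/-- The coefficient of `|∇v|²`. -/
def Five.lg (p q D : ℝ) (F : Five) (r : ℝ) : ℝ := homD p q (D - 2 - wt p q 1) F.d r 1

/-- The coefficient of the Cauchy-Schwarz defect. -/
def Five.gap (p q D : ℝ) (F : Five) (r : ℝ) : ℝ :=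
  homD p q (D - 4 - wt p q 0 - wt p q 0 - wt p q 1) F.C r 1 - F.k₂ p q D r ^ 2 / (8 * F.A r)

/-- The form in `1, a, b` after removing `θ₁ a + θ₂ b + lg g`. -/
def Five.quad (N p q D : ℝ) (F : Five) (r θ₁ θ₂ : ℝ) (z : Fin 3 → ℝ) : ℝ :=
  (-F.c r * r ^ p - F.d r) * z 0 ^ 2
    + (-F.B r * r ^ p - F.C r + homD p q (D - 2 - wt p q 0) F.c r 0 - θ₁) * (z 0 * z 1)
    + (-F.A r * (p * r ^ (p - 1))
        + homD p q (D - 2 - wt p q 0) F.c r 1 + homD p q (D - 2 - wt p q 1) F.d r 0 - θ₂) * (z 0 * z 2)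
    + (homD p q (D - 4 - wt p q 0 - wt p q 0 - wt p q 0) F.B r 0
        - F.k₁ p q D r ^ 2 / (4 * F.A r)) * z 1 ^ 2
    + (homD p q (D - 4 - wt p q 0 - wt p q 0 - wt p q 0) F.B r 1
        + homD p q (D - 4 - wt p q 0 - wt p q 0 - wt p q 1) F.C r 0
        - F.k₁ p q D r * F.k₂ p q D r / (2 * F.A r)) * (z 1 * z 2)
    + (homD p q (D - 4 - wt p q 0 - wt p q 0 - wt p q 1) F.C r 1
        - F.k₂ p q D r ^ 2 / (4 * F.A r)) * z 2 ^ 2
    + F.lin p q D r z ^ 2 / (F.A r * N)

theorem Five.restAt_eq (F : Five) (N r θ₁ θ₂ a b g : ℝ) :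
    F.restAt N p q D r a b g = F.quad N p q D r θ₁ θ₂ ![1, a, b]
      + (θ₁ * a + θ₂ * b + F.lg p q D r * g) + F.gap p q D r * (a * g - b ^ 2) := by
  simp only [Five.restAt, Five.restInf, Five.slope, Five.quad, Five.lin, Five.lg, Five.gap,
    Matrix.cons_val_zero, Matrix.cons_val_one, Matrix.cons_val, div_div]
  ring

/-- The field with the two small additions. -/
def Five.bump (F : Five) (η κ : ℝ) : Five where
  A := F.A
  B := F.B
  C r := F.C r + η * Real.exp (κ * r)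
  c := F.c
  d r := F.d r + η * r

theorem Five.bump_smooth {F : Five} (hF : F.Smooth) (η κ : ℝ) : (F.bump η κ).Smooth where
  A := hF.A
  B := hF.B
  C := hF.C.add (contDiff_const.mul (Real.contDiff_exp.comp (contDiff_const.mul contDiff_id)))
  c := hF.c
  d := hF.d.add (contDiff_const.mul contDiff_id)

theorem deriv_bump_exp {f : ℝ → ℝ} (hf : ContDiff ℝ 1 f) (η κ r : ℝ) :
    deriv (fun r => f r + η * Real.exp (κ * r)) r = deriv f r + η * (κ * Real.exp (κ * r)) := by
  refine HasDerivAt.deriv ((hf.differentiable one_ne_zero r).hasDerivAt.add ?_)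
  have := (((hasDerivAt_id r).const_mul κ).exp).const_mul η
  simpa [mul_comm] using this

theorem deriv_bump_id {f : ℝ → ℝ} (hf : ContDiff ℝ 1 f) (η r : ℝ) :
    deriv (fun r => f r + η * r) r = deriv f r + η := by
  refine HasDerivAt.deriv ((hf.differentiable one_ne_zero r).hasDerivAt.add ?_)
  simpa using (hasDerivAt_id r).const_mul η

variable {u v : (Fin n → ℝ) → ℝ}

/-- No solution, from a semidefinite certificate in a real dimension `N > n`. -/
theorem Sol.false_of_semidef (h : Sol p q u v) (hn : 5 ≤ n) (hq : 0 < q) (hqp : q ≤ p)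
    (hpq : 1 < p * q) (hD : (n : ℝ) < D) {N : ℝ} (hN : (n : ℝ) < N) {F : Five} (hF : F.Smooth)
    {θ₁ θ₂ : ℝ → ℝ} (h₁ : ContinuousOn θ₁ (Icc 0 (((p + 1) / (q + 1)) ^ (1 / (p + 1)))))
    (h₂ : ContinuousOn θ₂ (Icc 0 (((p + 1) / (q + 1)) ^ (1 / (p + 1)))))
    (hA : ∀ r ∈ Icc 0 (((p + 1) / (q + 1)) ^ (1 / (p + 1))), 0 < F.A r)
    (hgap : ∀ r ∈ Icc 0 (((p + 1) / (q + 1)) ^ (1 / (p + 1))), 0 ≤ F.gap p q D r)
    (hlin : ∀ r ∈ Icc 0 (((p + 1) / (q + 1)) ^ (1 / (p + 1))), ∀ a b g : ℝ, 0 ≤ a → 0 ≤ g →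
      b ^ 2 ≤ a * g → 0 ≤ θ₁ r * a + θ₂ r * b + F.lg p q D r * g)
    (hquad : ∀ r ∈ Icc 0 (((p + 1) / (q + 1)) ^ (1 / (p + 1))), ∀ z,
      0 ≤ F.quad N p q D r (θ₁ r) (θ₂ r) z)
    (hker : ∀ r ∈ Icc 0 (((p + 1) / (q + 1)) ^ (1 / (p + 1))), ∀ z, z ≠ 0 →
      F.quad N p q D r (θ₁ r) (θ₂ r) z = 0 → F.lin p q D r z ≠ 0) :
    False := by
  set R := ((p + 1) / (q + 1)) ^ (1 / (p + 1))
  have hp : 0 < p := hq.trans_le hqp
  have hp1 : 1 ≤ p := by nlinarith
  have hR : 0 ≤ R := by positivity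
  have hn0 : (0 : ℝ) < n := by exact_mod_cast (show 0 < n by omega)
  have ck₂ : ContinuousOn (fun r => F.k₂ p q D r / (2 * F.A r)) (Icc 0 R) := by
    refine ContinuousOn.div ?_ (continuousOn_const.mul hF.A.continuous.continuousOn)
      fun r hr => (mul_pos two_pos (hA r hr)).ne'
    exact ((continuous_homD _ hF.A 1).add (continuous_const.mul hF.C.continuous)).continuousOn
  obtain ⟨M, hM⟩ := isCompact_Icc.exists_bound_of_continuousOn ck₂
  set κ := M + 2
  -- strict positivity in dimension `n`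
  set S : Set (Fin 3 → ℝ) := {z | ∑ i, z i ^ 2 = 1}
  have hSc : IsCompact S := by
    refine (isCompact_Icc (a := fun _ : Fin 3 => -(1 : ℝ)) (b := fun _ => 1)).of_isClosed_subset
      (isClosed_eq (by fun_prop) continuous_const) fun z hz => ?_
    have hb : ∀ i, -1 ≤ z i ∧ z i ≤ 1 := fun i => by
      refine abs_le_of_sq_le_sq' ?_ zero_le_one
      rw [one_pow, ← show ∑ i, z i ^ 2 = 1 from hz]
      exact single_le_sum (f := fun i => z i ^ 2) (fun _ _ => sq_nonneg _) (Finset.mem_univ i)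
    exact ⟨fun i => (hb i).1, fun i => (hb i).2⟩
  set Φ : ℝ → ℝ × (Fin 3 → ℝ) → ℝ :=
    fun η x => (F.bump η κ).quad n p q D x.1 (θ₁ x.1) (θ₂ x.1) x.2
  have hbC : ∀ η r, homD p q (D - 4 - wt p q 0 - wt p q 0 - wt p q 1) (F.bump η κ).C r 1
      = deriv F.C r + η * (κ * Real.exp (κ * r)) := fun η r => by
    simp [homD, Five.bump, deriv_bump_exp hF.C]
  have hbd : ∀ η r, homD p q (D - 2 - wt p q 1) (F.bump η κ).d r 1 = deriv F.d r + η := fun η r => by
    simp [homD, Five.bump, deriv_bump_id hF.d]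
  have hpos0 : ∀ x ∈ Icc 0 R ×ˢ S, 0 < Φ 0 x := by
    rintro ⟨r, z⟩ ⟨hr, hz⟩
    have e : Φ 0 (r, z) = F.quad N p q D r (θ₁ r) (θ₂ r) z
        + F.lin p q D r z ^ 2 / F.A r * (1 / n - 1 / N) := by
      simp only [Φ, Five.quad, Five.lin, Five.k₁, Five.k₂, Five.bump, zero_mul, add_zero]
      ring
    rw [e]
    have hAr := hA r hr
    have hd : 0 < 1 / (n : ℝ) - 1 / N := sub_pos.2 (one_div_lt_one_div_of_lt hn0 hN)
    rcases (hquad r hr z).lt_or_eq with h0 | h0
    · positivity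
    · have hne : z ≠ 0 := fun hz0 => by simp [S, hz0] at hz
      have := sq_pos_of_ne_zero (hker r hr z hne h0.symm)
      rw [← h0, zero_add]
      positivity
  -- `θ₁, θ₂` may be taken continuous on the line
  obtain ⟨t₁, ct₁, et₁⟩ : ∃ t, Continuous t ∧ ∀ r ∈ Icc 0 R, t r = θ₁ r :=
    ⟨IccExtend hR ((Icc 0 R).domRestrict θ₁), h₁.domRestrict.Icc_extend',
      fun r hr => IccExtend_of_mem hR _ hr⟩
  obtain ⟨t₂, ct₂, et₂⟩ : ∃ t, Continuous t ∧ ∀ r ∈ Icc 0 R, t r = θ₂ r :=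
    ⟨IccExtend hR ((Icc 0 R).domRestrict θ₂), h₂.domRestrict.Icc_extend',
      fun r hr => IccExtend_of_mem hR _ hr⟩
  have ev : ∀ᶠ η in 𝓝 (0 : ℝ), ∀ x ∈ Icc 0 R ×ˢ S,
      0 < (F.bump η κ).quad n p q D x.1 (t₁ x.1) (t₂ x.1) x.2
        ∧ η * Real.exp (κ * x.1) / (2 * F.A x.1) < 1 := by
    refine (isCompact_Icc.prod hSc).eventually_forall_of_forall_eventually fun x hx => ?_
    have hne : F.A x.1 ≠ 0 := (hA _ hx.1).ne'
    have := hF.A.continuous; have := hF.B.continuous; have := hF.C.continuous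
    have := hF.c.continuous; have := hF.d.continuous
    have := hF.A.continuous_deriv le_rfl; have := hF.B.continuous_deriv le_rfl
    have := hF.C.continuous_deriv le_rfl; have := hF.c.continuous_deriv le_rfl
    have := hF.d.continuous_deriv le_rfl
    have := Real.continuous_rpow_const (q := p) hp.le
    have := Real.continuous_rpow_const (q := p - 1) (by linarith)
    refine Filter.Eventually.and ?_ ?_
    · have hc : ContinuousAt (fun y : ℝ × ℝ × (Fin 3 → ℝ) =>
          (F.bump y.1 κ).quad n p q D y.2.1 (t₁ y.2.1) (t₂ y.2.1) y.2.2) (0, x) := by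
        simp only [Five.quad, Five.lin, Five.k₁, Five.k₂, Five.bump, homD, Matrix.cons_val_zero,
          Matrix.cons_val_one, deriv_bump_exp hF.C, deriv_bump_id hF.d]
        fun_prop (disch := simp [hne, hn0.ne'])
      refine hc.eventually_const_lt ?_
      simpa [Φ, et₁ _ hx.1, et₂ _ hx.1] using hpos0 x hx
    · have hc : ContinuousAt (fun y : ℝ × ℝ × (Fin 3 → ℝ) =>
          y.1 * Real.exp (κ * y.2.1) / (2 * F.A y.2.1)) (0, x) := by
        fun_prop (disch := simp [hne])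
      exact hc.eventually_lt_const (by simp)
  obtain ⟨z₀, hz₀⟩ : S.Nonempty := ⟨![1, 0, 0], by simp [S, Fin.sum_univ_three]⟩
  obtain ⟨η, hev, hη⟩ := ((ev.filter_mono nhdsWithin_le_nhds).and self_mem_nhdsWithin :
    ∀ᶠ η in 𝓝[>] (0 : ℝ), _ ∧ η ∈ Ioi (0 : ℝ)).exists
  have hη : 0 < η := hη
  set G := F.bump η κ
  have hG : G.Smooth := F.bump_smooth hF η κ
  -- the margins
  obtain ⟨ε₁, hε₁, m₁⟩ : ∃ ε > 0, ∀ r ∈ Icc 0 R, ∀ z,
      ε * ∑ i, z i ^ 2 ≤ G.quad n p q D r (θ₁ r) (θ₂ r) z := by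
    have hhom : ∀ r (c : ℝ) (z : Fin 3 → ℝ),
        G.quad n p q D r (t₁ r) (t₂ r) (c • z) = c ^ 2 * G.quad n p q D r (t₁ r) (t₂ r) z := by
      intro r c z
      simp only [Five.quad, Five.lin, Pi.smul_apply, smul_eq_mul]
      ring
    have hc : ContinuousOn (uncurry fun r z => G.quad n p q D r (t₁ r) (t₂ r) z) (Icc 0 R ×ˢ Set.univ) := by
      refine continuousOn_of_forall_continuousAt fun x hx => ?_
      have hne : F.A x.1 ≠ 0 := (hA _ hx.1).ne'
      have hne' : G.A x.1 ≠ 0 := hne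
      have := hG.A.continuous; have := hG.B.continuous; have := hG.C.continuous
      have := hG.c.continuous; have := hG.d.continuous
      have := hG.A.continuous_deriv le_rfl; have := hG.B.continuous_deriv le_rfl
      have := hG.C.continuous_deriv le_rfl; have := hG.c.continuous_deriv le_rfl
      have := hG.d.continuous_deriv le_rfl
      have := Real.continuous_rpow_const (q := p) hp.le
      have := Real.continuous_rpow_const (q := p - 1) (by linarith)
      simp only [uncurry_def, Five.quad, Five.lin, Five.k₁, Five.k₂, homD, Matrix.cons_val_zero,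
        Matrix.cons_val_one]
      fun_prop (disch := simp [hne', hn0.ne'])
    suffices hp' : ∀ r ∈ Icc 0 R, ∀ z, z ≠ 0 → 0 < G.quad n p q D r (t₁ r) (t₂ r) z by
      obtain ⟨ε, hε, hm⟩ := exists_margin hc (fun r _ => hhom r) hp'
      exact ⟨ε, hε, fun r hr z => by simpa only [et₁ r hr, et₂ r hr] using hm r hr z⟩
    intro r hr z hz
    obtain ⟨j, hj⟩ := Function.ne_iff.1 hz
    have hs : 0 < ∑ i, z i ^ 2 := sum_pos' (fun i _ => sq_nonneg _)
      ⟨j, Finset.mem_univ j, pow_two_pos_of_ne_zero hj⟩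
    have hmem : (√(∑ i, z i ^ 2))⁻¹ • z ∈ S := by
      show ∑ i, ((√(∑ i, z i ^ 2))⁻¹ • z) i ^ 2 = 1
      simp only [Pi.smul_apply, smul_eq_mul, mul_pow, ← mul_sum, inv_pow, Real.sq_sqrt hs.le]
      exact inv_mul_cancel₀ hs.ne'
    have := (hev (r, (√(∑ i, z i ^ 2))⁻¹ • z) ⟨hr, hmem⟩).1
    rw [hhom r, inv_pow, Real.sq_sqrt hs.le] at this
    exact (mul_pos_iff_of_pos_left (inv_pos.2 hs)).1 this
  obtain ⟨a₀, ha₀, hmin⟩ := isCompact_Icc.exists_isMinOn (nonempty_Icc.2 hR) hF.A.continuous.continuousOn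
  set ε := min (min ε₁ η) (F.A a₀)
  have hε : 0 < ε := lt_min (lt_min hε₁ hη) (hA a₀ ha₀)
  refine h.false_of_five hn hq hqp hpq hD hG hε
    (fun r hr hrR => (min_le_right _ _).trans (hmin ⟨hr.le, hrR⟩)) fun r hr hrR a b g ha hg hb => ?_
  have hrI : r ∈ Icc 0 R := ⟨hr.le, hrR⟩
  have hAr := hA r hrI
  rw [G.rest_eq hAr.ne' (by omega), G.restAt_eq n r (θ₁ r) (θ₂ r)]
  have hq' := m₁ r hrI ![1, a, b]
  simp only [Fin.sum_univ_three, Matrix.cons_val_zero, Matrix.cons_val_one, Matrix.cons_val, one_pow]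
    at hq'
  have hl : η * g ≤ θ₁ r * a + θ₂ r * b + G.lg p q D r * g := by
    have := hlin r hrI a b g ha hg hb
    simp only [Five.lg, hbd η r, G]
    simp only [Five.lg, homD, Matrix.cons_val_one, Matrix.cons_val_zero] at this
    linarith
  have hgap' : η ≤ G.gap p q D r := by
    have he : 1 ≤ Real.exp (κ * r) := by
      have hM0 : 0 ≤ M := (norm_nonneg _).trans (hM r hrI)
      exact Real.one_le_exp (mul_nonneg (by simp only [κ]; linarith) hr.le)
    have hk : F.k₂ p q D r / (2 * F.A r) ≤ M := (le_abs_self _).trans (hM r hrI)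
    have h1 := (hev (r, z₀) ⟨hrI, hz₀⟩).2.le
    have h2 := hgap r hrI
    have key : G.gap p q D r = F.gap p q D r + η * Real.exp (κ * r)
        * (κ - F.k₂ p q D r / (2 * F.A r) - η * Real.exp (κ * r) / (2 * F.A r)) := by
      simp only [Five.gap, G, hbC η r]
      simp only [Five.k₂, Five.bump, homD, Matrix.cons_val_one, Matrix.cons_val_zero]
      field_simp
      ring
    rw [key]
    have h3 : η ≤ η * Real.exp (κ * r) := le_mul_of_one_le_right hη.le he
    have h4 : 1 ≤ κ - F.k₂ p q D r / (2 * F.A r) - η * Real.exp (κ * r) / (2 * F.A r) := by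
      simp only [κ]; linarith
    nlinarith
  have hcs : 0 ≤ a * g - b ^ 2 := sub_nonneg.2 hb
  have := mul_le_mul_of_nonneg_right hgap' hcs
  have e1 := mul_le_mul_of_nonneg_right ((min_le_left _ _).trans (min_le_left ε₁ η) : ε ≤ ε₁)
    (by positivity : 0 ≤ 1 + a ^ 2 + b ^ 2)
  have e2 := mul_le_mul_of_nonneg_right ((min_le_left _ _).trans (min_le_right ε₁ η) : ε ≤ η)
    (add_nonneg hg hcs)
  linarith

end

end Vale.Agent.P100
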