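import Mathlib
import Vale.Agent.P100.Perturb

/-!
# P100: certificates that degenerate at `r = 0`

The remainder is superadditive in the field. Near `r = 0` there is an explicit strict field of every
degree in an interval. A multiple of it, added to a semidefinite field in a larger dimension that is
only regular for `r > 0`, excludes solutions.
-/

namespace Vale.Agent.P100

open Set Filter Topology Finset Function
open scoped ContDiff

noncomputable section

variable {n : ℕ} {p q D : ℝ}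

/-- The sum of a field and a multiple of another. -/
def Five.mix (F : Five) (η : ℝ) (G : Five) : Five where
  A r := F.A r + η * G.A r
  B r := F.B r + η * G.B r
  C r := F.C r + η * G.C r
  c r := F.c r + η * G.c r
  d r := F.d r + η * G.d r

theorem homD_mix (m η : ℝ) {f g : ℝ → ℝ} {r : ℝ} (hf : DifferentiableAt ℝ f r)
    (hg : DifferentiableAt ℝ g r) (e : Fin 2) :
    homD p q m (fun s => f s + η * g s) r e = homD p q m f r e + η * homD p q m g r e := by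
  have hd : deriv (fun s => f s + η * g s) r = deriv f r + η * deriv g r := by
    rw [deriv_fun_add hf (hg.const_mul η), deriv_const_mul η hg]
  fin_cases e <;> simp [homD, hd]
  ring

/-- All five differentiable at a point. -/
structure Five.DiffAt (F : Five) (r : ℝ) : Prop where
  A : DifferentiableAt ℝ F.A r
  B : DifferentiableAt ℝ F.B r
  C : DifferentiableAt ℝ F.C r
  c : DifferentiableAt ℝ F.c r
  d : DifferentiableAt ℝ F.d r

theorem Five.SmoothPos.diffAt {F : Five} (h : F.SmoothPos) {r : ℝ} (hr : 0 < r) : F.DiffAt r := by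
  have d : ∀ {f : ℝ → ℝ}, ContDiffOn ℝ 1 f (Set.Ioi 0) → DifferentiableAt ℝ f r := fun hf =>
    (hf.differentiableOn one_ne_zero).differentiableAt (Ioi_mem_nhds hr)
  exact ⟨d h.A, d h.B, d h.C, d h.c, d h.d⟩

theorem Five.k₁_mix {F G : Five} {η r : ℝ} (hF : F.DiffAt r) (hG : G.DiffAt r) :
    (F.mix η G).k₁ p q D r = F.k₁ p q D r + η * G.k₁ p q D r := by
  simp only [Five.k₁, Five.mix, homD_mix _ η hF.A hG.A]
  ring

theorem Five.k₂_mix {F G : Five} {η r : ℝ} (hF : F.DiffAt r) (hG : G.DiffAt r) :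
    (F.mix η G).k₂ p q D r = F.k₂ p q D r + η * G.k₂ p q D r := by
  simp only [Five.k₂, Five.mix, homD_mix _ η hF.A hG.A]
  ring

/-- The linear part of the remainder. -/
def Five.linPart (n : ℕ) (p q D : ℝ) (F : Five) (r a b g : ℝ) : ℝ :=
  (F.A r * (r ^ p) ^ 2 / n - F.c r * r ^ p - F.d r)
    + (homD p q (D - 4 - wt p q 0 - wt p q 0) F.A r 0 * (-(r ^ p) / n)
        - F.B r * r ^ p * (1 + 2 / n) - F.C r + homD p q (D - 2 - wt p q 0) F.c r 0) * a
    + (homD p q (D - 4 - wt p q 0 - wt p q 0) F.A r 1 * (-(r ^ p) / n)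
        - F.A r * (p * r ^ (p - 1)) - 2 * F.C r * r ^ p / n
        + homD p q (D - 2 - wt p q 0) F.c r 1 + homD p q (D - 2 - wt p q 1) F.d r 0) * b
    + homD p q (D - 2 - wt p q 1) F.d r 1 * g
    + homD p q (D - 4 - wt p q 0 - wt p q 0 - wt p q 0) F.B r 0 * a ^ 2
    + (homD p q (D - 4 - wt p q 0 - wt p q 0 - wt p q 0) F.B r 1
        + homD p q (D - 4 - wt p q 0 - wt p q 0 - wt p q 1) F.C r 0) * (a * b)
    + homD p q (D - 4 - wt p q 0 - wt p q 0 - wt p q 1) F.C r 1 * (a * g)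

theorem Five.rest_split (F : Five) (r a b g : ℝ) :
    F.rest n p q D r a b g = F.linPart n p q D r a b g
      - (1 - 1 / n) / 4 * ((F.k₁ p q D r * a + F.k₂ p q D r * b) ^ 2 / F.A r)
      - (a * g - b ^ 2) / 8 * (F.k₂ p q D r ^ 2 / F.A r) := by
  simp only [Five.rest, Five.linPart]
  ring

theorem sq_add_div_le {x y A B η : ℝ} (hA : 0 < A) (hB : 0 < B) (hη : 0 < η) :
    (x + η * y) ^ 2 / (A + η * B) ≤ x ^ 2 / A + η * (y ^ 2 / B) := by
  rw [div_le_iff₀ (by positivity)]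
  have key : x ^ 2 / A + η * (y ^ 2 / B) = (x ^ 2 * B + η * y ^ 2 * A) / (A * B) := by field_simp
  rw [key, div_mul_eq_mul_div, le_div_iff₀ (mul_pos hA hB)]
  nlinarith [mul_nonneg hη.le (sq_nonneg (x * B - y * A))]

theorem Five.rest_mix {F G : Five} {η r : ℝ} (hF : F.DiffAt r) (hG : G.DiffAt r) (hA : 0 < F.A r)
    (hA' : 0 < G.A r) (hη : 0 < η) (hn : n ≠ 0) {a b g : ℝ} (hb : b ^ 2 ≤ a * g) :
    F.rest n p q D r a b g + η * G.rest n p q D r a b g ≤ (F.mix η G).rest n p q D r a b g := by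
  have hl : (F.mix η G).linPart n p q D r a b g
      = F.linPart n p q D r a b g + η * G.linPart n p q D r a b g := by
    simp only [Five.linPart, Five.mix, homD_mix _ η hF.A hG.A, homD_mix _ η hF.B hG.B,
      homD_mix _ η hF.C hG.C, homD_mix _ η hF.c hG.c, homD_mix _ η hF.d hG.d]
    ring
  have hn1 : (1 : ℝ) ≤ n := by exact_mod_cast Nat.one_le_iff_ne_zero.2 hn
  have hc : 0 ≤ (1 - 1 / (n : ℝ)) / 4 := by
    have : 1 / (n : ℝ) ≤ 1 := (div_le_one (zero_lt_one.trans_le hn1)).2 hn1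
    linarith
  have hcs : 0 ≤ (a * g - b ^ 2) / 8 := by linarith
  have e1 := mul_le_mul_of_nonneg_left (sq_add_div_le (x := F.k₁ p q D r * a + F.k₂ p q D r * b)
    (y := G.k₁ p q D r * a + G.k₂ p q D r * b) hA hA' hη) hc
  have e2 := mul_le_mul_of_nonneg_left (sq_add_div_le (x := F.k₂ p q D r) (y := G.k₂ p q D r)
    hA hA' hη) hcs
  have e3 : F.k₁ p q D r * a + F.k₂ p q D r * b + η * (G.k₁ p q D r * a + G.k₂ p q D r * b)
      = (F.k₁ p q D r + η * G.k₁ p q D r) * a + (F.k₂ p q D r + η * G.k₂ p q D r) * b := by ring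
  rw [e3] at e1
  rw [Five.rest_split, Five.rest_split, Five.rest_split, hl, Five.k₁_mix hF hG, Five.k₂_mix hF hG]
  simp only [Five.mix]
  linarith

/-- The field used near `r = 0`. -/
def startCert (n : ℕ) (p q D : ℝ) : Five :=
  let k := (D - 4 - wt p q 0 - wt p q 0) / wt p q 0
  { A := fun _ => 1
    B := fun _ => ((k - 1) / (1 - 1 / n) - k) / 2
    C := fun r => r
    c := fun r => (D - 2 - wt p q 1) / wt p q 0 * r
    d := fun r => -1 + r }

theorem startCert_smooth : (startCert n p q D).Smooth where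
  A := contDiff_const
  B := contDiff_const
  C := contDiff_id
  c := contDiff_const.mul contDiff_id
  d := contDiff_const.add contDiff_id

theorem quad_smul (F : Five) (N r θ₁ θ₂ c : ℝ) (z : Fin 3 → ℝ) :
    F.quad N p q D r θ₁ θ₂ (c • z) = c ^ 2 * F.quad N p q D r θ₁ θ₂ z := by
  simp only [Five.quad, Five.lin, Pi.smul_apply, smul_eq_mul]
  ring

theorem continuousAt_quad (F : Five) {N : ℝ} {r : ℝ} {z : Fin 3 → ℝ} {θ₁ θ₂ : ℝ → ℝ} (hN : N ≠ 0)
    (h₁ : ContinuousAt θ₁ r) (h₂ : ContinuousAt θ₂ r) (hA : F.A r ≠ 0) (cA : ContinuousAt F.A r)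
    (cB : ContinuousAt F.B r) (cC : ContinuousAt F.C r) (cc : ContinuousAt F.c r)
    (cd : ContinuousAt F.d r) (cA' : ContinuousAt (deriv F.A) r) (cB' : ContinuousAt (deriv F.B) r)
    (cC' : ContinuousAt (deriv F.C) r) (cc' : ContinuousAt (deriv F.c) r)
    (cd' : ContinuousAt (deriv F.d) r) (hp : 1 ≤ p) :
    ContinuousAt (fun x : ℝ × (Fin 3 → ℝ) => F.quad N p q D x.1 (θ₁ x.1) (θ₂ x.1) x.2) (r, z) := by
  have := Real.continuous_rpow_const (q := p) (by linarith)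
  have := Real.continuous_rpow_const (q := p - 1) (by linarith)
  simp only [Five.quad, Five.lin, Five.k₁, Five.k₂, homD, Matrix.cons_val_zero,
    Matrix.cons_val_one]
  fun_prop (disch := simp [hA, hN])

theorem startCert_near_zero (hn : 5 ≤ n) (hp : 1 < p) (hα : 0 < wt p q 0)
    (hD1 : wt p q 0 * ((n : ℝ) - 4) / ((n : ℝ) - 2) + 4 < D) (hD2 : D < 3 * wt p q 0 + 4) :
    ∃ r₀ > 0, ∃ ε > 0, ∀ r, 0 < r → r ≤ r₀ → ∀ a b g, 0 ≤ a → 0 ≤ g → b ^ 2 ≤ a * g →
      ε * (1 + a ^ 2 + a * g + g) ≤ (startCert n p q D).rest n p q D r a b g := by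
  set F := startCert n p q D
  have hn5 : (5 : ℝ) ≤ n := by exact_mod_cast hn
  have hn0 : (n : ℝ) ≠ 0 := by linarith
  set k := (D - 4 - wt p q 0 - wt p q 0) / wt p q 0 with hk
  have hk1 : k < 1 := by rw [hk, div_lt_one hα]; linarith
  have hk2 : 0 < k * ((n : ℝ) - 2) / n + 1 := by
    have h' : wt p q 0 * ((n : ℝ) - 4) < (D - 4) * ((n : ℝ) - 2) :=
      (div_lt_iff₀ (by linarith : (0 : ℝ) < n - 2)).1 (by linarith)
    rw [hk, div_mul_eq_mul_div, div_div, div_add_one (mul_ne_zero hα.ne' hn0)]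
    refine div_pos ?_ (mul_pos hα (by linarith))
    nlinarith
  have h0 : ∀ z : Fin 3 → ℝ, z ≠ 0 → 0 < F.quad n p q D 0 0 0 z := fun z hz => by
    have e : F.quad n p q D 0 0 0 z
        = z 0 ^ 2 + (1 - k) * (k * ((n : ℝ) - 2) / n + 1) / (4 * (1 - 1 / n)) * z 1 ^ 2 + z 2 ^ 2 := by
      simp only [F, startCert, Five.quad, Five.lin, Five.k₁, Five.k₂, homD, Matrix.cons_val_zero,
        Matrix.cons_val_one, ← hk, Real.zero_rpow (by linarith : p ≠ 0),
        Real.zero_rpow (by linarith : p - 1 ≠ 0), deriv_const', deriv_id'', deriv_const_mul_id',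
        deriv_const_add_id']
      have : (1 : ℝ) - 1 / n ≠ 0 := by
        rw [sub_ne_zero, ne_comm, ne_eq, div_eq_one_iff_eq hn0]
        linarith
      have hn1 : (n : ℝ) - 1 ≠ 0 := by linarith
      have := hα.ne'
      rw [show (D - 4 - wt p q 0 - wt p q 0 - wt p q 0) / wt p q 0 = k - 1 by rw [hk]; field_simp]
      field_simp
      ring
    rw [e]
    have hc : 0 < (1 - k) * (k * ((n : ℝ) - 2) / n + 1) / (4 * (1 - 1 / n)) := by
      have : 1 / (n : ℝ) < 1 := (div_lt_one (by linarith)).2 (by linarith)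
      exact div_pos (mul_pos (by linarith) hk2) (by linarith)
    obtain ⟨j, hj⟩ := Function.ne_iff.1 hz
    have hj' : 0 < z j ^ 2 := pow_two_pos_of_ne_zero hj
    fin_cases j <;> simp only [Fin.zero_eta, Fin.mk_one, Fin.reduceFinMk] at hj'
    · nlinarith [sq_nonneg (z 2), mul_nonneg hc.le (sq_nonneg (z 1))]
    · nlinarith [sq_nonneg (z 2), sq_nonneg (z 0), mul_pos hc hj']
    · nlinarith [sq_nonneg (z 0), mul_nonneg hc.le (sq_nonneg (z 1))]
  set S : Set (Fin 3 → ℝ) := {z | ∑ i, z i ^ 2 = 1}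
  have hSc : IsCompact S := by
    refine (isCompact_Icc (a := fun _ : Fin 3 => -(1 : ℝ)) (b := fun _ => 1)).of_isClosed_subset
      (isClosed_eq (by fun_prop) continuous_const) fun z hz => ?_
    have hb : ∀ i, -1 ≤ z i ∧ z i ≤ 1 := fun i => by
      refine abs_le_of_sq_le_sq' ?_ zero_le_one
      rw [one_pow, ← show ∑ i, z i ^ 2 = 1 from hz]
      exact single_le_sum (f := fun i => z i ^ 2) (fun _ _ => sq_nonneg _) (Finset.mem_univ i)
    exact ⟨fun i => (hb i).1, fun i => (hb i).2⟩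
  have hF := startCert_smooth (n := n) (p := p) (q := q) (D := D)
  have hcont : ∀ r z, ContinuousAt (fun x : ℝ × (Fin 3 → ℝ) => F.quad n p q D x.1 0 0 x.2) (r, z) :=
    fun r z => continuousAt_quad F (θ₁ := fun _ => 0) (θ₂ := fun _ => 0) hn0 continuousAt_const
      continuousAt_const one_ne_zero hF.A.continuous.continuousAt hF.B.continuous.continuousAt
      hF.C.continuous.continuousAt hF.c.continuous.continuousAt hF.d.continuous.continuousAt
      (hF.A.continuous_deriv le_rfl).continuousAt (hF.B.continuous_deriv le_rfl).continuousAt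
      (hF.C.continuous_deriv le_rfl).continuousAt (hF.c.continuous_deriv le_rfl).continuousAt
      (hF.d.continuous_deriv le_rfl).continuousAt hp.le
  have ev : ∀ᶠ r in 𝓝 (0 : ℝ), ∀ z ∈ S, 0 < F.quad n p q D r 0 0 z := by
    refine hSc.eventually_forall_of_forall_eventually fun z hz => ?_
    exact (hcont 0 z).eventually_const_lt (h0 z fun hz0 => by simp [S, hz0] at hz)
  obtain ⟨δ, hδ, hball⟩ := Metric.eventually_nhds_iff.1 ev
  set r₀ := min (δ / 2) 1
  have hr₀ : 0 < r₀ := lt_min (by linarith) one_pos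
  obtain ⟨ε, hε, hm⟩ := exists_margin (R := r₀) (G := fun r z => F.quad n p q D r 0 0 z)
    (continuousOn_of_forall_continuousAt fun x _ => hcont x.1 x.2)
    (fun r _ c z => quad_smul F n r 0 0 c z) (fun r hr z hz => by
      obtain ⟨j, hj⟩ := Function.ne_iff.1 hz
      have hs : 0 < ∑ i, z i ^ 2 := sum_pos' (fun i _ => sq_nonneg _)
        ⟨j, Finset.mem_univ j, pow_two_pos_of_ne_zero hj⟩
      have hd : dist r 0 < δ := by
        rw [Real.dist_0_eq_abs, abs_of_nonneg hr.1]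
        linarith [hr.2, min_le_left (δ / 2) (1 : ℝ)]
      have := hball hd ((√(∑ i, z i ^ 2))⁻¹ • z) (by
        show ∑ i, ((√(∑ i, z i ^ 2))⁻¹ • z) i ^ 2 = 1
        simp only [Pi.smul_apply, smul_eq_mul, mul_pow, ← mul_sum, inv_pow, Real.sq_sqrt hs.le]
        exact inv_mul_cancel₀ hs.ne')
      rw [quad_smul, inv_pow, Real.sq_sqrt hs.le] at this
      exact (mul_pos_iff_of_pos_left (inv_pos.2 hs)).1 this)
  refine ⟨r₀, hr₀, min ε (1 / 2), lt_min hε (by norm_num), fun r hr hr' a b g ha hg hb => ?_⟩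
  have hr1 : r ≤ 1 := hr'.trans (min_le_right _ _)
  have hgap : 1 / 2 ≤ F.gap p q D r := by
    simp [F, startCert, Five.gap, Five.k₂, homD]
    nlinarith
  have hlg : F.lg p q D r = 1 := by simp [F, startCert, Five.lg, homD]
  rw [F.rest_eq (show F.A r ≠ 0 from one_ne_zero) (by omega), F.restAt_eq n r 0 0, hlg]
  have hq' := hm r ⟨hr.le, hr'⟩ ![1, a, b]
  simp only [Fin.sum_univ_three, Matrix.cons_val_zero, Matrix.cons_val_one, Matrix.cons_val, one_pow]
    at hq'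
  have hcs : 0 ≤ a * g - b ^ 2 := sub_nonneg.2 hb
  nlinarith [mul_le_mul_of_nonneg_right hgap hcs, mul_le_mul_of_nonneg_right (min_le_left ε (1 / 2))
    (by positivity : 0 ≤ 1 + a ^ 2 + b ^ 2), mul_le_mul_of_nonneg_right (min_le_right ε (1 / 2))
    (add_nonneg hg hcs)]

theorem rest_pos_away (hn : n ≠ 0) (hp : 1 ≤ p) {N R r₁ : ℝ} (hN : (n : ℝ) < N) (hr₁ : 0 < r₁)
    (hr₁R : r₁ ≤ R) {F : Five} (hF : F.SmoothPos) {θ₁ θ₂ : ℝ → ℝ} (h₁ : ContinuousOn θ₁ (Ioi 0))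
    (h₂ : ContinuousOn θ₂ (Ioi 0)) (hA : ∀ r ∈ Ioc 0 R, 0 < F.A r)
    (hgap : ∀ r ∈ Ioc 0 R, 0 < F.gap p q D r) (hlg : ∀ r ∈ Ioc 0 R, 0 < F.lg p q D r)
    (hlin : ∀ r ∈ Ioc 0 R, ∀ a b g : ℝ, 0 ≤ a → 0 ≤ g →
      b ^ 2 ≤ a * g → 0 ≤ θ₁ r * a + θ₂ r * b + F.lg p q D r * g)
    (hquad : ∀ r ∈ Ioc 0 R, ∀ z, 0 ≤ F.quad N p q D r (θ₁ r) (θ₂ r) z)
    (hker : ∀ r ∈ Ioc 0 R, ∀ z, z ≠ 0 →
      F.quad N p q D r (θ₁ r) (θ₂ r) z = 0 → F.lin p q D r z ≠ 0) :
    ∃ ε > 0, ∀ r ∈ Icc r₁ R, ∀ a b g, 0 ≤ a → 0 ≤ g → b ^ 2 ≤ a * g →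
      ε * (1 + a ^ 2 + a * g + g) ≤ F.rest n p q D r a b g := by
  have hn0 : (0 : ℝ) < n := Nat.cast_pos.2 (Nat.pos_of_ne_zero hn)
  have hsub : Icc r₁ R ⊆ Ioc 0 R := fun r hr => ⟨hr₁.trans_le hr.1, hr.2⟩
  have cF : ∀ {f : ℝ → ℝ}, ContinuousOn f (Ioi 0) → ∀ {r}, 0 < r → ContinuousAt f r :=
    fun {f} hf {r} hr => hf.continuousAt (Ioi_mem_nhds hr)
  have cD : ∀ {f : ℝ → ℝ}, ContDiffOn ℝ 1 f (Ioi 0) → ContinuousOn (deriv f) (Ioi 0) :=
    fun hf => hf.continuousOn_deriv_of_isOpen isOpen_Ioi le_rfl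
  have hposn : ∀ r ∈ Ioc 0 R, ∀ z,
      F.quad N p q D r (θ₁ r) (θ₂ r) z + F.lin p q D r z ^ 2 / F.A r * (1 / n - 1 / N)
        = F.quad n p q D r (θ₁ r) (θ₂ r) z := fun r _ z => by
    simp only [Five.quad]
    ring
  have hδ : 0 < 1 / (n : ℝ) - 1 / N := sub_pos.2 (one_div_lt_one_div_of_lt hn0 hN)
  obtain ⟨ε₁, hε₁, m₁⟩ : ∃ ε > 0, ∀ r ∈ Icc r₁ R, ∀ z,
      ε * ∑ i, z i ^ 2 ≤ F.quad n p q D r (θ₁ r) (θ₂ r) z := by
    obtain ⟨ε, hε, hm⟩ := exists_margin (d := 3) (R := R - r₁)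
      (G := fun s z => F.quad n p q D (r₁ + s) (θ₁ (r₁ + s)) (θ₂ (r₁ + s)) z)
      (continuousOn_of_forall_continuousAt fun x hx => by
        have hr : 0 < r₁ + x.1 := by linarith [hx.1.1]
        have hm : r₁ + x.1 ∈ Ioc 0 R := ⟨hr, by linarith [hx.1.2]⟩
        exact (continuousAt_quad F (z := x.2) hn0.ne' (cF h₁ hr) (cF h₂ hr) (hA _ hm).ne'
          (cF hF.A.continuousOn hr) (cF hF.B.continuousOn hr) (cF hF.C.continuousOn hr)
          (cF hF.c.continuousOn hr) (cF hF.d.continuousOn hr) (cF (cD hF.A) hr) (cF (cD hF.B) hr)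
          (cF (cD hF.C) hr) (cF (cD hF.c) hr) (cF (cD hF.d) hr) hp).comp
          (f := fun y : ℝ × (Fin 3 → ℝ) => (r₁ + y.1, y.2)) (by fun_prop))
      (fun s _ c z => quad_smul F n _ _ _ c z) (fun s hs z hz => by
        have hm : r₁ + s ∈ Ioc 0 R := ⟨by linarith [hs.1], by linarith [hs.2]⟩
        rw [← hposn _ hm z]
        have hAr := hA _ hm
        rcases (hquad _ hm z).lt_or_eq with h0 | h0
        · positivity
        · have := sq_pos_of_ne_zero (hker _ hm z hz h0.symm)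
          rw [← h0, zero_add]
          positivity)
    refine ⟨ε, hε, fun r hr z => ?_⟩
    have := hm (r - r₁) ⟨by linarith [hr.1], by linarith [hr.2]⟩ z
    rwa [add_sub_cancel] at this
  have cont : ∀ f : ℝ → ℝ, (∀ r, 0 < r → ContinuousAt f r) → ContinuousOn f (Icc r₁ R) :=
    fun f hf => continuousOn_of_forall_continuousAt fun r hr => hf r (hr₁.trans_le hr.1)
  have minOn : ∀ f : ℝ → ℝ, ContinuousOn f (Icc r₁ R) → (∀ r ∈ Icc r₁ R, 0 < f r) →
      ∃ c > 0, ∀ r ∈ Icc r₁ R, c ≤ f r := fun f hf hpos => by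
    obtain ⟨x, hx, hmin⟩ := isCompact_Icc.exists_isMinOn (nonempty_Icc.2 hr₁R) hf
    exact ⟨f x, hpos x hx, fun r hr => hmin hr⟩
  obtain ⟨lmin, hlmin, hlmin'⟩ := minOn (F.lg p q D) (cont _ fun r hr =>
    (cF (cD hF.d) hr).congr (.of_forall fun s => by simp [Five.lg, homD]))
    fun r hr => hlg r (hsub hr)
  obtain ⟨gmin, hgmin, hgmin'⟩ := minOn (F.gap p q D) (continuousOn_of_forall_continuousAt
    fun r hr => by
    have hr0 : 0 < r := hr₁.trans_le hr.1
    have := cF hF.A.continuousOn hr0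
    have := cF hF.C.continuousOn hr0
    have := cF (cD hF.A) hr0
    have := cF (cD hF.C) hr0
    have hne : F.A r ≠ 0 := (hA r (hsub hr)).ne'
    show ContinuousAt (fun r => F.gap p q D r) r
    simp only [Five.gap, Five.k₂, homD, Matrix.cons_val_one, Matrix.cons_val_zero]
    fun_prop (disch := simp [hne])) fun r hr => hgap r (hsub hr)
  obtain ⟨Mθ, hMθ⟩ := isCompact_Icc.exists_bound_of_continuousOn (s := Icc r₁ R)
    (f := fun r => |θ₁ r| + |θ₂ r|) (cont _ fun r hr => ((cF h₁ hr).abs).add (cF h₂ hr).abs)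
  have hMθ0 : 0 ≤ Mθ := (norm_nonneg _).trans (hMθ r₁ ⟨le_rfl, hr₁R⟩)
  set δ := min 1 (ε₁ / (2 * Mθ + 1))
  have hδ0 : 0 < δ := lt_min one_pos (by positivity)
  have hδM : δ * Mθ ≤ ε₁ / 2 := by
    refine (mul_le_mul_of_nonneg_right (min_le_right _ _) hMθ0).trans ?_
    rw [div_mul_eq_mul_div, div_le_iff₀ (by positivity)]
    nlinarith
  set ε₂ := min (min (ε₁ / 2) gmin) (δ * lmin)
  have hε₂ : 0 < ε₂ := lt_min (lt_min (by positivity) hgmin) (mul_pos hδ0 hlmin)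
  refine ⟨ε₂, hε₂, fun r hr a b g ha hg hb => ?_⟩
  rw [F.rest_eq (hA r (hsub hr)).ne' hn, F.restAt_eq n r (θ₁ r) (θ₂ r)]
  have hz := m₁ r hr ![1, a, b]
  simp only [Fin.sum_univ_three, Matrix.cons_val_zero, Matrix.cons_val_one, Matrix.cons_val,
    one_pow] at hz
  have hL := hlin r (hsub hr) a b g ha hg hb
  set L := θ₁ r * a + θ₂ r * b + F.lg p q D r * g
  have hM := (le_abs_self _).trans (hMθ r hr)
  have hab : F.lg p q D r * g ≤ L + Mθ * (1 + a ^ 2 + b ^ 2) := by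
    have h1 : -(θ₁ r * a) ≤ |θ₁ r| * (1 + a ^ 2 + b ^ 2) := by
      refine (neg_le_abs _).trans ?_
      rw [abs_mul, abs_of_nonneg ha]
      exact mul_le_mul_of_nonneg_left (by nlinarith [sq_nonneg (a - 1)]) (abs_nonneg _)
    have h2 : -(θ₂ r * b) ≤ |θ₂ r| * (1 + a ^ 2 + b ^ 2) := by
      refine (neg_le_abs _).trans ?_
      rw [abs_mul]
      exact mul_le_mul_of_nonneg_left (by nlinarith [sq_abs b, sq_nonneg (|b| - 1)]) (abs_nonneg _)
    have h3 := mul_le_mul_of_nonneg_right hM (by positivity : 0 ≤ 1 + a ^ 2 + b ^ 2)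
    simp only [L]
    nlinarith
  have hcs : 0 ≤ a * g - b ^ 2 := sub_nonneg.2 hb
  have t1 := mul_le_mul_of_nonneg_right (hgmin' r hr) hcs
  have t2 := mul_le_mul_of_nonneg_left hab hδ0.le
  have t3 := mul_le_mul_of_nonneg_right (min_le_left 1 (ε₁ / (2 * Mθ + 1)) : δ ≤ 1) hL
  have t4 := mul_le_mul_of_nonneg_right hδM (by positivity : 0 ≤ 1 + a ^ 2 + b ^ 2)
  have t5 := mul_le_mul_of_nonneg_left (mul_le_mul_of_nonneg_right (hlmin' r hr) hg) hδ0.le
  have u1 := mul_le_mul_of_nonneg_right ((min_le_left _ _).trans (min_le_left (ε₁ / 2) gmin) :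
    ε₂ ≤ ε₁ / 2) (by positivity : 0 ≤ 1 + a ^ 2 + b ^ 2)
  have u2 := mul_le_mul_of_nonneg_right ((min_le_left _ _).trans (min_le_right (ε₁ / 2) gmin) :
    ε₂ ≤ gmin) hcs
  have u3 := mul_le_mul_of_nonneg_right (min_le_right _ _ : ε₂ ≤ δ * lmin) hg
  linarith

theorem startCert_lower (hn : n ≠ 0) (hp : 1 ≤ p) {R r₁ : ℝ} (hr₁ : 0 < r₁) :
    ∃ M, 0 ≤ M ∧ ∀ r ∈ Icc r₁ R, ∀ a b g, 0 ≤ a → 0 ≤ g → b ^ 2 ≤ a * g →
      -(M * (1 + a ^ 2 + a * g + g)) ≤ (startCert n p q D).rest n p q D r a b g := by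
  have hn0 : (0 : ℝ) < n := Nat.cast_pos.2 (Nat.pos_of_ne_zero hn)
  set G := startCert n p q D
  have hG : G.Smooth := startCert_smooth
  -- the added field away from zero
  have cG : ∀ r z, ContinuousAt (fun x : ℝ × (Fin 3 → ℝ) => G.quad n p q D x.1 0 0 x.2) (r, z) :=
    fun r z => continuousAt_quad G (θ₁ := fun _ => 0) (θ₂ := fun _ => 0) hn0.ne' continuousAt_const
      continuousAt_const one_ne_zero hG.A.continuous.continuousAt hG.B.continuous.continuousAt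
      hG.C.continuous.continuousAt hG.c.continuous.continuousAt hG.d.continuous.continuousAt
      (hG.A.continuous_deriv le_rfl).continuousAt (hG.B.continuous_deriv le_rfl).continuousAt
      (hG.C.continuous_deriv le_rfl).continuousAt (hG.c.continuous_deriv le_rfl).continuousAt
      (hG.d.continuous_deriv le_rfl).continuousAt hp
  obtain ⟨M₁, hM₁⟩ := (isCompact_Icc.prod (isCompact_Icc (a := fun _ : Fin 3 => -(1 : ℝ))
    (b := fun _ => 1))).exists_bound_of_continuousOn (s := Icc r₁ R ×ˢ _)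
    (f := fun x : ℝ × (Fin 3 → ℝ) => G.quad n p q D x.1 0 0 x.2)
    (continuousOn_of_forall_continuousAt fun x _ => cG x.1 x.2)
  refine ⟨|M₁| + R ^ 2 / 2, by positivity, fun r hr a b g ha hg hb => ?_⟩
  rw [G.rest_eq (show G.A r ≠ 0 from one_ne_zero) hn, G.restAt_eq n r 0 0,
    show G.lg p q D r = 1 by simp [G, startCert, Five.lg, homD]]
  set s := √(1 + a ^ 2 + b ^ 2)
  have hs : 0 < s := Real.sqrt_pos.2 (by positivity)
  have hs2 : s ^ 2 = 1 + a ^ 2 + b ^ 2 := Real.sq_sqrt (by positivity)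
  have hbox : ∀ i, |(s⁻¹ • (![1, a, b] : Fin 3 → ℝ)) i| ≤ 1 := fun i => by
    rw [Pi.smul_apply, smul_eq_mul, abs_mul, abs_inv, abs_of_pos hs, inv_mul_le_iff₀ hs, mul_one]
    refine Real.abs_le_sqrt ?_
    fin_cases i <;> simp <;> nlinarith
  have hq1 := neg_le_of_abs_le ((hM₁ (r, s⁻¹ • ![1, a, b]) ⟨hr, fun i => neg_le_of_abs_le (hbox i),
    fun i => le_of_abs_le (hbox i)⟩).trans (le_abs_self _))
  rw [quad_smul, inv_pow, hs2, le_inv_mul_iff₀ (by positivity)] at hq1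
  have hgap : -(R ^ 2 / 2) ≤ G.gap p q D r := by
    simp [G, startCert, Five.gap, Five.k₂, homD]
    nlinarith [hr.1, hr.2]
  have hcs : 0 ≤ a * g - b ^ 2 := sub_nonneg.2 hb
  have := mul_le_mul_of_nonneg_right hgap hcs
  have := mul_nonneg (by positivity : 0 ≤ R ^ 2 / 2) (by positivity : 0 ≤ 1 + a ^ 2 + b ^ 2)
  have := mul_nonneg (abs_nonneg M₁) hcs
  have := mul_nonneg (by positivity : 0 ≤ |M₁| + R ^ 2 / 2) hg
  linarith

variable {u v : (Fin n → ℝ) → ℝ}

/-- No solution, from a semidefinite certificate that is regular for `r > 0` and bounded. -/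
theorem Sol.false_of_semidef_pos (h : Sol p q u v) (hn : 5 ≤ n) (hq : 0 < q) (hqp : q ≤ p)
    (hpq : 1 < p * q) (hD : (n : ℝ) < D)
    (hD1 : wt p q 0 * ((n : ℝ) - 4) / ((n : ℝ) - 2) + 4 < D) (hD2 : D < 3 * wt p q 0 + 4)
    {N : ℝ} (hN : (n : ℝ) < N) {F : Five} (hF : F.SmoothPos) (hbd : F.Bounded p q D) {θ₁ θ₂ : ℝ → ℝ}
    (h₁ : ContinuousOn θ₁ (Ioi 0)) (h₂ : ContinuousOn θ₂ (Ioi 0))
    (hA : ∀ r ∈ Ioc 0 (((p + 1) / (q + 1)) ^ (1 / (p + 1))), 0 < F.A r)
    (hgap : ∀ r ∈ Ioc 0 (((p + 1) / (q + 1)) ^ (1 / (p + 1))), 0 < F.gap p q D r)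
    (hlg : ∀ r ∈ Ioc 0 (((p + 1) / (q + 1)) ^ (1 / (p + 1))), 0 < F.lg p q D r)
    (hlin : ∀ r ∈ Ioc 0 (((p + 1) / (q + 1)) ^ (1 / (p + 1))), ∀ a b g : ℝ, 0 ≤ a → 0 ≤ g →
      b ^ 2 ≤ a * g → 0 ≤ θ₁ r * a + θ₂ r * b + F.lg p q D r * g)
    (hquad : ∀ r ∈ Ioc 0 (((p + 1) / (q + 1)) ^ (1 / (p + 1))), ∀ z,
      0 ≤ F.quad N p q D r (θ₁ r) (θ₂ r) z)
    (hker : ∀ r ∈ Ioc 0 (((p + 1) / (q + 1)) ^ (1 / (p + 1))), ∀ z, z ≠ 0 →
      F.quad N p q D r (θ₁ r) (θ₂ r) z = 0 → F.lin p q D r z ≠ 0) :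
    False := by
  set R := ((p + 1) / (q + 1)) ^ (1 / (p + 1))
  have hp : 0 < p := hq.trans_le hqp
  have hp1 : 1 < p := by nlinarith
  have hR : 0 < R := Real.rpow_pos_of_pos (div_pos (by linarith) (by linarith)) _
  have hn0 : (0 : ℝ) < n := by exact_mod_cast (show 0 < n by omega)
  have hα : 0 < wt p q 0 := by
    simp only [wt, Matrix.cons_val_zero]
    exact div_pos (by linarith) (by linarith)
  set G := startCert n p q D
  have hG : G.Smooth := startCert_smooth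
  obtain ⟨r₀, hr₀, ε₀, hε₀, hstart⟩ := startCert_near_zero hn hp1 hα hD1 hD2
  set r₁ := min r₀ R
  have hr₁ : 0 < r₁ := lt_min hr₀ hR
  have hr₁R : r₁ ≤ R := min_le_right _ _
  have hquadn : ∀ r ∈ Ioc 0 R, ∀ z, 0 ≤ F.quad n p q D r (θ₁ r) (θ₂ r) z := fun r hr z => by
    have e : F.quad n p q D r (θ₁ r) (θ₂ r) z = F.quad N p q D r (θ₁ r) (θ₂ r) z
        + F.lin p q D r z ^ 2 / F.A r * (1 / n - 1 / N) := by
      simp only [Five.quad]
      ring
    rw [e]
    exact add_nonneg (hquad r hr z) (mul_nonneg (div_nonneg (sq_nonneg _) (hA r hr).le)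
      (sub_nonneg.2 (one_div_le_one_div_of_le hn0 hN.le)))
  obtain ⟨ε₂, hε₂, hrestF⟩ := rest_pos_away (n := n) (p := p) (q := q) (D := D) (by omega) hp1.le hN
    hr₁ hr₁R hF h₁ h₂ hA hgap hlg hlin hquad hker
  obtain ⟨M₂, hM₂, hrestG⟩ := startCert_lower (n := n) (p := p) (q := q) (D := D) (by omega) hp1.le
    (R := R) hr₁
  set η := ε₂ / (2 * (M₂ + 1))
  have hη : 0 < η := by positivity
  have hηM : η * M₂ ≤ ε₂ / 2 := by
    simp only [η]
    rw [div_mul_eq_mul_div, div_le_iff₀ (by positivity)]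
    nlinarith
  set K := F.mix η G
  have dG : ∀ r, G.DiffAt r := fun r => ⟨hG.A.differentiable one_ne_zero r,
    hG.B.differentiable one_ne_zero r, hG.C.differentiable one_ne_zero r,
    hG.c.differentiable one_ne_zero r, hG.d.differentiable one_ne_zero r⟩
  have hK : K.SmoothPos := ⟨hF.A.add (contDiffOn_const.mul hG.A.contDiffOn),
    hF.B.add (contDiffOn_const.mul hG.B.contDiffOn), hF.C.add (contDiffOn_const.mul hG.C.contDiffOn),
    hF.c.add (contDiffOn_const.mul hG.c.contDiffOn), hF.d.add (contDiffOn_const.mul hG.d.contDiffOn)⟩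
  have hKb : K.Bounded p q D := by
    obtain ⟨M, hM⟩ := hbd
    obtain ⟨M', hM'⟩ := hG.bounded p q D
    refine ⟨M + η * M', fun r hr => ?_⟩
    rw [Five.k₁_mix (hF.diffAt hr.1) (dG r), Five.k₂_mix (hF.diffAt hr.1) (dG r)]
    simp only [K, Five.mix]
    have h0 : ∀ x y : ℝ, |x + η * y| ≤ |x| + η * |y| := fun x y =>
      (abs_add_le _ _).trans_eq (by rw [abs_mul, abs_of_pos hη])
    have := mul_le_mul_of_nonneg_left (hM' r hr) hη.le
    linarith [hM r hr, h0 (F.A r) (G.A r), h0 (F.B r) (G.B r), h0 (F.C r) (G.C r),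
      h0 (F.c r) (G.c r), h0 (F.d r) (G.d r), h0 (F.k₁ p q D r) (G.k₁ p q D r),
      h0 (F.k₂ p q D r) (G.k₂ p q D r)]
  have hε : 0 < min η (min (η * ε₀) (ε₂ / 2)) := lt_min hη (lt_min (mul_pos hη hε₀) (half_pos hε₂))
  refine h.false_of_five_pos hn hq hqp hpq hD hK hKb hε (fun r hr hrR => ?_)
    fun r hr hrR a b g ha hg hb => ?_
  · refine (min_le_left _ _).trans ?_
    simp only [K, Five.mix, G, startCert, mul_one]
    linarith [hA r ⟨hr, hrR⟩]
  have hm := Five.rest_mix (p := p) (q := q) (D := D) (n := n) (a := a) (g := g) (hF.diffAt hr)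
    (dG r) (hA r ⟨hr, hrR⟩) (show 0 < G.A r from one_pos) hη (by omega) hb
  refine le_trans ?_ hm
  have hsize : 0 ≤ 1 + a ^ 2 + a * g + g := by positivity
  by_cases hc : r ≤ r₁
  · have h1 : 0 ≤ F.rest n p q D r a b g := by
      rw [F.rest_eq (hA r ⟨hr, hrR⟩).ne' (by omega), F.restAt_eq n r (θ₁ r) (θ₂ r)]
      have := hquadn r ⟨hr, hrR⟩ ![1, a, b]
      have := hlin r ⟨hr, hrR⟩ a b g ha hg hb
      have := mul_nonneg (hgap r ⟨hr, hrR⟩).le (sub_nonneg.2 hb)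
      linarith
    have h2 := mul_le_mul_of_nonneg_left (hstart r hr (hc.trans (min_le_left _ _)) a b g ha hg hb) hη.le
    have h3 := mul_le_mul_of_nonneg_right ((min_le_right _ _).trans (min_le_left (η * ε₀) (ε₂ / 2)) :
      min η (min (η * ε₀) (ε₂ / 2)) ≤ η * ε₀) hsize
    linarith
  · have hr' : r ∈ Icc r₁ R := ⟨(not_le.1 hc).le, hrR⟩
    have h1 := hrestF r hr' a b g ha hg hb
    have h2 := mul_le_mul_of_nonneg_left (hrestG r hr' a b g ha hg hb) hη.le
    have h3 := mul_le_mul_of_nonneg_right hηM hsize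
    have h4 := mul_le_mul_of_nonneg_right ((min_le_right _ _).trans (min_le_right (η * ε₀) (ε₂ / 2)) :
      min η (min (η * ε₀) (ε₂ / 2)) ≤ ε₂ / 2) hsize
    linarith

end

end Vale.Agent.P100
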